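import Vale.Agent.P036.Count

open Finset

namespace Vale.Agent.P036

open Classical in
lemma fiber_comp {α : Type*} (Ω : Finset α) (n k : ℕ) (g : Fin k → Fin n)
    (hg : Function.Injective g) (B : (Fin k → α) → Prop) :
    (((Fintype.piFinset (fun _ : Fin n => Ω)).filter (fun f => B (f ∘ g))).card : ℝ)
      ≤ (Ω.card : ℝ) ^ (n - k) * ((Fintype.piFinset (fun _ : Fin k => Ω)).filter B).card := by
  apply card_le_fiber _ (fun f => f ∘ g) _ _ (by positivity)
  · intro ω _
    have h1 : (((Fintype.piFinset (fun _ : Fin n => Ω)).filter (fun f => B (f ∘ g))).filter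
        (fun f => f ∘ g = ω)).card ≤
        (Fintype.piFinset (fun _ : {a : Fin n // a ∉ univ.image g} => Ω)).card := by
      apply card_le_card_of_injOn (fun f a => f a.1)
      · intro f hf
        simp only [coe_filter, mem_filter, Fintype.mem_piFinset, Set.mem_ofPred_eq] at hf
        simp only [mem_coe, Fintype.mem_piFinset]
        exact fun a => hf.1.1 _
      · intro f hf f' hf' h
        simp only [coe_filter, mem_filter, Fintype.mem_piFinset, Set.mem_ofPred_eq] at hf hf'
        funext a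
        by_cases ha : a ∈ univ.image g
        · obtain ⟨b, _, rfl⟩ := mem_image.mp ha
          exact congrFun (hf.2.trans hf'.2.symm) b
        · exact congrFun h ⟨a, ha⟩
    rw [Fintype.card_piFinset, prod_const, card_univ, Fintype.card_subtype_compl,
      Fintype.card_coe, card_image_of_injective _ hg] at h1
    simp only [Fintype.card_fin, card_univ] at h1
    exact_mod_cast h1
  · have : ((Fintype.piFinset (fun _ : Fin n => Ω)).filter (fun f => B (f ∘ g))).image
        (fun f => f ∘ g) ⊆ (Fintype.piFinset (fun _ : Fin k => Ω)).filter B := by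
      intro ω hω
      obtain ⟨f, hf, rfl⟩ := mem_image.mp hω
      simp only [mem_filter, Fintype.mem_piFinset] at hf ⊢
      exact ⟨fun a => hf.1 _, hf.2⟩
    exact_mod_cast card_le_card this

open Classical in
noncomputable def badSet {α : Type*} (n k : ℕ) (B : (Fin k → α) → Prop) (f : Fin n → α) :
    Finset (Fin k → Fin n) := univ.filter (fun g => Function.Injective g ∧ B (f ∘ g))

open Classical in
lemma sum_bad {α : Type*} (Ω : Finset α) (n k : ℕ) (B : (Fin k → α) → Prop) :
    ∑ f ∈ Fintype.piFinset (fun _ : Fin n => Ω), ((badSet n k B f).card : ℝ)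
      ≤ (n : ℝ) ^ k * ((Ω.card : ℝ) ^ (n - k) *
        ((Fintype.piFinset (fun _ : Fin k => Ω)).filter B).card) := by
  calc _ = ∑ g : Fin k → Fin n, (((Fintype.piFinset (fun _ : Fin n => Ω)).filter
        (fun f => Function.Injective g ∧ B (f ∘ g))).card : ℝ) := by
        simp only [badSet, card_filter]
        push_cast
        rw [sum_comm]
    _ ≤ ∑ g : Fin k → Fin n, ((Ω.card : ℝ) ^ (n - k) *
        ((Fintype.piFinset (fun _ : Fin k => Ω)).filter B).card) := by
        apply sum_le_sum
        intro g _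
        by_cases hg : Function.Injective g
        · simp only [hg, true_and]
          exact fiber_comp Ω n k g hg B
        · simp only [hg, false_and, filter_false, card_empty, Nat.cast_zero]
          positivity
    _ = _ := by simp

open Classical in
lemma alteration {α : Type*} (Ω : Finset α) (hΩ : Ω.Nonempty) (n : ℕ) (hn : 3 ≤ n)
    (B2 : (Fin 2 → α) → Prop) (B3 : (Fin 3 → α) → Prop) (hd : ∀ ω, ω 0 = ω 1 → B2 ω)
    (h2 : 4 * (n : ℝ) * ((Fintype.piFinset (fun _ : Fin 2 => Ω)).filter B2).card ≤ (Ω.card : ℝ) ^ 2)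
    (h3 : 4 * (n : ℝ) ^ 2 * ((Fintype.piFinset (fun _ : Fin 3 => Ω)).filter B3).card
      ≤ (Ω.card : ℝ) ^ 3) :
    ∃ S ⊆ Ω, n ≤ 2 * S.card ∧ (∀ ω : Fin 2 → α, Function.Injective ω → (∀ k, ω k ∈ S) → ¬ B2 ω) ∧
      (∀ ω : Fin 3 → α, Function.Injective ω → (∀ k, ω k ∈ S) → ¬ B3 ω) := by
  set F := Fintype.piFinset (fun _ : Fin n => Ω) with hF
  have hFne : F.Nonempty := Fintype.piFinset_nonempty.mpr (fun _ => hΩ)
  have hM : (0 : ℝ) < Ω.card := by exact_mod_cast hΩ.card_pos
  obtain ⟨f, hf, hb⟩ := exists_le_of_sum_le (s := F) hFne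
    (f := fun f => ((badSet n 2 B2 f).card : ℝ) + (badSet n 3 B3 f).card)
    (g := fun _ => (n : ℝ) / 2) (by
      rw [sum_add_distrib, sum_const, nsmul_eq_mul, hF, Fintype.card_piFinset, prod_const,
        card_univ, Fintype.card_fin]
      have e2 := sum_bad Ω n 2 B2
      have e3 := sum_bad Ω n 3 B3
      have p2 : (Ω.card : ℝ) ^ n = (Ω.card : ℝ) ^ (n - 2) * (Ω.card : ℝ) ^ 2 := by
        rw [← pow_add]; congr 1; omega
      have p3 : (Ω.card : ℝ) ^ n = (Ω.card : ℝ) ^ (n - 3) * (Ω.card : ℝ) ^ 3 := by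
        rw [← pow_add]; congr 1; omega
      have hn0 : (0 : ℝ) ≤ n := Nat.cast_nonneg _
      have q2 := mul_le_mul_of_nonneg_left h2 (by positivity : 0 ≤ (n : ℝ) * (Ω.card : ℝ) ^ (n - 2))
      have q3 := mul_le_mul_of_nonneg_left h3 (by positivity : 0 ≤ (n : ℝ) * (Ω.card : ℝ) ^ (n - 3))
      push_cast
      have r2 : (n : ℝ) * (Ω.card : ℝ) ^ (n - 2) * (Ω.card : ℝ) ^ 2 = n * (Ω.card : ℝ) ^ n := by
        rw [p2]; ring
      have r3 : (n : ℝ) * (Ω.card : ℝ) ^ (n - 3) * (Ω.card : ℝ) ^ 3 = n * (Ω.card : ℝ) ^ n := by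
        rw [p3]; ring
      nlinarith)
  set D := (badSet n 2 B2 f).image (fun g => g 0) ∪ (badSet n 3 B3 f).image (fun g => g 0) with hD
  have hDc : D.card ≤ (badSet n 2 B2 f).card + (badSet n 3 B3 f).card :=
    (card_union_le _ _).trans (add_le_add card_image_le card_image_le)
  have hDc' : 2 * D.card ≤ n := by
    have : (D.card : ℝ) ≤ (badSet n 2 B2 f).card + (badSet n 3 B3 f).card := by exact_mod_cast hDc
    have : 2 * (D.card : ℝ) ≤ n := by linarith
    exact_mod_cast this
  have hinj : Set.InjOn f (Dᶜ : Finset (Fin n)) := by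
    intro a ha b hb hab
    by_contra hne
    apply mem_compl.mp (mem_coe.mp ha)
    refine mem_union_left _ (mem_image.mpr ⟨![a, b], ?_, rfl⟩)
    simp only [badSet, mem_filter, mem_univ, true_and]
    refine ⟨?_, hd _ hab⟩
    intro i j hij
    fin_cases i <;> fin_cases j <;> simp_all
  refine ⟨Dᶜ.image f, ?_, ?_, ?_, ?_⟩
  · intro a ha
    obtain ⟨i, _, rfl⟩ := mem_image.mp ha
    exact Fintype.mem_piFinset.mp hf i
  · rw [card_image_of_injOn hinj, card_compl, Fintype.card_fin]; omega
  · intro ω hω hS hB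
    choose g hg hgω using fun k => mem_image.mp (hS k)
    have e : f ∘ g = ω := funext hgω
    apply mem_compl.mp (hg 0)
    refine mem_union_left _ (mem_image.mpr ⟨g, ?_, rfl⟩)
    simp only [badSet, mem_filter, mem_univ, true_and]
    exact ⟨Function.Injective.of_comp (e ▸ hω), e ▸ hB⟩
  · intro ω hω hS hB
    choose g hg hgω using fun k => mem_image.mp (hS k)
    have e : f ∘ g = ω := funext hgω
    apply mem_compl.mp (hg 0)
    refine mem_union_right _ (mem_image.mpr ⟨g, ?_, rfl⟩)
    simp only [badSet, mem_filter, mem_univ, true_and]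
    exact ⟨Function.Injective.of_comp (e ▸ hω), e ▸ hB⟩

end Vale.Agent.P036
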