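import Vale.Agent.P036.Par

open Finset

namespace Vale.Agent.P036

lemma cross_smul_right (x y : V) (h : ℤ) : cross x (h • y) = h • cross x y := by
  refine V.ext3 ?_ ?_ ?_ <;> simp <;> ring

lemma dot_smul_left (c a : V) (k : ℤ) : dot (k • c) a = k * dot c a := by
  simp only [dot, Pi.smul_apply, smul_eq_mul]; ring

lemma dot_cross_left (x y : V) : dot x (cross x y) = 0 := by simp [dot]; ring

lemma dot_cross_right (x y : V) : dot y (cross x y) = 0 := by simp [dot]; ring

lemma dvd_dot {m : ℤ} (c a : V) (h : ∀ k, m ∣ a k) : m ∣ dot c a :=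
  dvd_add (dvd_add ((h 0).mul_left _) ((h 1).mul_left _)) ((h 2).mul_left _)

namespace Par

variable (π : Par)

/-- specification of the base point of the last row -/
def Spec (zb : V) (ζ : ℤ → V → V → V) : Prop :=
  ∀ e x y k, π.q ∣ ζ e x y k - zb k ∧ π.P ∣ ζ e x y k - (x k ^ 2 - π.ε * y k ^ 2 + e)

noncomputable def EL : Finset (ℤ × V) := Ico 0 π.P ×ˢ Box π.Lz

open Classical in
noncomputable def om (c : V) : ℝ := if π.P ∣ sm c then π.P else 1

lemma el_count {zb : V} {ζ : ℤ → V → V → V} (hζ : π.Spec zb ζ) (x y c : V) (A : ℝ) (hA : 0 ≤ A)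
    (p : ℤ × V → Prop) [DecidablePred p]
    (hp : ∀ a b, p a → p b → dot c (π.zrow (ζ a.1 x y) a.2) = dot c (π.zrow (ζ b.1 x y) b.2))
    (hF : ∀ F ⊆ Box π.Lz, (∀ a ∈ F, ∀ b ∈ F, dot c a = dot c b) → (F.card : ℝ) ≤ A) :
    ((π.EL.filter p).card : ℝ) ≤ π.om c * A := by
  rw [mul_comm]
  apply card_le_fiber _ Prod.fst _ _ hA
  · intro e _
    rw [← card_image_of_injOn (f := Prod.snd) (by
      intro a ha b hb hab
      simp only [coe_filter, Set.mem_ofPred_eq] at ha hb
      exact Prod.ext (ha.2.trans hb.2.symm) hab)]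
    apply hF
    · intro l hl
      obtain ⟨a, ha, rfl⟩ := mem_image.mp hl
      simp only [mem_filter, EL, mem_product] at ha
      exact ha.1.1.2
    · intro l hl l' hl'
      obtain ⟨a, ha, rfl⟩ := mem_image.mp hl
      obtain ⟨b, hb, rfl⟩ := mem_image.mp hl'
      simp only [mem_filter] at ha hb
      have h1 := hp a b ha.1.2 hb.1.2
      rw [ha.2, hb.2] at h1
      have h2 : π.q * π.P * (dot c a.2 - dot c b.2) = 0 := by
        simp only [dot, zrow] at h1 ⊢; linear_combination h1
      have h3 : π.q * π.P ≠ 0 := (mul_pos π.hq0 π.hP0).ne'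
      have := (mul_eq_zero.mp h2).resolve_left h3
      linarith
  · unfold om
    split_ifs with h
    · have : (π.EL.filter p).image Prod.fst ⊆ Ico 0 π.P := by
        intro e he
        obtain ⟨a, ha, rfl⟩ := mem_image.mp he
        simp only [mem_filter, EL, mem_product] at ha
        exact ha.1.1
      have h2 := card_le_card this
      rw [Int.card_Ico, sub_zero] at h2
      have h3 : ((((π.EL.filter p).image Prod.fst).card : ℤ)) ≤ π.P := by
        rw [← Int.toNat_of_nonneg π.hP0.le]; exact_mod_cast h2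
      exact_mod_cast h3
    · have : ((π.EL.filter p).image Prod.fst).card ≤ 1 := by
        apply card_le_one.mpr
        intro e he e' he'
        obtain ⟨a, ha, rfl⟩ := mem_image.mp he
        obtain ⟨b, hb, rfl⟩ := mem_image.mp he'
        simp only [mem_filter, EL, mem_product, mem_Ico] at ha hb
        have h1 := hp a b ha.2 hb.2
        have h2 : π.P ∣ (a.1 - b.1) * sm c := by
          have d1 := dvd_dot c (fun k => ζ a.1 x y k - (x k ^ 2 - π.ε * y k ^ 2 + a.1))
            (fun k => (hζ a.1 x y k).2)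
          have d2 := dvd_dot c (fun k => ζ b.1 x y k - (x k ^ 2 - π.ε * y k ^ 2 + b.1))
            (fun k => (hζ b.1 x y k).2)
          have e : (a.1 - b.1) * sm c =
              dot c (fun k => ζ b.1 x y k - (x k ^ 2 - π.ε * y k ^ 2 + b.1))
              - dot c (fun k => ζ a.1 x y k - (x k ^ 2 - π.ε * y k ^ 2 + a.1))
              + π.P * (π.q * (dot c b.2 - dot c a.2)) := by
            simp only [dot, zrow, sm] at h1 ⊢; linear_combination h1
          rw [e]
          exact dvd_add (dvd_sub d2 d1) (dvd_mul_right _ _)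
        have h3 := (π.hP.dvd_or_dvd h2).resolve_right h
        have := Int.eq_zero_of_abs_lt_dvd h3 (by rw [abs_lt]; constructor <;> omega)
        omega
      exact_mod_cast this

lemma z_count {zb : V} {ζ : ℤ → V → V → V} (hζ : π.Spec zb ζ) (x y : V) (hy : y ≠ 0)
    (hC : cross x (pp y) ≠ 0) (hx : nrm x ≤ π.Lz) (hy' : nrm y ≤ π.Lz) :
    ((π.EL.filter (fun a => 2 * |dot (cross x y) (π.zrow (ζ a.1 x y) a.2)| < π.q)).card : ℝ)
      ≤ π.om (pp (cross x (pp y))) * (8 * π.Lz ^ 2 / nrm (pp (cross x (pp y)))) := by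
  set c := pp (cross x (pp y)) with hc
  have hcP : Prim c := prim_pp hC
  have hc0 : (0 : ℝ) < nrm c := by exact_mod_cast hcP.nrm_pos
  have hcr : cross x y = (cont y * cont (cross x (pp y))) • c := by
    conv_lhs => rw [← cont_smul_pp y, cross_smul_right, ← cont_smul_pp (cross x (pp y))]
    rw [smul_smul]
  have hG : 1 ≤ cont y * cont (cross x (pp y)) := mul_pos (cont_pos hy) (cont_pos hC)
  have key : ∀ z, 2 * |dot (cross x y) z| < π.q → 2 * |dot c z| < π.q := by
    intro z hz
    rw [hcr, dot_smul_left, abs_mul, abs_of_pos (by omega)] at hz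
    nlinarith [abs_nonneg (dot c z)]
  apply π.el_count hζ x y c _ (by positivity)
  · intro a b ha hb
    have h1 := key _ ha
    have h2 := key _ hb
    have h3 : π.q ∣ dot c (π.zrow (ζ a.1 x y) a.2) - dot c (π.zrow (ζ b.1 x y) b.2) := by
      rw [← dot_sub]
      apply dvd_dot
      intro k
      have e : (π.zrow (ζ a.1 x y) a.2 - π.zrow (ζ b.1 x y) b.2) k
          = (ζ a.1 x y k - zb k) - (ζ b.1 x y k - zb k) + π.q * (π.P * (a.2 k - b.2 k)) := by
        simp only [Pi.sub_apply, zrow]; ring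
      rw [e]
      exact dvd_add (dvd_sub (hζ _ _ _ _).1 (hζ _ _ _ _).1) (dvd_mul_right _ _)
    have := Int.eq_zero_of_abs_lt_dvd h3 (by
      have := abs_sub (dot c (π.zrow (ζ a.1 x y) a.2)) (dot c (π.zrow (ζ b.1 x y) b.2))
      omega)
    omega
  · intro F hF hdot
    have hy0 := prim_pp hy
    have h1 : nrm (pp y) ≤ π.Lz := (nrm_pp_le hy).trans hy'
    have h2 : nrm c ≤ 2 * π.Lz * nrm (pp y) := by
      refine (nrm_pp_le hC).trans ((nrm_cross_le _ _).trans ?_)
      have := nrm_nonneg (pp y)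
      nlinarith
    apply card_plane_scaled F 1 one_pos c (pp y) hcP hy0 _ π.Lz
    · intro a ha b hb
      simpa using Box_diam (hF ha) (hF hb)
    · intro a _ b _ k; exact one_dvd _
    · exact hdot
    · exact_mod_cast h1
    · exact_mod_cast h2
    · rw [dot_comm]; exact dot_pp_eq_zero hC (dot_cross_right _ _)

open Classical in
noncomputable def Dl (xb y0 : V) : ℤ := if ∀ k, π.q ∣ cross xb y0 k then 1 else π.q

open Classical in
noncomputable def gam (y0 : V) : ℝ := if ∀ k, π.P ∣ cross y0 one3 k then 2 * π.P else 2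

lemma x_sum {xh v y : V} (hx : ∀ k, 0 ≤ xh k ∧ xh k < π.q) (hv : v ∈ Box π.υ) (hy : y ≠ 0)
    (hy' : nrm y ≤ 2 * π.q * π.Ly) (I : Finset V) (hI : I ⊆ Box π.Lx)
    (hC : ∀ i ∈ I, cross (π.xrow xh v i) (pp y) ≠ 0 ∧
      (cont (cross (π.xrow xh v i) (pp y)) < π.q ∨ π.R1 ≤ nrm (pp (cross (π.xrow xh v i) (pp y))))) :
    ∑ i ∈ I, π.om (pp (cross (π.xrow xh v i) (pp y))) / nrm (pp (cross (π.xrow xh v i) (pp y)))
      ≤ 2 * π.Lx / nrm (pp y) *
        (π.gam (pp y) * (517 * π.J ^ 2 * (2 * π.q * π.Lx) / (π.q * π.Dl (xh + v) (pp y)))) := by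
  set y0 := pp y with hy0
  have hP := prim_pp hy
  rw [← hy0] at hP
  have hy1 : nrm y0 ≤ 2 * π.q * π.Ly := (nrm_pp_le hy).trans hy'
  have hy2 : (0 : ℝ) < nrm y0 := by exact_mod_cast hP.nrm_pos
  have hq0 : (0 : ℝ) < π.q := by exact_mod_cast π.hq0
  have hP1 : (1 : ℝ) ≤ π.P := by exact_mod_cast π.P1
  have hLx : (0 : ℝ) < π.Lx := by exact_mod_cast π.Lx1
  have hom : ∀ c, 0 ≤ π.om c := by
    intro c; unfold om; split_ifs <;> linarith
  set f : V → V := fun i => cross (π.xrow xh v i) y0 with hf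
  have h1 := sum_le_fiber I f (fun C => π.om (pp C) / nrm (pp C)) (fun _ => 2 * π.Lx / nrm y0)
    (fun C _ => div_nonneg (hom _) (by exact_mod_cast nrm_nonneg _)) (by
      intro C _
      have := card_line (I.filter (fun i => f i = C)) y0 hP π.Lx hLx.le
        (fun a ha b hb => Box_diam (hI (mem_filter.mp ha).1) (hI (mem_filter.mp hb).1)) (by
          intro a ha b hb
          have e := (mem_filter.mp ha).2.trans (mem_filter.mp hb).2.symm
          have : π.q • cross (a - b) y0 = 0 := by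
            rw [← sub_eq_zero.mpr e]
            refine V.ext3 ?_ ?_ ?_ <;> simp [hf, xrow] <;> ring
          exact (smul_eq_zero.mp this).resolve_left π.hq0.ne')
      refine this.trans ?_
      have h3 : (nrm y0 : ℝ) ≤ π.Lx := by exact_mod_cast hy1.trans π.NLx
      rw [div_add_one hy2.ne', div_le_div_iff_of_pos_right hy2]; linarith)
  refine h1.trans ?_
  rw [← mul_sum]
  apply mul_le_mul_of_nonneg_left _ (by positivity)
  set Δ := π.Dl (xh + v) y0 with hΔ
  have hΔ' : Δ = 1 ∨ (Δ = π.q ∧ ¬ ∀ k, π.q ∣ cross (xh + v) y0 k) := by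
    rw [hΔ]; unfold Dl; split_ifs with h
    · left; rfl
    · right; exact ⟨rfl, h⟩
  have hΔ0 : (0 : ℝ) < Δ := by
    rcases hΔ' with h | h
    · rw [h]; simp
    · rw [h.1]; exact hq0
  have hS : ∀ m : ℤ, 0 < m → m ≤ π.P → IsCoprime m π.q →
      (∀ κ, (∀ k, m ∣ κ * cross y0 one3 k) → m ∣ κ) →
      ∑ C ∈ (I.image f).filter (fun C => m ∣ sm (pp C)), 1 / (nrm (pp C) : ℝ)
        ≤ 517 * π.J ^ 2 * (2 * π.q * π.Lx) / (π.q * Δ * m) := by
    intro m hm hmP hco Hm
    have hLy := π.Ly1
    apply S_bound (Cb := cross (xh + v) y0) hP π.hq π.hq0 hm hco Hm Δ hΔ' _ _ π.R1 π.J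
      (by exact_mod_cast π.R11) _ (harm_le' _ _ π.qJ) π.J1
    · have : 32 * π.q ^ 3 * m ^ 2 * nrm y0 ≤ 2 * π.q * π.Lx := by
        calc 32 * π.q ^ 3 * m ^ 2 * nrm y0 ≤ 32 * π.q ^ 3 * π.P ^ 2 * (2 * π.q * π.Ly) := by
              have := π.hq0
              have := nrm_nonneg y0
              gcongr
          _ = 2 * π.q * (32 * π.q ^ 3 * π.P ^ 2 * π.Ly) := by ring
          _ ≤ 2 * π.q * π.Lx := by
              have := π.hq0
              have := π.cLx
              gcongr
      exact_mod_cast this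
    · have : π.q * m * nrm y0 ≤ π.R1 ^ 2 := by
        calc π.q * m * nrm y0 ≤ π.q * π.P * (2 * π.q * π.Ly) := by
              have := π.hq0
              have := π.hP0
              have := nrm_nonneg y0
              gcongr
          _ = 2 * π.q ^ 2 * π.P * π.Ly := by ring
          _ ≤ _ := π.cR1
      exact_mod_cast this
    · intro C hC'
      obtain ⟨h2, h3⟩ := mem_filter.mp hC'
      obtain ⟨i, hi, rfl⟩ := mem_image.mp h2
      refine ⟨(hC i hi).1, dot_cross_right _ _, ?_, ?_, h3, ?_⟩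
      · have : ∀ k, f i k - cross (xh + v) y0 k = π.q * cross i y0 k := by
          apply forall3 <;> simp [hf, xrow] <;> ring
        intro k; rw [this]; exact dvd_mul_right _ _
      · have h4 : nrm (π.xrow xh v i) ≤ 2 * π.q * π.Lx := by
          apply nrm_le
          intro k
          have := π.xrow_bd hx hv (hI hi) k
          rw [abs_of_nonneg this.1]; exact this.2
        have : nrm (f i) ≤ 2 * (2 * π.q * π.Lx) * nrm y0 := by
          refine (nrm_cross_le _ _).trans ?_
          have := nrm_nonneg y0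
          gcongr
        exact_mod_cast this
      · rcases (hC i hi).2 with h | h
        · left; exact h
        · right; exact_mod_cast h
    · have : 2 * (2 * π.q * π.Lx) * nrm y0 < 2 ^ π.J := by
        refine lt_of_le_of_lt ?_ π.cJ
        calc 2 * (2 * π.q * π.Lx) * nrm y0 ≤ 2 * (2 * π.q * π.Lx) * (2 * π.q * π.Ly) := by
              have := π.hq0
              have := π.Lx1
              gcongr
          _ = _ := by ring
      exact_mod_cast this
  have hS1 := hS 1 one_pos π.P1 isCoprime_one_left (fun κ _ => one_dvd _)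
  simp only [one_dvd, filter_true, Int.cast_one, mul_one] at hS1
  set Z := 517 * (π.J : ℝ) ^ 2 * (2 * π.q * π.Lx) / (π.q * Δ) with hZ
  have hZ0 : 0 ≤ Z := by positivity
  unfold gam
  split_ifs with hg
  · calc ∑ C ∈ I.image f, π.om (pp C) / nrm (pp C)
        ≤ ∑ C ∈ I.image f, π.P * (1 / (nrm (pp C) : ℝ)) := by
          apply sum_le_sum
          intro C _
          rw [div_eq_mul_one_div]
          apply mul_le_mul_of_nonneg_right _ (by have := nrm_nonneg (pp C); positivity)
          unfold om; split_ifs <;> linarith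
      _ = π.P * ∑ C ∈ I.image f, (1 / (nrm (pp C) : ℝ)) := by rw [mul_sum]
      _ ≤ π.P * Z := by gcongr
      _ ≤ 2 * π.P * Z := by nlinarith
  · have hSP := hS π.P π.hP0 le_rfl π.hqP (by
      intro κ hκ
      push Not at hg
      obtain ⟨k, hk⟩ := hg
      exact (π.hP.dvd_or_dvd (hκ k)).resolve_right hk)
    calc ∑ C ∈ I.image f, π.om (pp C) / nrm (pp C)
        ≤ ∑ C ∈ I.image f, ((1 / (nrm (pp C) : ℝ))
            + π.P * if π.P ∣ sm (pp C) then (1 / (nrm (pp C) : ℝ)) else 0) := by
          apply sum_le_sum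
          intro C _
          have : 0 ≤ 1 / (nrm (pp C) : ℝ) := by have := nrm_nonneg (pp C); positivity
          rw [div_eq_mul_one_div]
          unfold om; split_ifs <;> linarith
      _ = ∑ C ∈ I.image f, (1 / (nrm (pp C) : ℝ)) + π.P *
            ∑ C ∈ (I.image f).filter (fun C => π.P ∣ sm (pp C)), 1 / (nrm (pp C) : ℝ) := by
          rw [sum_add_distrib, ← mul_sum, sum_filter]
      _ ≤ Z + π.P * (517 * π.J ^ 2 * (2 * π.q * π.Lx) / (π.q * Δ * π.P)) := by gcongr
      _ = 2 * Z := by rw [hZ]; field_simp; ring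

end Par

end Vale.Agent.P036
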