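import Vale.Agent.P036.Sum12

open Finset

namespace Vale.Agent.P036

lemma dvd_of_eq {m a b : ℤ} (h : m ∣ a) (e : b = a) : m ∣ b := e ▸ h

lemma ext_perm (k : Fin 3) (a b : V) (h0 : a k = b k) (h1 : a (k + 1) = b (k + 1))
    (h2 : a (k + 2) = b (k + 2)) : a = b := by
  fin_cases k
  · exact V.ext3 h0 h1 h2
  · exact V.ext3 h2 h0 h1
  · exact V.ext3 h1 h2 h0

lemma sm_perm (k : Fin 3) (a : V) : sm a = a k + a (k + 1) + a (k + 2) := by
  fin_cases k
  · rfl
  · show a 0 + a 1 + a 2 = a 1 + a 2 + a 0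
    ring
  · show a 0 + a 1 + a 2 = a 2 + a 0 + a 1
    ring

lemma dot_perm (k : Fin 3) (a b : V) :
    dot a b = a k * b k + a (k + 1) * b (k + 1) + a (k + 2) * b (k + 2) := by
  fin_cases k
  · rfl
  · show a 0 * b 0 + a 1 * b 1 + a 2 * b 2 = a 1 * b 1 + a 2 * b 2 + a 0 * b 0
    ring
  · show a 0 * b 0 + a 1 * b 1 + a 2 * b 2 = a 2 * b 2 + a 0 * b 0 + a 1 * b 1
    ring

lemma cross_perm (k : Fin 3) (a b : V) :
    cross a b k = a (k + 1) * b (k + 2) - a (k + 2) * b (k + 1) := by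
  fin_cases k <;> rfl

lemma diam_of_nrm {a b : V} {R : ℝ} (ha : (nrm a : ℝ) ≤ R) (hb : (nrm b : ℝ) ≤ R) (k : Fin 3) :
    ((a k - b k : ℤ) : ℝ) ≤ 2 * R := by
  have h1 : ((|a k| : ℤ) : ℝ) ≤ nrm a := by exact_mod_cast abs_le_nrm a k
  have h2 : ((|b k| : ℤ) : ℝ) ≤ nrm b := by exact_mod_cast abs_le_nrm b k
  push_cast at h1 h2 ⊢
  linarith [le_abs_self (a k : ℝ), neg_abs_le (b k : ℝ)]

lemma plane_cong (F : Finset V) (L P : ℤ) (hP : 0 < P) (c : V) (hc : Prim c) (hF : F ⊆ Box L)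
    (hdot : ∀ a ∈ F, ∀ b ∈ F, dot c a = dot c b)
    (hdvd : ∀ a ∈ F, ∀ b ∈ F, ∀ k, P ∣ (a k - a 0) - (b k - b 0)) (hL : nrm c * P ≤ L) :
    (F.card : ℝ) ≤ 8 * L ^ 2 / nrm c / P := by
  have hP' : (0 : ℝ) < P := by exact_mod_cast hP
  have hc' : (0 : ℝ) < nrm c := by exact_mod_cast hc.nrm_pos
  have h1 := card_le_fiber F (fun a => a 0 % P) (8 * (L / P) ^ 2 / nrm c) P (by positivity) (by
    intro r _
    apply card_plane' _ P hP c hc
    · intro a ha b hb
      rw [mul_div_cancel₀ _ hP'.ne']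
      exact Box_diam (hF (mem_filter.mp ha).1) (hF (mem_filter.mp hb).1)
    · intro a ha b hb k
      have e := (mem_filter.mp hb).2.trans (mem_filter.mp ha).2.symm
      have d1 : P ∣ a 0 - b 0 := Int.ModEq.dvd e
      have d2 := hdvd a (mem_filter.mp ha).1 b (mem_filter.mp hb).1 k
      have := dvd_add d1 d2
      rwa [show a 0 - b 0 + (a k - a 0 - (b k - b 0)) = a k - b k by ring] at this
    · intro a ha b hb
      exact hdot a (mem_filter.mp ha).1 b (mem_filter.mp hb).1
    · rw [le_div_iff₀ hP']; exact_mod_cast hL) (by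
    have : F.image (fun a => a 0 % P) ⊆ Ico 0 P := by
      intro r hr
      obtain ⟨a, _, rfl⟩ := mem_image.mp hr
      exact mem_Ico.mpr ⟨Int.emod_nonneg _ hP.ne', Int.emod_lt_of_pos _ hP⟩
    have h2 := card_le_card this
    rw [Int.card_Ico, sub_zero] at h2
    have h3 : (((F.image (fun a => a 0 % P)).card : ℤ)) ≤ P := by omega
    exact_mod_cast h3)
  refine h1.trans (le_of_eq ?_)
  field_simp

lemma plane_box (F : Finset V) (L : ℤ) (c : V) (hc : Prim c) (hF : F ⊆ Box L)
    (hdot : ∀ a ∈ F, ∀ b ∈ F, dot c a = dot c b) (hL : nrm c ≤ L) :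
    (F.card : ℝ) ≤ 8 * L ^ 2 / nrm c := by
  have := plane_cong F L 1 one_pos c hc hF hdot (fun _ _ _ _ _ => one_dvd _) (by linarith)
  simpa using this

namespace Par

variable (π : Par)

lemma cap {c x y z : V} {e : ℤ} (hs : π.P ∣ sm c) (hc : ∀ k, ¬ π.P ∣ c k) (hx : dot c x = 0)
    (hy : dot c y = 0) (hz : dot c z = 0) (h : ∀ k, π.P ∣ z k - (x k ^ 2 - π.ε * y k ^ 2 + e))
    (k : Fin 3) : π.P ∣ x k - x 0 ∧ π.P ∣ y k - y 0 := by
  have key : ∀ k : Fin 3, π.P ∣ x (k + 1) - x k ∧ π.P ∣ y (k + 1) - y k := by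
    intro k
    apply π.hε
    have d := dvd_dot c _ h
    rw [sm_perm k] at hs
    rw [dot_perm k] at hx hy hz d
    set S := c k + c (k + 1) + c (k + 2) with hS
    set A := c (k + 1) * (x (k + 1) - x k) + c (k + 2) * (x (k + 2) - x k) with hA
    set B := c (k + 1) * (y (k + 1) - y k) + c (k + 2) * (y (k + 2) - y k) with hB
    set Q := c k * (x k ^ 2 - π.ε * y k ^ 2 + e)
      + c (k + 1) * (x (k + 1) ^ 2 - π.ε * y (k + 1) ^ 2 + e)
      + c (k + 2) * (x (k + 2) ^ 2 - π.ε * y (k + 2) ^ 2 + e) with hQ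
    have dA : π.P ∣ A := by
      have : A = -(x k) * S := by rw [hA, hS]; linear_combination hx
      rw [this]; exact hs.mul_left _
    have dB : π.P ∣ B := by
      have : B = -(y k) * S := by rw [hB, hS]; linear_combination hy
      rw [this]; exact hs.mul_left _
    have dQ : π.P ∣ Q := by
      apply dvd_of_eq (dvd_neg.mpr d)
      rw [hQ]; linear_combination hz
    have e : c (k + 1) * (c k * ((x (k + 1) - x k) ^ 2 - π.ε * (y (k + 1) - y k) ^ 2))
        = S * (c (k + 1) * ((x (k + 1) - x k) ^ 2 - π.ε * (y (k + 1) - y k) ^ 2)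
            + c (k + 2) * (x k ^ 2 - π.ε * y k ^ 2 + e))
          + A * (A - 2 * c (k + 1) * (x (k + 1) - x k) + 2 * c (k + 2) * x k)
          - B * (π.ε * (B - 2 * c (k + 1) * (y (k + 1) - y k) + 2 * c (k + 2) * y k))
          - Q * c (k + 2) := by
      rw [hS, hA, hB, hQ]; ring
    have d2 : π.P ∣ c (k + 1) * (c k * ((x (k + 1) - x k) ^ 2 - π.ε * (y (k + 1) - y k) ^ 2)) := by
      rw [e]
      exact dvd_sub (dvd_sub (dvd_add (hs.mul_right _) (dA.mul_right _)) (dB.mul_right _))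
        (dQ.mul_right _)
    exact (π.hP.dvd_or_dvd ((π.hP.dvd_or_dvd d2).resolve_left (hc _))).resolve_left (hc _)
  revert k
  apply forall3
  · simp
  · exact key 0
  · have := key 2
    exact ⟨dvd_sub_comm.mp this.1, dvd_sub_comm.mp this.2⟩

/-- the three vanishing conditions -/
def Van (xh yb : V) (ζ : ℤ → V → V → V) (c v : V) (w : V × V × ℤ × V) : Prop :=
  dot c (π.xrow xh v w.2.1) = 0 ∧ dot c (π.yrow yb w.1) = 0 ∧
    dot c (π.zrow (ζ w.2.2.1 (π.xrow xh v w.2.1) (π.yrow yb w.1)) w.2.2.2) = 0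

noncomputable def U' : Finset (V × V × ℤ × V) := Box π.Ly ×ˢ Box π.Lx ×ˢ π.EL

lemma om_nonneg (c : V) : 0 ≤ π.om c := by
  have hP1 : (1 : ℝ) ≤ π.P := by exact_mod_cast π.P1
  unfold om; split_ifs <;> linarith

open Classical in
lemma van_le {xh yb zb : V} {ζ : ℤ → V → V → V} (hζ : π.Spec zb ζ) (c v : V) (hc : Prim c)
    (hR : nrm c ≤ π.Lz) (py px : V → Prop) [DecidablePred py] [DecidablePred px] (A B : ℝ)
    (h : ∀ w, π.Van xh yb ζ c v w → py w.1 ∧ px w.2.1)
    (hA : (((Box π.Ly).filter py).card : ℝ) ≤ A) (hB : (((Box π.Lx).filter px).card : ℝ) ≤ B) :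
    ((π.U'.filter (π.Van xh yb ζ c v)).card : ℝ) ≤ A * (B * (π.om c * (8 * π.Lz ^ 2 / nrm c))) := by
  have hc' : (0 : ℝ) < nrm c := by exact_mod_cast hc.nrm_pos
  have hom := π.om_nonneg c
  set K := π.om c * (8 * π.Lz ^ 2 / nrm c) with hK
  have hK0 : 0 ≤ K := by positivity
  have hB0 : 0 ≤ B := (Nat.cast_nonneg _).trans hB
  unfold U'
  rw [card_filter_prod]
  calc _ ≤ ∑ j ∈ Box π.Ly, if py j then B * K else 0 := by
        apply sum_le_sum
        intro j _
        rw [card_filter_prod]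
        split_ifs with hj
        · calc _ ≤ ∑ i ∈ Box π.Lx, if px i then K else 0 := by
                apply sum_le_sum
                intro i _
                split_ifs with hi
                · apply π.el_count hζ (π.xrow xh v i) (π.yrow yb j) c _ (by positivity)
                  · intro a b ha hb
                    exact ha.2.2.trans hb.2.2.symm
                  · intro F hF hdot
                    exact plane_box F _ c hc hF hdot hR
                · rw [filter_eq_empty_iff.mpr (fun a _ ha => hi (h _ ha).2)]; simp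
            _ = ((Box π.Lx).filter px).card * K := by
                rw [← sum_filter, sum_const, nsmul_eq_mul]
            _ ≤ B * K := by gcongr
        · apply le_of_eq
          apply sum_eq_zero
          intro i _
          rw [filter_eq_empty_iff.mpr (fun a _ ha => hj (h _ ha).1)]; simp
    _ = ((Box π.Ly).filter py).card * (B * K) := by
        rw [← sum_filter, sum_const, nsmul_eq_mul]
    _ ≤ A * (B * K) := by gcongr

lemma dot_yrow {yb c a b : V} (h : dot c (π.yrow yb a) = dot c (π.yrow yb b)) :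
    dot c a = dot c b := by
  apply mul_left_cancel₀ π.hq0.ne'
  simp only [dot, yrow] at h ⊢
  linear_combination h

lemma dot_xrow {xh v c a b : V} (h : dot c (π.xrow xh v a) = dot c (π.xrow xh v b)) :
    dot c a = dot c b := by
  apply mul_left_cancel₀ π.hq0.ne'
  simp only [dot, xrow] at h ⊢
  linear_combination h

open Classical in
noncomputable def wt (xb yb zb c : V) : ℝ :=
  if π.P ∣ sm c then (if ∀ k, ¬ π.P ∣ c k then 1 / π.P else π.P)
  else (if π.q ∣ dot c xb ∧ π.q ∣ dot c yb ∧ π.q ∣ dot c zb then 1 else 0)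

lemma R1Ly : π.R1 ≤ π.Ly := by nlinarith [π.R1y, π.P1, π.R11]

open Classical in
lemma van_wt {xh yb zb : V} {ζ : ℤ → V → V → V} (hζ : π.Spec zb ζ) (c v : V) (hc : Prim c)
    (hR : nrm c ≤ π.R1) :
    ((π.U'.filter (π.Van xh yb ζ c v)).card : ℝ)
      ≤ 512 * π.Lx ^ 2 * π.Ly ^ 2 * π.Lz ^ 2 * (π.wt (xh + v) yb zb c * (1 / nrm c ^ 3)) := by
  have hc' : (0 : ℝ) < nrm c := by exact_mod_cast hc.nrm_pos
  have hP' : (0 : ℝ) < π.P := by exact_mod_cast π.hP0
  have h1 : nrm c ≤ π.Ly := hR.trans π.R1Ly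
  have h2 : nrm c ≤ π.Lx := h1.trans π.LyLx
  have h3 : nrm c ≤ π.Lz := h2.trans π.LxLz
  have gen := π.van_le (xh := xh) (yb := yb) hζ c v hc h3 (fun j => dot c (π.yrow yb j) = 0)
    (fun i => dot c (π.xrow xh v i) = 0) _ _ (fun w hw => ⟨hw.2.1, hw.1⟩)
    (plane_box _ _ c hc (filter_subset _ _) (fun a ha b hb =>
      π.dot_yrow ((mem_filter.mp ha).2.trans (mem_filter.mp hb).2.symm)) h1)
    (plane_box _ _ c hc (filter_subset _ _) (fun a ha b hb =>
      π.dot_xrow ((mem_filter.mp ha).2.trans (mem_filter.mp hb).2.symm)) h2)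
  unfold wt
  split_ifs with hs hk hd
  · have h4 : nrm c * π.P ≤ π.Ly :=
      (mul_le_mul_of_nonneg_right hR π.hP0.le).trans π.R1y
    have gen2 := π.van_le (xh := xh) (yb := yb) hζ c v hc h3
      (fun j => dot c (π.yrow yb j) = 0 ∧ ∀ k, π.P ∣ π.yrow yb j k - π.yrow yb j 0)
      (fun i => dot c (π.xrow xh v i) = 0 ∧ ∀ k, π.P ∣ π.xrow xh v i k - π.xrow xh v i 0) _ _
      (fun w hw => by
        have := π.cap (e := w.2.2.1) hs hk hw.1 hw.2.1 hw.2.2 (fun k => by
          have d := (hζ w.2.2.1 (π.xrow xh v w.2.1) (π.yrow yb w.1) k).2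
          apply dvd_of_eq (dvd_add d (dvd_mul_right π.P (π.q * w.2.2.2 k)))
          simp only [zrow]; ring)
        exact ⟨⟨hw.2.1, fun k => (this k).2⟩, ⟨hw.1, fun k => (this k).1⟩⟩)
      (plane_cong _ _ π.P π.hP0 c hc (filter_subset _ _) (fun a ha b hb =>
        π.dot_yrow ((mem_filter.mp ha).2.1.trans (mem_filter.mp hb).2.1.symm))
        (fun a ha b hb k => by
          have d := dvd_sub ((mem_filter.mp ha).2.2 k) ((mem_filter.mp hb).2.2 k)
          apply π.hqP.dvd_of_dvd_mul_left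
          apply dvd_of_eq d
          simp only [yrow]; ring) h4)
      (plane_cong _ _ π.P π.hP0 c hc (filter_subset _ _) (fun a ha b hb =>
        π.dot_xrow ((mem_filter.mp ha).2.1.trans (mem_filter.mp hb).2.1.symm))
        (fun a ha b hb k => by
          have d := dvd_sub ((mem_filter.mp ha).2.2 k) ((mem_filter.mp hb).2.2 k)
          apply π.hqP.dvd_of_dvd_mul_left
          apply dvd_of_eq d
          simp only [xrow]; ring) (h4.trans π.LyLx))
    refine gen2.trans (le_of_eq ?_)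
    unfold om; rw [if_pos hs]; field_simp; ring
  · refine gen.trans (le_of_eq ?_)
    unfold om; rw [if_pos hs]; field_simp; ring
  · refine gen.trans (le_of_eq ?_)
    unfold om; rw [if_neg hs]; field_simp; ring
  · rw [filter_eq_empty_iff.mpr]
    · simp
    · intro w _ hw
      apply hd
      obtain ⟨e1, e2, e3⟩ := hw
      refine ⟨⟨-dot c w.2.1, ?_⟩, ⟨-dot c (fun k => π.Ly + w.1 k), ?_⟩, ?_⟩
      · simp only [dot, xrow, Pi.add_apply] at e1 ⊢; linear_combination e1
      · simp only [dot, yrow] at e2 ⊢; linear_combination e2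
      · have d := dvd_dot c _ (fun k => (hζ w.2.2.1 (π.xrow xh v w.2.1) (π.yrow yb w.1) k).1)
        apply dvd_of_eq (dvd_neg.mpr (dvd_add d (dvd_mul_right π.q (π.P * dot c w.2.2.2))))
        simp only [dot, zrow] at e3 ⊢; linear_combination e3

end Par

end Vale.Agent.P036
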