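import Vale.Agent.P036.Sum3
import Vale.Agent.P036.Alter

open Finset

namespace Vale.Agent.P036

namespace Par

variable (π : Par)

def yv (a j : ℤ) : ℤ := a + π.q * (π.Ly + j)

lemma yv_bd {a j : ℤ} (ha : 1 ≤ a ∧ a ≤ π.W) (hj : j ∈ Ico 0 π.Ly) :
    π.q * π.Ly ≤ π.yv a j ∧ π.yv a j ≤ 2 * π.q * π.Ly :=
  π.yrow_bd (yb := fun _ => a) (j := fun _ => j) (fun _ => ha)
    (mem_Box.mpr (fun _ => mem_Ico.mp hj)) 0

lemma yv_ndvd {a : ℤ} (ha : 1 ≤ a ∧ a ≤ π.W) (j : ℤ) : ¬ π.q ∣ π.yv a j :=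
  π.yrow_ndvd (yb := fun _ => a) (fun _ => ha) (fun _ => j) 0

lemma gcd_sum {a0 a1 : ℤ} (h0 : 1 ≤ a0 ∧ a0 ≤ π.W) (h1 : 1 ≤ a1 ∧ a1 ≤ π.W) :
    ∑ j ∈ Ico 0 π.Ly ×ˢ Ico 0 π.Ly, ((Int.gcd (π.yv a0 j.1) (π.yv a1 j.2) : ℤ) : ℝ)
      ≤ 2 * π.Ly ^ 2 * (π.J + 4 * π.q ^ 2) := by
  set F := Ico 0 π.Ly ×ˢ Ico 0 π.Ly with hF
  set f : ℤ × ℤ → ℤ := fun j => Int.gcd (π.yv a0 j.1) (π.yv a1 j.2) with hf
  have hLy : (1 : ℝ) ≤ π.Ly := by exact_mod_cast π.Ly1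
  have hq0 : (0 : ℝ) < π.q := by exact_mod_cast π.hq0
  set N := 2 * π.q * π.Ly with hN
  have hN0 : 0 < π.q * π.Ly := mul_pos π.hq0 π.Ly1
  have hsub : F.image f ⊆ Ico 1 (N + 1) := by
    intro d hd
    obtain ⟨j, hj, rfl⟩ := mem_image.mp hd
    have h3 := π.yv_bd h0 (mem_product.mp hj).1
    have h4 : 0 < π.yv a0 j.1 := by linarith
    refine mem_Ico.mpr ⟨?_, ?_⟩
    · have := Int.gcd_pos_of_ne_zero_left (π.yv a1 j.2) h4.ne'
      simp only [hf]; omega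
    · have := Int.le_of_dvd h4 (Int.gcd_dvd_left (π.yv a0 j.1) (π.yv a1 j.2))
      simp only [hf]; omega
  have one : ∀ a d : ℤ, (1 ≤ a ∧ a ≤ π.W) → 0 < d →
      (((Ico 0 π.Ly).filter (fun j => d ∣ π.yv a j)).card : ℝ) ≤ π.Ly / d + 1 := by
    intro a d ha hd
    apply card_le_ap _ id (Set.injOn_id _) d hd _ (by linarith)
    · intro i hi j hj
      have d1 := (mem_filter.mp hi).2
      have d3 := dvd_sub d1 (mem_filter.mp hj).2
      apply (π.cop_of_dvd d1 (π.yv_ndvd ha i)).dvd_of_dvd_mul_left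
      apply dvd_of_eq d3
      simp only [yv, id]; ring
    · intro i hi j hj
      have := mem_Ico.mp (mem_filter.mp hi).1
      have := mem_Ico.mp (mem_filter.mp hj).1
      have : i - j ≤ π.Ly := by omega
      exact_mod_cast this
  have h2 := sum_le_fiber F f (fun d => (d : ℝ)) (fun d => (π.Ly / d + 1) ^ 2)
    (fun d hd => by
      have := (mem_Ico.mp (hsub hd)).1
      have : (0 : ℤ) ≤ d := by omega
      exact_mod_cast this) (by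
      intro d hd
      have hd0 : 0 < d := (mem_Ico.mp (hsub hd)).1
      have hs : F.filter (fun a => f a = d) ⊆ (Ico 0 π.Ly).filter (fun j => d ∣ π.yv a0 j) ×ˢ
          (Ico 0 π.Ly).filter (fun j => d ∣ π.yv a1 j) := by
        intro j hj
        obtain ⟨h3, rfl⟩ := mem_filter.mp hj
        exact mem_product.mpr ⟨mem_filter.mpr ⟨(mem_product.mp h3).1, Int.gcd_dvd_left _ _⟩,
          mem_filter.mpr ⟨(mem_product.mp h3).2, Int.gcd_dvd_right _ _⟩⟩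
      have h4 := (Nat.cast_le (α := ℝ)).mpr (card_le_card hs)
      rw [card_product, Nat.cast_mul] at h4
      refine h4.trans ?_
      rw [sq]
      have hd' : (0 : ℝ) < d := by exact_mod_cast hd0
      exact mul_le_mul (one a0 d h0 hd0) (one a1 d h1 hd0) (Nat.cast_nonneg _) (by positivity))
  refine h2.trans ?_
  calc ∑ d ∈ F.image f, ((π.Ly : ℝ) / d + 1) ^ 2 * d
      ≤ ∑ d ∈ Ico 1 (N + 1), ((π.Ly : ℝ) / d + 1) ^ 2 * d := by
        apply sum_le_sum_of_subset_of_nonneg hsub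
        intro d hd _
        have : (0 : ℝ) < d := by exact_mod_cast (mem_Ico.mp hd).1
        positivity
    _ ≤ ∑ d ∈ Ico 1 (N + 1), (2 * (π.Ly : ℝ) ^ 2 * (1 / (d : ℝ)) + 2 * N) := by
        apply sum_le_sum
        intro d hd
        have hd0 : (0 : ℝ) < d := by exact_mod_cast (mem_Ico.mp hd).1
        have hdN : (d : ℝ) ≤ N := by exact_mod_cast Int.lt_add_one_iff.mp (mem_Ico.mp hd).2
        have h5 : ((π.Ly : ℝ) / d + 1) ^ 2 ≤ 2 * ((π.Ly / d) ^ 2 + 1) := by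
          nlinarith [sq_nonneg ((π.Ly : ℝ) / d - 1)]
        calc ((π.Ly : ℝ) / d + 1) ^ 2 * d ≤ 2 * ((π.Ly / d) ^ 2 + 1) * d := by gcongr
          _ = 2 * (π.Ly : ℝ) ^ 2 * (1 / (d : ℝ)) + 2 * d := by field_simp
          _ ≤ _ := by linarith
    _ = 2 * (π.Ly : ℝ) ^ 2 * ∑ d ∈ Ico 1 (N + 1), (1 / (d : ℝ)) + (Ico 1 (N + 1)).card * (2 * N) := by
        rw [sum_add_distrib, ← mul_sum, sum_const, nsmul_eq_mul]
    _ ≤ 2 * (π.Ly : ℝ) ^ 2 * π.J + N * (2 * N) := by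
        have h6 := harm_le' π.J (N + 1) π.NJ
        have hN1 : 0 < N := by rw [hN]; linarith
        have h7 : ((Ico 1 (N + 1)).card : ℝ) ≤ N := by
          rw [Int.card_Ico]
          have : (((N + 1 - 1).toNat : ℕ) : ℤ) ≤ N := by omega
          exact_mod_cast this
        have : (0 : ℝ) < N := by exact_mod_cast hN1
        gcongr
    _ = _ := by rw [hN]; push_cast; ring

lemma crt (a b : ℤ) : ∃ z, (0 ≤ z ∧ z < π.q * π.P) ∧ π.q ∣ z - a ∧ π.P ∣ z - b := by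
  obtain ⟨u, w, h⟩ := π.hqP
  have h0 : 0 < π.q * π.P := mul_pos π.hq0 π.hP0
  set z0 := a * u * π.P + b * w * π.q with hz
  refine ⟨z0 % (π.q * π.P), ⟨Int.emod_nonneg _ h0.ne', Int.emod_lt_of_pos _ h0⟩, ?_, ?_⟩
  · rw [Int.emod_def]
    exact ⟨b * w - a * w - π.P * (z0 / (π.q * π.P)), by rw [hz]; linear_combination a * h⟩
  · rw [Int.emod_def]
    exact ⟨a * u - b * u - π.q * (z0 / (π.q * π.P)), by rw [hz]; linear_combination b * h⟩

noncomputable def zeta (a b : ℤ) : ℤ := (π.crt a b).choose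

lemma zeta_spec (a b : ℤ) : (0 ≤ π.zeta a b ∧ π.zeta a b < π.q * π.P) ∧
    π.q ∣ π.zeta a b - a ∧ π.P ∣ π.zeta a b - b := (π.crt a b).choose_spec

end Par

/-- the residue types -/
structure Types (π : Par) (T : Type) where
  xh : T → ℤ
  Yb : T → ℤ
  Zb : T → ℤ
  K : ℤ
  K2 : 2 ≤ K
  hx : ∀ s, 0 ≤ xh s ∧ xh s < π.q
  hy : ∀ s, 1 ≤ Yb s ∧ Yb s ≤ π.W
  hz : ∀ s, 0 ≤ Zb s ∧ Zb s ≤ π.W
  hμ : ∀ s s', s ≠ s' → Yb s * Zb s' ≠ Yb s' * Zb s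
  hN : ∀ s : Fin 3 → T, Function.Injective s → ∀ v ∈ Box π.υ, ∀ n : ℤ,
    π.q ≤ K * |dot (cross ((fun k => xh (s k)) + v) (fun k => Yb (s k))) (fun k => Zb (s k)) - n * π.q|

abbrev Pt (T : Type) := T × ℤ × ℤ × ℤ × ℤ

namespace Types

variable {π : Par} {T : Type} (τ : Types π T)

lemma hcoll (s : Fin 3 → T) (k : Fin 3) (hs : s (k + 1) = s (k + 2)) :
    π.Hcoll (fun k => τ.Yb (s k)) (fun k => τ.Zb (s k)) := by
  intro c _ hc hy hz hP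
  rw [dot_perm k] at hy hz
  simp only [← hs] at hy hz
  have hn := nrm_nonneg c
  by_cases h : s k = s (k + 1)
  · have d : π.q ∣ sm c * τ.Yb (s k) := by
      apply dvd_of_eq hy; rw [sm_perm k, ← h]; ring
    have d2 := (π.hq.dvd_or_dvd d).resolve_right
      (π.yb_ndvd (yb := fun k => τ.Yb (s k)) (fun k => τ.hy _) k)
    have h0 : sm c ≠ 0 := fun h => hP (h ▸ dvd_zero _)
    have := Int.le_of_dvd (abs_pos.mpr h0) ((dvd_abs _ _).mpr d2)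
    have h1 : |sm c| ≤ 3 * nrm c := by
      have := abs_add_three (c 0) (c 1) (c 2)
      have := abs_le_nrm c 0
      have := abs_le_nrm c 1
      have := abs_le_nrm c 2
      unfold sm; linarith
    linarith
  · have d : π.q ∣ c k * (τ.Yb (s k) * τ.Zb (s (k + 1)) - τ.Yb (s (k + 1)) * τ.Zb (s k)) := by
      apply dvd_of_eq (dvd_sub (hy.mul_left (τ.Zb (s (k + 1)))) (hz.mul_left (τ.Yb (s (k + 1)))))
      ring
    rcases π.hq.dvd_or_dvd d with d2 | d2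
    · have := Int.le_of_dvd (abs_pos.mpr (hc k)) ((dvd_abs _ _).mpr d2)
      have := abs_le_nrm c k
      linarith
    · exfalso
      apply τ.hμ _ _ h
      have bd : ∀ a b, 0 ≤ τ.Yb a * τ.Zb b ∧ τ.Yb a * τ.Zb b ≤ π.W ^ 2 := by
        intro a b
        have h1 := τ.hy a
        have h2 := τ.hz b
        exact ⟨mul_nonneg (by linarith) h2.1, by
          rw [sq]; exact mul_le_mul h1.2 h2.2 h2.1 (by linarith)⟩
      have b1 := bd (s k) (s (k + 1))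
      have b2 := bd (s (k + 1)) (s k)
      have := π.Wq
      have := Int.eq_zero_of_abs_lt_dvd d2 (by rw [abs_lt]; constructor <;> linarith)
      linarith

def px (ω : Pt T) : ℤ := τ.xh ω.1 + ω.2.1 + π.q * ω.2.2.1

def py (ω : Pt T) : ℤ := π.yv (τ.Yb ω.1) ω.2.2.2.1

noncomputable def pz (e : ℤ) (ω : Pt T) : ℤ :=
  π.zeta (τ.Zb ω.1) (τ.px ω ^ 2 - π.ε * τ.py ω ^ 2 + e) + π.q * π.P * ω.2.2.2.2

end Types

noncomputable def Om (π : Par) (T : Type) [Fintype T] : Finset (Pt T) :=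
  univ ×ˢ Ico 0 π.υ ×ˢ Ico 0 π.Lx ×ˢ Ico 0 π.Ly ×ˢ Ico 0 π.Lz

lemma mem_Om {π : Par} {T : Type} [Fintype T] {ω : Pt T} : ω ∈ Om π T ↔
    ω.2.1 ∈ Ico 0 π.υ ∧ ω.2.2.1 ∈ Ico 0 π.Lx ∧ ω.2.2.2.1 ∈ Ico 0 π.Ly ∧ ω.2.2.2.2 ∈ Ico 0 π.Lz := by
  simp only [Om, mem_product, mem_univ, true_and]

lemma card_Ico0 {L : ℤ} (h : 0 ≤ L) : ((Ico (0 : ℤ) L).card : ℝ) = L := by
  rw [Int.card_Ico, sub_zero]
  have : ((L.toNat : ℤ) : ℝ) = L := by rw [Int.toNat_of_nonneg h]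
  exact_mod_cast this

lemma card_Om (π : Par) (T : Type) [Fintype T] :
    ((Om π T).card : ℝ) = Fintype.card T * π.υ * π.Lx * π.Ly * π.Lz := by
  simp only [Om, card_product, card_univ]
  push_cast
  rw [card_Ico0 (by linarith [π.υ1]), card_Ico0 (by linarith [π.Lx1]),
    card_Ico0 (by linarith [π.Ly1]), card_Ico0 (by linarith [π.Lz1])]
  ring

namespace Types

variable {π : Par} {T : Type} [Fintype T] (τ : Types π T)

lemma px_bd {ω : Pt T} (h : ω ∈ Om π T) : 0 ≤ τ.px ω ∧ τ.px ω ≤ 2 * π.q * π.Lx :=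
  π.xrow_bd (xh := fun _ => τ.xh ω.1) (v := fun _ => ω.2.1) (i := fun _ => ω.2.2.1)
    (fun _ => τ.hx _) (mem_Box.mpr (fun _ => mem_Ico.mp (mem_Om.mp h).1))
    (mem_Box.mpr (fun _ => mem_Ico.mp (mem_Om.mp h).2.1)) 0

lemma py_bd {ω : Pt T} (h : ω ∈ Om π T) : π.q * π.Ly ≤ τ.py ω ∧ τ.py ω ≤ 2 * π.q * π.Ly :=
  π.yv_bd (τ.hy _) (mem_Om.mp h).2.2.1

lemma pz_bd (e : ℤ) {ω : Pt T} (h : ω ∈ Om π T) : 0 ≤ τ.pz e ω ∧ τ.pz e ω ≤ π.q * π.P * π.Lz := by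
  have h1 := (π.zeta_spec (τ.Zb ω.1) (τ.px ω ^ 2 - π.ε * τ.py ω ^ 2 + e)).1
  have h2 := mem_Ico.mp (mem_Om.mp h).2.2.2
  have h0 : 0 < π.q * π.P := mul_pos π.hq0 π.hP0
  unfold pz
  constructor
  · have := mul_nonneg h0.le h2.1
    linarith
  · have : π.q * π.P * ω.2.2.2.2 ≤ π.q * π.P * (π.Lz - 1) :=
      mul_le_mul_of_nonneg_left (by omega) h0.le
    linarith

lemma px_inj {a b : Pt T} (ha : a ∈ Om π T) (hb : b ∈ Om π T) (hs : a.1 = b.1)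
    (h : τ.px a = τ.px b) : a.2.1 = b.2.1 ∧ a.2.2.1 = b.2.2.1 := by
  have h1 := mem_Ico.mp (mem_Om.mp ha).1
  have h2 := mem_Ico.mp (mem_Om.mp hb).1
  have h3 := π.υq
  unfold px at h
  rw [hs] at h
  have d : π.q ∣ a.2.1 - b.2.1 := ⟨b.2.2.1 - a.2.2.1, by linear_combination h⟩
  have h4 := Int.eq_zero_of_abs_lt_dvd d (by rw [abs_lt]; constructor <;> omega)
  refine ⟨by omega, mul_left_cancel₀ π.hq0.ne' (by linear_combination h - h4)⟩

def B2 (ω : Fin 2 → Pt T) : Prop := τ.px (ω 0) * τ.py (ω 1) = τ.px (ω 1) * τ.py (ω 0)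

lemma pair_fiber (G : Finset (Fin 2 → Pt T)) (ω0 : Fin 2 → Pt T) (h0 : ∀ k, ω0 k ∈ Om π T)
    (hG : ∀ ω ∈ G, (∀ k, ω k ∈ Om π T) ∧ τ.B2 ω ∧
      ∀ k, (ω k).1 = (ω0 k).1 ∧ (ω k).2.2.2 = (ω0 k).2.2.2) :
    (G.card : ℝ) ≤ 3 * (π.Lx : ℝ) / π.Ly * ((Int.gcd (τ.py (ω0 0)) (τ.py (ω0 1)) : ℤ) : ℝ) := by
  have hLy : (1 : ℝ) ≤ π.Ly := by exact_mod_cast π.Ly1
  have hLx : (π.Ly : ℝ) ≤ π.Lx := by exact_mod_cast π.LyLx
  have hq0 : (0 : ℝ) < π.q := by exact_mod_cast π.hq0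
  have hN0 : 0 < π.q * π.Ly := mul_pos π.hq0 π.Ly1
  have b0 := τ.py_bd (h0 0)
  have same : ∀ ω ∈ G, τ.px (ω 0) * τ.py (ω0 1) = τ.px (ω 1) * τ.py (ω0 0) := by
    intro ω hω
    obtain ⟨_, h2, h3⟩ := hG ω hω
    have e : ∀ k, τ.py (ω k) = τ.py (ω0 k) := by
      intro k; unfold py; rw [(h3 k).1, (h3 k).2]
    rw [← e, ← e]; exact h2
  generalize τ.py (ω0 0) = y0 at *
  generalize τ.py (ω0 1) = y1 at *
  have hg : 0 < Int.gcd y0 y1 := Int.gcd_pos_of_ne_zero_left _ (by linarith)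
  obtain ⟨d, m, m', hd, hco, e0, e1⟩ := Int.exists_gcd_one' hg
  have hdg : Int.gcd y0 y1 = d := by
    rw [e0, e1, Int.gcd_mul_right, hco]; simp
  have hd' : (0 : ℤ) < d := by exact_mod_cast hd
  have hm : 0 < m := by
    by_contra h
    have : m * d ≤ 0 := mul_nonpos_of_nonpos_of_nonneg (not_lt.mp h) hd'.le
    linarith
  have dv : ∀ ω ∈ G, m ∣ τ.px (ω 0) := by
    intro ω hω
    have h2 := same ω hω
    rw [e0, e1] at h2
    have h3 : τ.px (ω 0) * m' = τ.px (ω 1) * m :=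
      mul_right_cancel₀ hd'.ne' (by linear_combination h2)
    exact (Int.isCoprime_iff_gcd_eq_one.mpr hco).dvd_of_dvd_mul_right
      ⟨τ.px (ω 1), by linear_combination h3⟩
  have := card_le_ap G (fun ω => τ.px (ω 0)) (by
    intro a ha b hb hab
    have sa := hG a ha
    have sb := hG b hb
    have hab' : τ.px (a 0) = τ.px (b 0) := hab
    have hx : ∀ k, τ.px (a k) = τ.px (b k) := by
      rw [Fin.forall_fin_two]
      refine ⟨hab', mul_right_cancel₀ (by linarith : y0 ≠ 0) ?_⟩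
      rw [← same a ha, ← same b hb, hab']
    funext k
    have e1 := (sa.2.2 k).1.trans (sb.2.2 k).1.symm
    have e2 := τ.px_inj (sa.1 k) (sb.1 k) e1 (hx k)
    exact Prod.ext e1 (Prod.ext e2.1 (Prod.ext e2.2 ((sa.2.2 k).2.trans (sb.2.2 k).2.symm))))
    m hm (2 * π.q * π.Lx) (by have := π.Lx1; positivity)
    (fun a ha b hb => dvd_sub (dv a ha) (dv b hb)) (by
      intro a ha b hb
      have h2 := τ.px_bd ((hG a ha).1 0)
      have h3 := τ.px_bd ((hG b hb).1 0)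
      have : τ.px (a 0) - τ.px (b 0) ≤ 2 * π.q * π.Lx := by linarith
      exact_mod_cast this)
  refine this.trans ?_
  rw [hdg]
  have hm' : (0 : ℝ) < m := by exact_mod_cast hm
  have hd1 : (1 : ℝ) ≤ d := by exact_mod_cast hd
  have h5 : (π.q : ℝ) * π.Ly ≤ m * d := by
    have := b0.1; rw [e0] at this; exact_mod_cast this
  have h6 : 2 * (π.q : ℝ) * π.Lx / m ≤ 2 * π.Lx / π.Ly * d := by
    rw [div_mul_eq_mul_div, div_le_div_iff₀ hm' (by linarith)]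
    have := mul_le_mul_of_nonneg_left h5 (by linarith : (0 : ℝ) ≤ 2 * π.Lx)
    linarith
  have h7 : 1 ≤ (π.Lx : ℝ) / π.Ly * d :=
    one_le_mul_of_one_le_of_one_le ((one_le_div (by linarith)).mpr hLx) hd1
  have e : 3 * (π.Lx : ℝ) / π.Ly * d = 2 * π.Lx / π.Ly * d + π.Lx / π.Ly * d := by ring
  push_cast
  linarith

def key2 (ω : Fin 2 → Pt T) : (T × T × ℤ × ℤ) × ℤ × ℤ :=
  (((ω 0).1, (ω 1).1, (ω 0).2.2.2.2, (ω 1).2.2.2.2), (ω 0).2.2.2.1, (ω 1).2.2.2.1)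

open Classical in
lemma pair_bound : (((Fintype.piFinset (fun _ : Fin 2 => Om π T)).filter τ.B2).card : ℝ)
    ≤ 6 * Fintype.card T ^ 2 * π.Lz ^ 2 * π.Lx * π.Ly * (π.J + 4 * π.q ^ 2) := by
  set F := (Fintype.piFinset (fun _ : Fin 2 => Om π T)).filter τ.B2 with hF
  have hLy : (1 : ℝ) ≤ π.Ly := by exact_mod_cast π.Ly1
  have hFm : ∀ ω ∈ F, (∀ k, ω k ∈ Om π T) ∧ τ.B2 ω := by
    intro ω hω
    simpa only [hF, mem_filter, Fintype.mem_piFinset] using hω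
  have h1 := sum_le_fiber F key2 (fun _ => 1) (fun b => 3 * π.Lx / π.Ly *
    ((Int.gcd (π.yv (τ.Yb b.1.1) b.2.1) (π.yv (τ.Yb b.1.2.1) b.2.2) : ℤ) : ℝ))
    (fun _ _ => zero_le_one) (by
      intro b hb
      obtain ⟨ω0, hω0, rfl⟩ := mem_image.mp hb
      apply τ.pair_fiber _ ω0 (hFm ω0 hω0).1
      intro ω hω
      obtain ⟨h2, h3⟩ := mem_filter.mp hω
      simp only [key2, Prod.mk.injEq] at h3
      obtain ⟨⟨a1, a2, a3, a4⟩, a5, a6⟩ := h3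
      refine ⟨(hFm ω h2).1, (hFm ω h2).2, ?_⟩
      rw [Fin.forall_fin_two]
      exact ⟨⟨a1, Prod.ext a5 a3⟩, ⟨a2, Prod.ext a6 a4⟩⟩)
  simp only [sum_const, nsmul_eq_mul, mul_one] at h1
  refine h1.trans ?_
  have hsub : F.image key2 ⊆ (univ ×ˢ univ ×ˢ Ico 0 π.Lz ×ˢ Ico 0 π.Lz) ×ˢ
      (Ico 0 π.Ly ×ˢ Ico 0 π.Ly) := by
    intro b hb
    obtain ⟨ω, hω, rfl⟩ := mem_image.mp hb
    have h0 := mem_Om.mp ((hFm ω hω).1 0)
    have h1 := mem_Om.mp ((hFm ω hω).1 1)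
    simp only [key2, mem_product, mem_univ, true_and]
    exact ⟨⟨h0.2.2.2, h1.2.2.2⟩, h0.2.2.1, h1.2.2.1⟩
  have hK : 0 ≤ 3 * (π.Lx : ℝ) / π.Ly := by have := π.Lx1; positivity
  refine (sum_le_sum_of_subset_of_nonneg hsub
    (fun _ _ _ => mul_nonneg hK (by positivity))).trans ?_
  rw [sum_product]
  calc _ ≤ ∑ _a ∈ (univ ×ˢ univ ×ˢ Ico 0 π.Lz ×ˢ Ico 0 π.Lz : Finset (T × T × ℤ × ℤ)),
        3 * (π.Lx : ℝ) / π.Ly * (2 * π.Ly ^ 2 * (π.J + 4 * π.q ^ 2)) := by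
        apply sum_le_sum
        intro a _
        refine le_trans (le_of_eq ?_)
          (mul_le_mul_of_nonneg_left (π.gcd_sum (τ.hy a.1) (τ.hy a.2.1)) hK)
        rw [mul_sum]
    _ = _ := by
        rw [sum_const, nsmul_eq_mul, card_product, card_product, card_product, card_univ]
        push_cast
        rw [card_Ico0 (by linarith [π.Lz1])]
        field_simp
        ring

end Types

end Vale.Agent.P036
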