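import Vale.Agent.P036.B3

open Finset

namespace Vale.Agent.P036

def det3 (x y z : V) : ℤ := dot (cross x y) z

lemma det3_sum {r : ℕ} (a b c : Fin r → ℤ) (F G H : Fin r → V) :
    det3 (fun k => ∑ i, a i * F i k) (fun k => ∑ i, b i * G i k) (fun k => ∑ i, c i * H i k)
      = ∑ i, ∑ j, ∑ l, a i * b j * c l * det3 (F i) (G j) (H l) := by
  have key : ∀ u v w : Fin 3, (∑ i, a i * F i u) * (∑ i, b i * G i v) * (∑ i, c i * H i w)
      = ∑ i, ∑ j, ∑ l, a i * b j * c l * (F i u * G j v * H l w) := by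
    intro u v w
    rw [sum_mul_sum, sum_mul]
    apply sum_congr rfl
    intro i _
    rw [sum_mul_sum]
    apply sum_congr rfl
    intro j _
    apply sum_congr rfl
    intro l _
    ring
  simp only [det3, dot, cross_0, cross_1, cross_2, sub_mul, key, ← sum_sub_distrib,
    ← sum_add_distrib]
  apply sum_congr rfl
  intro i _
  apply sum_congr rfl
  intro j _
  apply sum_congr rfl
  intro l _
  ring

lemma det3_bd {p : ℤ} {x y z : V} (hx : ∀ k, 0 ≤ x k ∧ x k ≤ p) (hy : ∀ k, 0 ≤ y k ∧ y k ≤ p)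
    (hz : ∀ k, 0 ≤ z k ∧ z k ≤ p) : |det3 x y z| ≤ 6 * p ^ 3 := by
  have key : ∀ u v w : Fin 3, 0 ≤ x u * y v * z w ∧ x u * y v * z w ≤ p ^ 3 := by
    intro u v w
    have h1 := hx u
    have h2 := hy v
    have h3 := hz w
    refine ⟨mul_nonneg (mul_nonneg h1.1 h2.1) h3.1, ?_⟩
    calc x u * y v * z w ≤ p * p * p := by
          apply mul_le_mul (mul_le_mul h1.2 h2.2 h2.1 (by linarith)) h3.2 h3.1
          exact mul_self_nonneg p
      _ = _ := by ring
  simp only [det3, dot, cross_0, cross_1, cross_2, sub_mul]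
  have := key 1 2 0
  have := key 2 1 0
  have := key 2 0 1
  have := key 0 2 1
  have := key 0 1 2
  have := key 1 0 2
  rw [abs_le]; constructor <;> linarith

lemma digits {r : ℕ} (p : ℤ) (hp : 0 < p) (F G H : Fin r → V) (hF : ∀ i k, 0 ≤ F i k ∧ F i k ≤ p)
    (hG : ∀ i k, 0 ≤ G i k ∧ G i k ≤ p) (hH : ∀ i k, 0 ≤ H i k ∧ H i k ≤ p)
    (hd : ¬ p ∣ ∑ i, det3 (F i) (G i) (H i)) (B : ℤ) (hB : B = 12 * r ^ 3 * p ^ 3) (n : ℤ) :
    B ^ ((r + 1) * r) ≤ 2 * |det3 (fun k => ∑ i : Fin r, B ^ (i : ℕ) * F i k)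
      (fun k => ∑ i : Fin r, B ^ (r * i) * G i k)
      (fun k => ∑ i : Fin r, B ^ ((r + 1) * (r - i)) * H i k) - n * (p * B ^ ((r + 1) * r))| := by
  have hr : 0 < r := by
    rcases Nat.eq_zero_or_pos r with rfl | h
    · simp at hd
    · exact h
  have hB1 : 0 < B := by rw [hB]; positivity
  obtain ⟨t, ht⟩ : ∃ t, (r + 1) * r = t + 1 := ⟨(r + 1) * r - 1, by
    have : 0 < (r + 1) * r := by positivity
    omega⟩
  set e : Fin r → Fin r → Fin r → ℕ := fun i j l => i + r * j + (r + 1) * (r - l) with he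
  have hmid : ∀ i j l, e i j l = t + 1 ↔ j = i ∧ l = i := by
    intro i j l
    rw [← ht]
    simp only [he]
    have hl := l.2
    have hi := i.2
    obtain ⟨m, hm⟩ : ∃ m, r = l + m := ⟨r - l, by omega⟩
    have e1 : r - l = m := by omega
    have e2 : (r + 1) * r = (r + 1) * m + (l + r * l) := by
      conv_lhs => rw [show (r + 1) * r = (r + 1) * (l + m) by rw [← hm]]
      ring
    rw [e1, e2]
    constructor
    · intro h
      have h1 : (i : ℕ) + r * j = l + r * l := by omega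
      have h2 := congrArg (· % r) h1
      simp only [Nat.add_mul_mod_self_left, Nat.mod_eq_of_lt hi, Nat.mod_eq_of_lt hl] at h2
      have h3 : r * j = r * l := by omega
      have h4 := Nat.eq_of_mul_eq_mul_left hr h3
      exact ⟨Fin.ext (by omega), Fin.ext h2.symm⟩
    · rintro ⟨rfl, rfl⟩; omega
  set d : Fin r → Fin r → Fin r → ℤ := fun i j l => det3 (F i) (G j) (H l) with hdd
  have hsplit : det3 (fun k => ∑ i : Fin r, B ^ (i : ℕ) * F i k)
      (fun k => ∑ i : Fin r, B ^ (r * i) * G i k)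
      (fun k => ∑ i : Fin r, B ^ ((r + 1) * (r - i)) * H i k)
      = (∑ i, ∑ j, ∑ l, if e i j l ≤ t then B ^ e i j l * d i j l else 0)
        + B ^ (t + 1) * (∑ i, ∑ j, ∑ l, if e i j l = t + 1 then d i j l else 0)
        + p * B ^ (t + 1) * (∑ i, ∑ j, ∑ l, if t + 2 ≤ e i j l then
          12 * r ^ 3 * p ^ 2 * B ^ (e i j l - (t + 2)) * d i j l else 0) := by
    rw [det3_sum]
    simp only [mul_sum, ← sum_add_distrib]
    apply sum_congr rfl
    intro i _
    apply sum_congr rfl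
    intro j _
    apply sum_congr rfl
    intro l _
    rw [← pow_add, ← pow_add]
    change B ^ e i j l * d i j l = _
    rcases lt_trichotomy (e i j l) (t + 1) with h | h | h
    · rw [if_pos (by omega), if_neg (by omega), if_neg (by omega)]; ring
    · rw [if_neg (by omega), if_pos h, if_neg (by omega), h]; ring
    · rw [if_neg (by omega), if_neg (by omega), if_pos (by omega)]
      obtain ⟨m, hm⟩ : ∃ m, e i j l = t + 2 + m := ⟨e i j l - (t + 2), by omega⟩
      rw [hm, Nat.add_sub_cancel_left]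
      have : B ^ (t + 2 + m) = B ^ (t + 1) * B ^ m * (12 * r ^ 3 * p ^ 3) := by rw [← hB]; ring
      rw [this]; ring
  have hM : (∑ i, ∑ j, ∑ l, if e i j l = t + 1 then d i j l else 0) = ∑ i, d i i i := by
    apply sum_congr rfl
    intro i _
    simp only [hmid, ite_and]
    rw [sum_eq_single i (by intro j _ hj; simp [hj]) (by simp)]
    simp
  have hL : 2 * |∑ i, ∑ j, ∑ l, if e i j l ≤ t then B ^ e i j l * d i j l else 0| ≤ B ^ (t + 1) := by
    have h1 : ∀ i j l, |if e i j l ≤ t then B ^ e i j l * d i j l else 0| ≤ B ^ t * (6 * p ^ 3) := by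
      intro i j l
      split_ifs with h
      · rw [abs_mul, abs_of_pos (pow_pos hB1 _)]
        exact mul_le_mul (pow_le_pow_right₀ hB1 h) (det3_bd (hF i) (hG j) (hH l)) (abs_nonneg _)
          (by positivity)
      · simp only [abs_zero]; positivity
    have h2 : |∑ i, ∑ j, ∑ l, if e i j l ≤ t then B ^ e i j l * d i j l else 0|
        ≤ ∑ _i : Fin r, ∑ _j : Fin r, ∑ _l : Fin r, B ^ t * (6 * p ^ 3) := by
      refine (abs_sum_le_sum_abs _ _).trans (sum_le_sum fun i _ => ?_)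
      refine (abs_sum_le_sum_abs _ _).trans (sum_le_sum fun j _ => ?_)
      exact (abs_sum_le_sum_abs _ _).trans (sum_le_sum fun l _ => h1 i j l)
    simp only [sum_const, card_univ, Fintype.card_fin, nsmul_eq_mul] at h2
    have : B ^ (t + 1) = B ^ t * (12 * r ^ 3 * p ^ 3) := by rw [← hB]; ring
    linarith
  rw [hsplit, hM, ht]
  generalize (∑ i, ∑ j, ∑ l, if e i j l ≤ t then B ^ e i j l * d i j l else 0) = L at hL ⊢
  generalize (∑ i, ∑ j, ∑ l, if t + 2 ≤ e i j l then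
          12 * r ^ 3 * p ^ 2 * B ^ (e i j l - (t + 2)) * d i j l else 0) = Hi
  have h3 : ∑ i, d i i i + p * (Hi - n) ≠ 0 := by
    intro h
    apply hd
    exact ⟨n - Hi, by linear_combination h⟩
  have h4 : B ^ (t + 1) ≤ |B ^ (t + 1) * (∑ i, d i i i + p * (Hi - n))| := by
    rw [abs_mul, abs_of_pos (pow_pos hB1 _)]
    exact le_mul_of_one_le_right (pow_pos hB1 _).le (Int.one_le_abs h3)
  have h5 := abs_sub (L + B ^ (t + 1) * ∑ i, d i i i + p * B ^ (t + 1) * Hi - n * (p * B ^ (t + 1))) L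
  rw [show L + B ^ (t + 1) * ∑ i, d i i i + p * B ^ (t + 1) * Hi - n * (p * B ^ (t + 1)) - L
    = B ^ (t + 1) * (∑ i, d i i i + p * (Hi - n)) by ring] at h5
  linarith

/-- separated form of the norm of a difference -/
lemma norm_sep (p : ℕ) [Fact p.Prime] :
    ∃ (N : GaloisField p 5 → ZMod p)
      (φ ψ : Equiv.Perm (Fin 5) × Finset (Fin 5) → GaloisField p 5 → ZMod p),
      (∀ a, a ≠ 0 → N a ≠ 0) ∧ (∀ a b, N (a - b) = -N (b - a)) ∧
        ∀ a b, N (a - b) = ∑ j, φ j a * ψ j b := by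
  have b := Module.finBasisOfFinrankEq (ZMod p) (GaloisField p 5)
    (GaloisField.finrank p (by norm_num : 5 ≠ 0))
  refine ⟨Algebra.norm (ZMod p),
    fun j a => (Equiv.Perm.sign j.1 : ℤ) * ∏ i ∈ j.2, Algebra.leftMulMatrix b a (j.1 i) i,
    fun j a => ∏ i ∈ univ \ j.2, -Algebra.leftMulMatrix b a (j.1 i) i, ?_, ?_, ?_⟩
  · intro a ha
    exact Algebra.norm_ne_zero_iff.mpr ha
  · intro x y
    rw [Algebra.norm_eq_matrix_det b, Algebra.norm_eq_matrix_det b, ← neg_sub y x, map_neg,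
      Matrix.det_neg]
    simp only [Fintype.card_fin]
    ring
  · intro x y
    rw [Algebra.norm_eq_matrix_det b, map_sub, Matrix.det_apply', Fintype.sum_prod_type]
    apply sum_congr rfl
    intro σ _
    simp only [Matrix.sub_apply, sub_eq_add_neg]
    rw [prod_add, powerset_univ, mul_sum]
    apply sum_congr rfl
    intro S _
    ring

abbrev I0 := Equiv.Perm (Fin 5) × Finset (Fin 5)

lemma tensor (p : ℕ) [Fact p.Prime] (hp : 5 ≤ p) :
    ∃ f g h : I0 × I0 × I0 → GaloisField p 5 → ZMod p,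
      ∀ a b c, a ≠ b → b ≠ c → c ≠ a → ∑ i, ((f i b * g i c - f i c * g i b) * h i a
        + (f i c * g i a - f i a * g i c) * h i b + (f i a * g i b - f i b * g i a) * h i c) ≠ 0 := by
  obtain ⟨N, φ, ψ, h0, h1, h2⟩ := norm_sep p
  set f : I0 × I0 × I0 → GaloisField p 5 → ZMod p := fun i a => φ i.1 a * ψ i.2.2 a with hf
  set g : I0 × I0 × I0 → GaloisField p 5 → ZMod p := fun i a => ψ i.1 a * φ i.2.1 a with hg
  set h : I0 × I0 × I0 → GaloisField p 5 → ZMod p := fun i a => ψ i.2.1 a * φ i.2.2 a with hh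
  have key : ∀ a b c, ∑ i, f i a * g i b * h i c = N (a - b) * N (b - c) * N (c - a) := by
    intro a b c
    rw [h2, h2, h2, sum_mul_sum, sum_mul, Fintype.sum_prod_type]
    apply sum_congr rfl
    intro i _
    rw [sum_mul_sum, Fintype.sum_prod_type]
    apply sum_congr rfl
    intro j _
    apply sum_congr rfl
    intro l _
    simp only [hf, hg, hh]; ring
  refine ⟨f, g, h, ?_⟩
  intro a b c hab hbc hca
  simp only [sub_mul, sum_add_distrib, sum_sub_distrib, key]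
  rw [h1 c b, h1 b a, h1 a c]
  have h6 : (6 : ZMod p) ≠ 0 := by
    intro h
    have : ((6 : ℕ) : ZMod p) = 0 := by exact_mod_cast h
    rw [ZMod.natCast_eq_zero_iff] at this
    have h7 := Nat.le_of_dvd (by norm_num) this
    have h8 : p.Prime := Fact.out
    interval_cases p
    · omega
    · norm_num at h8
  have := mul_ne_zero h6 (mul_ne_zero (mul_ne_zero (h0 _ (sub_ne_zero.mpr hab))
    (h0 _ (sub_ne_zero.mpr hbc))) (h0 _ (sub_ne_zero.mpr hca)))
  intro h
  apply this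
  linear_combination h

lemma det3_modEq {m : ℤ} {x y z x' y' z' : V} (hx : ∀ k, x k ≡ x' k [ZMOD m])
    (hy : ∀ k, y k ≡ y' k [ZMOD m]) (hz : ∀ k, z k ≡ z' k [ZMOD m]) :
    det3 x y z ≡ det3 x' y' z' [ZMOD m] := by
  simp only [det3, dot, cross_0, cross_1, cross_2]
  exact ((((hx 1).mul (hy 2)).sub ((hx 2).mul (hy 1))).mul (hz 0)).add
    ((((hx 2).mul (hy 0)).sub ((hx 0).mul (hy 2))).mul (hz 1)) |>.add
    ((((hx 0).mul (hy 1)).sub ((hx 1).mul (hy 0))).mul (hz 2))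

theorem core : ∃ κ : ℕ, 1 ≤ κ ∧ ∀ p : ℕ, p.Prime → 5 ≤ p →
    ∃ (Xb Yb Zb : Fin (p ^ 5) → ℤ) (q1 : ℤ), 0 < q1 ∧ (∀ s, 0 ≤ Xb s ∧ Xb s < q1) ∧
      (∀ s, 1 ≤ Yb s ∧ Yb s ≤ (p : ℤ) ^ κ) ∧ (∀ s, 0 ≤ Zb s ∧ Zb s ≤ (p : ℤ) ^ κ) ∧
      (∀ s s', s ≠ s' → Yb s * Zb s' ≠ Yb s' * Zb s) ∧
      ∀ s : Fin 3 → Fin (p ^ 5), Function.Injective s → ∀ n : ℤ,
        q1 ≤ 2 * p * |det3 (fun k => Xb (s k)) (fun k => Yb (s k)) (fun k => Zb (s k)) - n * q1| := by
  obtain ⟨r, ⟨E⟩⟩ : ∃ r, Nonempty (Fin r ≃ I0 × I0 × I0) := ⟨_, ⟨(Fintype.equivFin _).symm⟩⟩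
  refine ⟨7 + (12 * r ^ 3 + 3) * ((r + 1) * r), by omega, ?_⟩
  intro p hp hp5
  have := Fact.mk hp
  obtain ⟨f, g, h, hfgh⟩ := tensor p hp5
  obtain ⟨T⟩ : Nonempty (Fin (p ^ 5) ≃ GaloisField p 5) := by
    have := Fintype.ofFinite (GaloisField p 5)
    refine ⟨(Fintype.equivFinOfCardEq ?_).symm⟩
    rw [← Nat.card_eq_fintype_card, GaloisField.card p 5 (by norm_num)]
  have hr : 0 < r := by
    have := E.symm (Classical.arbitrary _)
    exact lt_of_le_of_lt (Nat.zero_le _) this.2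
  set B : ℤ := 12 * r ^ 3 * p ^ 3 with hB
  have hp0 : (0 : ℤ) < p := by exact_mod_cast hp.pos
  have hp5' : (5 : ℤ) ≤ p := by exact_mod_cast hp5
  have hB1 : 0 < B := by positivity
  set q1 : ℤ := p * B ^ ((r + 1) * r) with hq1
  have hq : 0 < q1 := by positivity
  set X : Fin (p ^ 5) → ℤ := fun s => ∑ i : Fin r, B ^ (i : ℕ) * ((f (E i) (T s)).val : ℤ) with hX
  set Y : Fin (p ^ 5) → ℤ := fun s => ∑ i : Fin r, B ^ (r * i) * ((g (E i) (T s)).val : ℤ) with hY
  set Z : Fin (p ^ 5) → ℤ :=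
    fun s => ∑ i : Fin r, B ^ ((r + 1) * (r - i)) * ((h (E i) (T s)).val : ℤ) with hZ
  have hW : q1 + 2 * p ^ 5 * q1 ≤ (p : ℤ) ^ (7 + (12 * r ^ 3 + 3) * ((r + 1) * r)) := by
    have h1 : B ≤ (p : ℤ) ^ (12 * r ^ 3 + 3) := by
      rw [pow_add, hB]
      apply mul_le_mul_of_nonneg_right _ (by positivity)
      have : 12 * r ^ 3 < p ^ (12 * r ^ 3) := Nat.lt_pow_self hp.one_lt
      exact_mod_cast this.le
    have h2 : q1 ≤ p * ((p : ℤ) ^ (12 * r ^ 3 + 3)) ^ ((r + 1) * r) := by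
      rw [hq1]; gcongr
    have h3 : 1 + 2 * (p : ℤ) ^ 5 ≤ p ^ 6 := by
      have : 1 ≤ (p : ℤ) ^ 5 := one_le_pow₀ (by linarith)
      nlinarith
    calc q1 + 2 * p ^ 5 * q1 = (1 + 2 * p ^ 5) * q1 := by ring
      _ ≤ p ^ 6 * (p * ((p : ℤ) ^ (12 * r ^ 3 + 3)) ^ ((r + 1) * r)) := by gcongr
      _ = _ := by rw [← pow_mul]; ring
  have m0 : ∀ a : ℤ, 0 ≤ a % q1 := fun a => Int.emod_nonneg _ hq.ne'
  have m1 : ∀ a : ℤ, a % q1 < q1 := fun a => Int.emod_lt_of_pos _ hq
  have hs : ∀ s : Fin (p ^ 5), ((s : ℕ) : ℤ) < (p : ℤ) ^ 5 := fun s => by exact_mod_cast s.2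
  have hp1 : 1 ≤ (p : ℤ) ^ 5 := one_le_pow₀ (by linarith)
  refine ⟨fun s => X s % q1, fun s => Y s % q1 + 2 * p ^ 5 * q1,
    fun s => Z s % q1 + 2 * (s : ℕ) * q1, q1, hq, fun s => ⟨m0 _, m1 _⟩, ?_, ?_, ?_, ?_⟩
  · intro s
    have := m0 (Y s)
    have := m1 (Y s)
    constructor
    · nlinarith
    · linarith
  · intro s
    have := m0 (Z s)
    have := m1 (Z s)
    have := hs s
    constructor
    · positivity
    · nlinarith
  · have key : ∀ s s' : Fin (p ^ 5), s < s' →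
        (Y s' % q1 + 2 * p ^ 5 * q1) * (Z s % q1 + 2 * (s : ℕ) * q1)
          < (Y s % q1 + 2 * p ^ 5 * q1) * (Z s' % q1 + 2 * (s' : ℕ) * q1) := by
      intro s s' hlt
      have a1 := m1 (Y s')
      have a2 := m1 (Z s)
      have a3 := m0 (Y s)
      have a4 := m0 (Z s')
      have a5 := m0 (Y s')
      have a6 := m0 (Z s)
      have a7 : ((s : ℕ) : ℤ) + 1 ≤ (s' : ℕ) := by exact_mod_cast hlt
      have a8 := hs s'
      have a9 : (0 : ℤ) ≤ (s : ℕ) := Nat.cast_nonneg _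
      calc (Y s' % q1 + 2 * p ^ 5 * q1) * (Z s % q1 + 2 * (s : ℕ) * q1)
          ≤ (q1 + 2 * p ^ 5 * q1) * (q1 + 2 * (s : ℕ) * q1) := by gcongr
        _ = q1 ^ 2 * ((1 + 2 * p ^ 5) * (1 + 2 * (s : ℕ))) := by ring
        _ < q1 ^ 2 * ((2 * p ^ 5) * (2 * ((s : ℕ) + 1))) := by
            apply mul_lt_mul_of_pos_left _ (by positivity)
            linarith
        _ = (0 + 2 * p ^ 5 * q1) * (0 + 2 * ((s : ℕ) + 1) * q1) := by ring
        _ ≤ _ := by gcongr
    intro s s' hne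
    rcases lt_or_gt_of_ne hne with hlt | hlt
    · exact (key s s' hlt).ne'
    · exact (key s' s hlt).ne
  · intro s hinj n
    have hm := det3_modEq (m := q1) (x := fun k => X (s k) % q1) (x' := fun k => X (s k))
      (y := fun k => Y (s k) % q1 + 2 * p ^ 5 * q1) (y' := fun k => Y (s k))
      (z := fun k => Z (s k) % q1 + 2 * (s k : ℕ) * q1) (z' := fun k => Z (s k))
      (fun k => Int.mod_modEq _ _) (fun k => by simp [Int.ModEq]) (fun k => by simp [Int.ModEq])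
    obtain ⟨m, hm⟩ := hm.dvd
    have bd : ∀ a : ZMod p, 0 ≤ (a.val : ℤ) ∧ (a.val : ℤ) ≤ p := fun a =>
      ⟨Nat.cast_nonneg _, by exact_mod_cast (ZMod.val_lt a).le⟩
    have := digits (r := r) p hp0 (fun i k => ((f (E i) (T (s k))).val : ℤ))
      (fun i k => ((g (E i) (T (s k))).val : ℤ)) (fun i k => ((h (E i) (T (s k))).val : ℤ))
      (fun i k => bd _) (fun i k => bd _) (fun i k => bd _) (by
        rw [← ZMod.intCast_zmod_eq_zero_iff_dvd]
        have h3 := hfgh (T (s 0)) (T (s 1)) (T (s 2))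
          (T.injective.ne (hinj.ne (by decide))) (T.injective.ne (hinj.ne (by decide)))
          (T.injective.ne (hinj.ne (by decide)))
        rw [← E.sum_comp] at h3
        simpa [det3, dot] using h3) B hB (n + m)
    have e : det3 (fun k => X (s k) % q1) (fun k => Y (s k) % q1 + 2 * p ^ 5 * q1)
        (fun k => Z (s k) % q1 + 2 * (s k : ℕ) * q1) - n * q1
        = det3 (fun k => X (s k)) (fun k => Y (s k)) (fun k => Z (s k)) - (n + m) * q1 := by
      linear_combination -hm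
    rw [e]
    calc q1 = p * B ^ ((r + 1) * r) := hq1
      _ ≤ p * (2 * |det3 (fun k => X (s k)) (fun k => Y (s k)) (fun k => Z (s k))
          - (n + m) * q1|) := mul_le_mul_of_nonneg_left this hp0.le
      _ = _ := by ring

end Vale.Agent.P036
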