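import Vale.Agent.P036.Vec

open Finset

namespace Vale.Agent.P036

lemma card_le_of_diam {α : Type*} (F : Finset α) (t : α → ℤ) (hinj : Set.InjOn t F) (D : ℝ)
    (hD : 0 ≤ D) (h : ∀ a ∈ F, ∀ b ∈ F, ((t a - t b : ℤ) : ℝ) ≤ D) : (F.card : ℝ) ≤ D + 1 := by
  rcases F.eq_empty_or_nonempty with rfl | hne
  · simp; linarith
  obtain ⟨m, hm, hmin⟩ := F.exists_min_image t hne
  have h1 : F.card ≤ (Icc (t m) (t m + ⌊D⌋)).card := by
    apply card_le_card_of_injOn t _ hinj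
    intro a ha
    have h2 : t a - t m ≤ ⌊D⌋ := Int.le_floor.mpr (h a ha m hm)
    simp only [coe_Icc, Set.mem_Icc]
    exact ⟨hmin a ha, by linarith⟩
  rw [Int.card_Icc] at h1
  have h3 : 0 ≤ ⌊D⌋ := Int.floor_nonneg.mpr hD
  have h4 : ((t m + ⌊D⌋ + 1 - t m).toNat : ℤ) = ⌊D⌋ + 1 := by
    rw [Int.toNat_of_nonneg (by linarith)]; ring
  have h5 : (F.card : ℤ) ≤ ⌊D⌋ + 1 := by rw [← h4]; exact_mod_cast h1
  have h6 : (F.card : ℝ) ≤ (⌊D⌋ : ℝ) + 1 := by exact_mod_cast h5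
  linarith [Int.floor_le D]

lemma card_le_ap {α : Type*} (F : Finset α) (t : α → ℤ) (hinj : Set.InjOn t F) (m : ℤ)
    (hm : 0 < m) (D : ℝ) (hD : 0 ≤ D) (hdvd : ∀ a ∈ F, ∀ b ∈ F, m ∣ t a - t b)
    (h : ∀ a ∈ F, ∀ b ∈ F, ((t a - t b : ℤ) : ℝ) ≤ D) : (F.card : ℝ) ≤ D / m + 1 := by
  rcases F.eq_empty_or_nonempty with rfl | ⟨a0, ha0⟩
  · simp; positivity
  have hm' : (0 : ℝ) < m := by exact_mod_cast hm
  have key : ∀ a ∈ F, m * ((t a - t a0) / m) = t a - t a0 :=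
    fun a ha => Int.mul_ediv_cancel' (hdvd a ha a0 ha0)
  apply card_le_of_diam F (fun a => (t a - t a0) / m) _ _ (by positivity)
  · intro a ha b hb
    rw [le_div_iff₀ hm']
    have : ((t a - t a0) / m - (t b - t a0) / m) * m = t a - t b := by
      linear_combination key a ha - key b hb
    have h2 := h a ha b hb
    rw [← this] at h2
    exact_mod_cast h2
  · intro a ha b hb hab
    apply hinj ha hb
    have h1 := key a ha
    have h2 := key b hb
    simp only at hab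
    rw [hab] at h1
    linarith

lemma card_le_fiber {α β : Type*} [DecidableEq β] (F : Finset α) (f : α → β) (A B : ℝ)
    (hA : 0 ≤ A) (h : ∀ b ∈ F.image f, ((F.filter (fun a => f a = b)).card : ℝ) ≤ A)
    (hB : ((F.image f).card : ℝ) ≤ B) : (F.card : ℝ) ≤ A * B := by
  rw [card_eq_sum_card_image f F]
  push_cast
  calc ∑ b ∈ F.image f, ((F.filter (fun a => f a = b)).card : ℝ) ≤ ∑ _b ∈ F.image f, A :=
        sum_le_sum h
    _ = A * (F.image f).card := by simp [mul_comm]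
    _ ≤ A * B := mul_le_mul_of_nonneg_left hB hA

lemma sum_le_fiber {α β : Type*} [DecidableEq β] (F : Finset α) (f : α → β) (g A : β → ℝ)
    (hg : ∀ b ∈ F.image f, 0 ≤ g b)
    (h : ∀ b ∈ F.image f, ((F.filter (fun a => f a = b)).card : ℝ) ≤ A b) :
    ∑ a ∈ F, g (f a) ≤ ∑ b ∈ F.image f, A b * g b := by
  rw [sum_comp g f]
  apply sum_le_sum
  intro b hb
  rw [nsmul_eq_mul]
  exact mul_le_mul_of_nonneg_right (h b hb) (hg b hb)

lemma card_le_tower (F : Finset V) (k0 k1 k2 : Fin 3)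
    (hk : ∀ a b : V, a k0 = b k0 → a k1 = b k1 → a k2 = b k2 → a = b)
    (m0 m1 m2 : ℤ) (h0 : 0 < m0) (h1 : 0 < m1) (h2 : 0 < m2) (D : ℝ) (hD : 0 ≤ D)
    (hdiam : ∀ a ∈ F, ∀ b ∈ F, ∀ k, ((a k - b k : ℤ) : ℝ) ≤ D)
    (d0 : ∀ a ∈ F, ∀ b ∈ F, m0 ∣ a k0 - b k0)
    (d1 : ∀ a ∈ F, ∀ b ∈ F, a k0 = b k0 → m1 ∣ a k1 - b k1)
    (d2 : ∀ a ∈ F, ∀ b ∈ F, a k0 = b k0 → a k1 = b k1 → m2 ∣ a k2 - b k2) :
    (F.card : ℝ) ≤ (D / m0 + 1) * (D / m1 + 1) * (D / m2 + 1) := by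
  have p0 : (0 : ℝ) < m0 := by exact_mod_cast h0
  have p1 : (0 : ℝ) < m1 := by exact_mod_cast h1
  have p2 : (0 : ℝ) < m2 := by exact_mod_cast h2
  have e : (D / m0 + 1) * (D / m1 + 1) * (D / m2 + 1)
      = ((D / m2 + 1) * (D / m1 + 1)) * (D / m0 + 1) := by ring
  rw [e]
  apply card_le_fiber F (fun a => a k0) _ _ (by positivity)
  · intro x _
    apply card_le_fiber _ (fun a => a k1) _ _ (by positivity)
    · intro y _
      apply card_le_ap _ (fun a => a k2) _ m2 h2 D hD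
      · intro a ha b hb
        simp only [mem_filter] at ha hb
        exact d2 a ha.1.1 b hb.1.1 (ha.1.2.trans hb.1.2.symm) (ha.2.trans hb.2.symm)
      · intro a ha b hb
        simp only [mem_filter] at ha hb
        exact hdiam a ha.1.1 b hb.1.1 k2
      · intro a ha b hb hab
        simp only [coe_filter, mem_filter, Set.mem_ofPred_eq] at ha hb
        exact hk a b (ha.1.2.trans hb.1.2.symm) (ha.2.trans hb.2.symm) hab
    · apply card_le_ap _ id (Set.injOn_id _) m1 h1 D hD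
      · intro u hu v hv
        simp only [mem_image, mem_filter] at hu hv
        obtain ⟨a, ha, rfl⟩ := hu
        obtain ⟨b, hb, rfl⟩ := hv
        exact d1 a ha.1 b hb.1 (ha.2.trans hb.2.symm)
      · intro u hu v hv
        simp only [mem_image, mem_filter] at hu hv
        obtain ⟨a, ha, rfl⟩ := hu
        obtain ⟨b, hb, rfl⟩ := hv
        exact hdiam a ha.1 b hb.1 k1
  · apply card_le_ap _ id (Set.injOn_id _) m0 h0 D hD
    · intro u hu v hv
      simp only [mem_image] at hu hv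
      obtain ⟨a, ha, rfl⟩ := hu
      obtain ⟨b, hb, rfl⟩ := hv
      exact d0 a ha b hb
    · intro u hu v hv
      simp only [mem_image] at hu hv
      obtain ⟨a, ha, rfl⟩ := hu
      obtain ⟨b, hb, rfl⟩ := hv
      exact hdiam a ha b hb k0

lemma card_line (F : Finset V) (w : V) (hw : Prim w) (L : ℝ) (hL : 0 ≤ L)
    (hdiam : ∀ a ∈ F, ∀ b ∈ F, (nrm (a - b) : ℝ) ≤ L)
    (hc : ∀ a ∈ F, ∀ b ∈ F, cross (a - b) w = 0) : (F.card : ℝ) ≤ L / nrm w + 1 := by
  rcases F.eq_empty_or_nonempty with rfl | ⟨a0, ha0⟩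
  · have := nrm_nonneg w
    simp; positivity
  have hw0 : (0 : ℝ) < nrm w := by exact_mod_cast hw.nrm_pos
  choose! t ht using fun a (ha : a ∈ F) => hw.eq_smul_of_cross (hc a ha a0 ha0)
  have hab : ∀ a ∈ F, ∀ b ∈ F, a - b = (t a - t b) • w := by
    intro a ha b hb
    rw [sub_smul, ← ht a ha, ← ht b hb]; abel
  apply card_le_of_diam F t _ _ (by positivity)
  · intro a ha b hb
    have h1 := hdiam a ha b hb
    rw [hab a ha b hb, nrm_smul] at h1
    rw [le_div_iff₀ hw0]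
    have h2 : (t a - t b) * nrm w ≤ |t a - t b| * nrm w :=
      mul_le_mul_of_nonneg_right (le_abs_self _) (nrm_nonneg w)
    have h3 : (((t a - t b) * nrm w : ℤ) : ℝ) ≤ ((|t a - t b| * nrm w : ℤ) : ℝ) := by
      exact_mod_cast h2
    push_cast at h1 h3 ⊢
    linarith
  · intro a ha b hb h
    have := hab a ha b hb
    rw [h, sub_self, zero_smul] at this
    exact sub_eq_zero.mp this

lemma cross_sub (a b w : V) : cross (a - b) w = cross a w - cross b w := by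
  refine V.ext3 ?_ ?_ ?_ <;> simp <;> ring

lemma card_lat (F : Finset V) (w n : V) (hw : Prim w) (hn : n ≠ 0) (L : ℝ)
    (hdiam : ∀ a ∈ F, ∀ b ∈ F, (nrm (a - b) : ℝ) ≤ L)
    (hc : ∀ a ∈ F, ∀ b ∈ F, ∃ κ : ℤ, cross (a - b) w = κ • n)
    (h1 : (nrm w : ℝ) ≤ L) (h2 : (nrm n : ℝ) ≤ 2 * L * nrm w) :
    (F.card : ℝ) ≤ 8 * L ^ 2 / nrm n := by
  have hw0 : (0 : ℝ) < nrm w := by exact_mod_cast hw.nrm_pos
  have hn0 : (0 : ℝ) < nrm n := by exact_mod_cast nrm_pos hn
  have hL : 0 < L := by linarith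
  rcases F.eq_empty_or_nonempty with rfl | ⟨a0, ha0⟩
  · simp; positivity
  choose! κ hκ using fun a (ha : a ∈ F) => hc a ha a0 ha0
  have hab : ∀ a ∈ F, ∀ b ∈ F, cross (a - b) w = (κ a - κ b) • n := by
    intro a ha b hb
    rw [sub_smul, ← hκ a ha, ← hκ b hb, ← cross_sub]; congr 1; abel
  have h3 := card_le_fiber F κ (L / nrm w + 1) (2 * L * nrm w / nrm n + 1) (by positivity)
    (by
      intro k _
      apply card_line _ w hw L hL.le
      · intro a ha b hb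
        exact hdiam a (mem_filter.mp ha).1 b (mem_filter.mp hb).1
      · intro a ha b hb
        simp only [mem_filter] at ha hb
        rw [hab a ha.1 b hb.1, ha.2, hb.2, sub_self, zero_smul])
    (by
      apply card_le_of_diam _ id (Set.injOn_id _) _ (by positivity)
      intro u hu v hv
      simp only [mem_image] at hu hv
      obtain ⟨a, ha, rfl⟩ := hu
      obtain ⟨b, hb, rfl⟩ := hv
      have h4 := nrm_cross_le (a - b) w
      rw [hab a ha b hb, nrm_smul] at h4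
      have h5 : (κ a - κ b) * nrm n ≤ |κ a - κ b| * nrm n :=
        mul_le_mul_of_nonneg_right (le_abs_self _) (nrm_nonneg n)
      have h6 : (((κ a - κ b) * nrm n : ℤ) : ℝ) ≤ ((2 * nrm (a - b) * nrm w : ℤ) : ℝ) := by
        exact_mod_cast h5.trans h4
      have h7 := hdiam a ha b hb
      rw [le_div_iff₀ hn0]
      push_cast at h6 ⊢
      simp only [id]
      nlinarith)
  have e1 : L / nrm w + 1 ≤ 2 * L / nrm w := by
    rw [div_add_one hw0.ne', div_le_div_iff_of_pos_right hw0]; linarith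
  have e2 : 2 * L * nrm w / nrm n + 1 ≤ 4 * L * nrm w / nrm n := by
    rw [div_add_one hn0.ne', div_le_div_iff_of_pos_right hn0]; linarith
  calc (F.card : ℝ) ≤ (L / nrm w + 1) * (2 * L * nrm w / nrm n + 1) := h3
    _ ≤ (2 * L / nrm w) * (4 * L * nrm w / nrm n) := by gcongr
    _ = 8 * L ^ 2 / nrm n := by field_simp; ring

lemma card_lat_scaled (F : Finset V) (q : ℤ) (hq : 0 < q) (w n : V) (hw : Prim w) (hn : n ≠ 0)
    (L : ℝ) (hdiam : ∀ a ∈ F, ∀ b ∈ F, (nrm (a - b) : ℝ) ≤ q * L)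
    (hc : ∀ a ∈ F, ∀ b ∈ F, ∃ d : V, a - b = q • d ∧ ∃ κ : ℤ, cross d w = κ • n)
    (h1 : (nrm w : ℝ) ≤ L) (h2 : (nrm n : ℝ) ≤ 2 * L * nrm w) :
    (F.card : ℝ) ≤ 8 * L ^ 2 / nrm n := by
  have hn0 : (0 : ℝ) < nrm n := by exact_mod_cast nrm_pos hn
  have hq' : (0 : ℝ) < q := by exact_mod_cast hq
  rcases F.eq_empty_or_nonempty with rfl | ⟨a0, ha0⟩
  · simp; positivity
  choose! d hd hd' using fun a (ha : a ∈ F) => hc a ha a0 ha0
  have hab : ∀ a ∈ F, ∀ b ∈ F, a - b = q • (d a - d b) := by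
    intro a ha b hb
    rw [smul_sub, ← hd a ha, ← hd b hb]; abel
  have hinj : Set.InjOn d F := by
    intro a ha b hb h
    have := hab a ha b hb
    rw [h, sub_self, smul_zero] at this
    exact sub_eq_zero.mp this
  rw [← card_image_of_injOn hinj]
  apply card_lat _ w n hw hn L _ _ h1 h2
  · intro u hu v hv
    simp only [mem_image] at hu hv
    obtain ⟨a, ha, rfl⟩ := hu
    obtain ⟨b, hb, rfl⟩ := hv
    have h3 := hdiam a ha b hb
    rw [hab a ha b hb, nrm_smul, abs_of_pos hq] at h3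
    push_cast at h3
    exact le_of_mul_le_mul_left h3 hq'
  · intro u hu v hv
    simp only [mem_image] at hu hv
    obtain ⟨a, ha, rfl⟩ := hu
    obtain ⟨b, hb, rfl⟩ := hv
    obtain ⟨κ1, e1⟩ := hd' a ha
    obtain ⟨κ2, e2⟩ := hd' b hb
    exact ⟨κ1 - κ2, by rw [cross_sub, e1, e2, sub_smul]⟩

lemma dot_sub (c a b : V) : dot c (a - b) = dot c a - dot c b := by
  simp only [dot, Pi.sub_apply]; ring

lemma dot_add (c a b : V) : dot c (a + b) = dot c a + dot c b := by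
  simp only [dot, Pi.add_apply]; ring

lemma dot_smul (c a : V) (k : ℤ) : dot c (k • a) = k * dot c a := by
  simp only [dot, Pi.smul_apply, smul_eq_mul]; ring

lemma card_plane_scaled (F : Finset V) (m : ℤ) (hm : 0 < m) (c w : V) (hc : Prim c) (hw : Prim w)
    (hcw : dot c w = 0) (L : ℝ) (hdiam : ∀ a ∈ F, ∀ b ∈ F, (nrm (a - b) : ℝ) ≤ m * L)
    (hdvd : ∀ a ∈ F, ∀ b ∈ F, ∀ k, m ∣ a k - b k)
    (hdot : ∀ a ∈ F, ∀ b ∈ F, dot c a = dot c b)
    (h1 : (nrm w : ℝ) ≤ L) (h2 : (nrm c : ℝ) ≤ 2 * L * nrm w) :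
    (F.card : ℝ) ≤ 8 * L ^ 2 / nrm c := by
  apply card_lat_scaled F m hm w c hw hc.ne_zero L hdiam _ h1 h2
  intro a ha b hb
  choose d hd using hdvd a ha b hb
  have e : a - b = m • d := by ext k; simpa using hd k
  refine ⟨d, e, hc.cross_eq_smul ?_ hcw⟩
  have : m * dot c d = 0 := by rw [← dot_smul, ← e, dot_sub, hdot a ha b hb, sub_self]
  exact (mul_eq_zero.mp this).resolve_left hm.ne'

lemma card_plane' (F : Finset V) (m : ℤ) (hm : 0 < m) (c : V) (hc : Prim c)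
    (L : ℝ) (hdiam : ∀ a ∈ F, ∀ b ∈ F, (nrm (a - b) : ℝ) ≤ m * L)
    (hdvd : ∀ a ∈ F, ∀ b ∈ F, ∀ k, m ∣ a k - b k)
    (hdot : ∀ a ∈ F, ∀ b ∈ F, dot c a = dot c b) (h1 : (nrm c : ℝ) ≤ L) :
    (F.card : ℝ) ≤ 8 * L ^ 2 / nrm c := by
  obtain ⟨w, hw, hcw, hn⟩ := exists_prim_perp hc.ne_zero
  have hn' : (nrm w : ℝ) ≤ nrm c := by exact_mod_cast hn
  have hw1 : (1 : ℝ) ≤ nrm w := by exact_mod_cast hw.nrm_pos
  have hc1 : (0 : ℝ) < nrm c := by exact_mod_cast hc.nrm_pos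
  apply card_plane_scaled F m hm c w hc hw hcw L hdiam hdvd hdot (by linarith)
  nlinarith

lemma dyadic_index (x : ℝ) (J : ℕ) (h1 : 1 ≤ x) (h2 : x < 2 ^ J) :
    ∃ t < J, (2 : ℝ) ^ t ≤ x ∧ x < 2 ^ (t + 1) := by
  induction J with
  | zero => simp at h2; linarith
  | succ J ih =>
    by_cases h : x < 2 ^ J
    · obtain ⟨t, ht, h3⟩ := ih h
      exact ⟨t, by omega, h3⟩
    · exact ⟨J, by omega, not_lt.mp h, h2⟩

lemma dyadic_sum {α : Type*} (F : Finset α) (ν : α → ℝ) (R1 : ℝ) (hR1 : 0 < R1) (J k : ℕ)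
    (A B : ℝ) (hA : 0 ≤ A) (hlo : ∀ a ∈ F, R1 ≤ ν a) (hhi : ∀ a ∈ F, ν a < R1 * 2 ^ J)
    (hcount : ∀ R, R1 ≤ R → ((F.filter (fun a => ν a ≤ R)).card : ℝ) ≤ A + B * R ^ k) :
    ∑ a ∈ F, 1 / (ν a) ^ k ≤ J * (A / R1 ^ k + B * 2 ^ k) := by
  classical
  have hidx : ∀ a ∈ F, ∃ t < J, (2 : ℝ) ^ t ≤ ν a / R1 ∧ ν a / R1 < 2 ^ (t + 1) := by
    intro a ha
    apply dyadic_index
    · rw [le_div_iff₀ hR1]; linarith [hlo a ha]
    · rw [div_lt_iff₀ hR1]; linarith [hhi a ha]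
  choose! t ht ht1 ht2 using hidx
  rw [← sum_fiberwise_of_maps_to (t := range J) (g := t) (fun a ha => mem_range.mpr (ht a ha))]
  calc ∑ j ∈ range J, ∑ a ∈ F with t a = j, 1 / ν a ^ k
      ≤ ∑ _j ∈ range J, (A / R1 ^ k + B * 2 ^ k) := by
        apply sum_le_sum
        intro j _
        have hj : (1 : ℝ) ≤ 2 ^ j := one_le_pow₀ one_le_two
        have hc := hcount (R1 * 2 ^ (j + 1)) (by
          have : (1 : ℝ) ≤ 2 ^ (j + 1) := one_le_pow₀ one_le_two
          nlinarith)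
        have hsub : F.filter (fun a => t a = j) ⊆ F.filter (fun a => ν a ≤ R1 * 2 ^ (j + 1)) := by
          intro a ha
          simp only [mem_filter] at ha ⊢
          have := ht2 a ha.1
          rw [ha.2, div_lt_iff₀ hR1] at this
          exact ⟨ha.1, by linarith⟩
        have hc2 : ((F.filter (fun a => t a = j)).card : ℝ) ≤ A + B * (R1 * 2 ^ (j + 1)) ^ k :=
          le_trans (by exact_mod_cast card_le_card hsub) hc
        calc ∑ a ∈ F with t a = j, 1 / ν a ^ k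
            ≤ ∑ _a ∈ F with t _a = j, 1 / (R1 * 2 ^ j) ^ k := by
              apply sum_le_sum
              intro a ha
              simp only [mem_filter] at ha
              have := ht1 a ha.1
              rw [ha.2, le_div_iff₀ hR1] at this
              apply one_div_le_one_div_of_le (by positivity)
              apply pow_le_pow_left₀ (by positivity)
              linarith
          _ = ((F.filter (fun a => t a = j)).card : ℝ) * (1 / (R1 * 2 ^ j) ^ k) := by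
              simp
          _ ≤ (A + B * (R1 * 2 ^ (j + 1)) ^ k) * (1 / (R1 * 2 ^ j) ^ k) := by gcongr
          _ = A / (R1 * 2 ^ j) ^ k + B * 2 ^ k := by
              have : (R1 * 2 ^ (j + 1)) ^ k = (R1 * 2 ^ j) ^ k * 2 ^ k := by
                rw [← mul_pow]; congr 1; ring
              rw [this]; field_simp
          _ ≤ A / R1 ^ k + B * 2 ^ k := by
              gcongr
              nlinarith
    _ = J * (A / R1 ^ k + B * 2 ^ k) := by rw [sum_const, card_range, nsmul_eq_mul]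

end Vale.Agent.P036
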