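import Vale.Agent.P036.Geom
import Vale.Agent.P036.Core

open Finset

namespace Vale.Agent.P036

lemma exists_eps (P : ℕ) (hP : P.Prime) (h2 : 2 < P) :
    ∃ ε : ℤ, ∀ a b : ℤ, (P : ℤ) ∣ a ^ 2 - ε * b ^ 2 → (P : ℤ) ∣ a ∧ (P : ℤ) ∣ b := by
  have := Fact.mk hP
  obtain ⟨e, he⟩ := FiniteField.exists_nonsquare (F := ZMod P) (by rw [ZMod.ringChar_zmod_n]; omega)
  refine ⟨e.val, fun a b h => ?_⟩
  rw [← ZMod.intCast_zmod_eq_zero_iff_dvd] at h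
  rw [← ZMod.intCast_zmod_eq_zero_iff_dvd, ← ZMod.intCast_zmod_eq_zero_iff_dvd]
  push_cast at h
  rw [ZMod.natCast_zmod_val] at h
  have hb : (b : ZMod P) = 0 := by
    by_contra hb
    apply he
    refine ⟨a / b, ?_⟩
    field_simp
    linear_combination -h
  refine ⟨?_, hb⟩
  rw [hb] at h
  simpa using h

lemma exists_par (u W : ℤ) (J : ℕ) (hu : 240 ≤ u) (w : ℕ) (hw : u ^ 2 = 2 * w) (hW : 1 ≤ W)
    (hW2 : W ^ 2 ≤ u) (hJ : u ^ 58 < 2 ^ J) :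
    ∃ π : Par, π.υ = u ∧ π.W = W ∧ π.J = J ∧ π.Lx = u ^ 34 ∧ π.Ly = u ^ 19 ∧ π.Lz = u ^ 37 ∧
      u ^ 2 ≤ 2 * π.q ∧ π.q ≤ u ^ 2 ∧ u ^ 4 ≤ π.P ∧ π.P ≤ 2 * u ^ 4 := by
  have hu0 : 0 < u := by linarith
  have hw0 : w ≠ 0 := by rintro rfl; simp at hw; omega
  obtain ⟨q, hq, hq1, hq2⟩ := Nat.exists_prime_lt_and_le_two_mul w hw0
  obtain ⟨P, hP, hP1, hP2⟩ := Nat.exists_prime_lt_and_le_two_mul (4 * w ^ 2) (by positivity)
  have q1 : u ^ 2 < 2 * (q : ℤ) := by rw [hw]; exact_mod_cast (by omega : 2 * w < 2 * q)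
  have q2 : (q : ℤ) ≤ u ^ 2 := by rw [hw]; exact_mod_cast hq2
  have e4 : u ^ 4 = 4 * (w : ℤ) ^ 2 := by
    rw [show u ^ 4 = (u ^ 2) ^ 2 by ring, hw]; ring
  have P1 : u ^ 4 < (P : ℤ) := by rw [e4]; exact_mod_cast hP1
  have P2 : (P : ℤ) ≤ 2 * u ^ 4 := by rw [e4]; exact_mod_cast hP2
  have uq : u < q := by nlinarith
  have q0 : (0 : ℤ) < q := by linarith
  have qP : (q : ℤ) ^ 2 ≤ u ^ 4 := by
    rw [show u ^ 4 = (u ^ 2) ^ 2 by ring]; gcongr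
  have qP' : (q : ℤ) < P := by nlinarith
  have P0 : (0 : ℤ) < P := by linarith
  obtain ⟨ε, hε⟩ := exists_eps P hP (by
    have : (2 : ℤ) < P := by linarith
    exact_mod_cast this)
  have step : ∀ (c : ℤ) (k : ℕ), c ≤ 240 → c * u ^ k ≤ u ^ (k + 1) := by
    intro c k hc
    rw [pow_succ, mul_comm]
    exact mul_le_mul_of_nonneg_left (by linarith) (by positivity)
  refine ⟨{
    q := q, P := P, υ := u, Lx := u ^ 34, Ly := u ^ 19, Lz := u ^ 37, R1 := u ^ 14, W := W,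
    ε := ε, J := J,
    hq := Nat.prime_iff_prime_int.mp hq
    hq0 := q0
    hP := Nat.prime_iff_prime_int.mp hP
    hP0 := P0
    hqP := Nat.isCoprime_iff_coprime.mpr ((Nat.coprime_primes hP hq).mpr (by
      intro h; rw [h] at qP'; exact lt_irrefl _ qP'))
    hε := hε
    υ1 := by linarith
    υq := uq.le
    qυ := q2
    W1 := hW
    Wq := by linarith
    qP := by linarith
    cLx := ?_
    cR1 := ?_
    R1y := ?_
    R11 := one_le_pow₀ (by linarith)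
    cLy := ?_
    cLz := ?_
    cJ := ?_ }, rfl, rfl, rfl, rfl, rfl, rfl, q1.le, q2, P1.le, P2⟩
  · calc 32 * (q : ℤ) ^ 3 * P ^ 2 * u ^ 19 ≤ 32 * (u ^ 2) ^ 3 * (2 * u ^ 4) ^ 2 * u ^ 19 := by gcongr
      _ = 128 * u ^ 33 := by ring
      _ ≤ _ := step _ _ (by norm_num)
  · calc 2 * (q : ℤ) ^ 2 * P * u ^ 19 ≤ 2 * (u ^ 2) ^ 2 * (2 * u ^ 4) * u ^ 19 := by gcongr
      _ = 4 * u ^ 27 := by ring
      _ ≤ u ^ 28 := step _ _ (by norm_num)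
      _ = _ := by ring
  · calc u ^ 14 * P ≤ u ^ 14 * (2 * u ^ 4) := by gcongr
      _ = 2 * u ^ 18 := by ring
      _ ≤ _ := step _ _ (by norm_num)
  · calc 4 * P * (q : ℤ) ^ 2 ≤ 4 * (2 * u ^ 4) * (u ^ 2) ^ 2 := by gcongr
      _ = 8 * u ^ 8 := by ring
      _ ≤ u ^ 9 := step _ _ (by norm_num)
      _ ≤ _ := pow_le_pow_right₀ (by linarith) (by norm_num)
  · calc 2 * (q : ℤ) * u ^ 34 ≤ 2 * u ^ 2 * u ^ 34 := by gcongr
      _ = 2 * u ^ 36 := by ring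
      _ ≤ _ := step _ _ (by norm_num)
  · calc 8 * (q : ℤ) ^ 2 * u ^ 34 * u ^ 19 ≤ 8 * (u ^ 2) ^ 2 * u ^ 34 * u ^ 19 := by gcongr
      _ = 8 * u ^ 57 := by ring
      _ ≤ u ^ 58 := step _ _ (by norm_num)
      _ < _ := hJ

lemma exists_types (π : Par) (p : ℤ) (hp : 1 ≤ p) {T : Type} (Xb Yb Zb : T → ℤ) (q1 : ℤ)
    (hq1 : 0 < q1) (hX : ∀ s, 0 ≤ Xb s ∧ Xb s < q1) (hY : ∀ s, 1 ≤ Yb s ∧ Yb s ≤ π.W)
    (hZ : ∀ s, 0 ≤ Zb s ∧ Zb s ≤ π.W) (hμ : ∀ s s', s ≠ s' → Yb s * Zb s' ≠ Yb s' * Zb s)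
    (hN : ∀ s : Fin 3 → T, Function.Injective s → ∀ n : ℤ,
        q1 ≤ 2 * p * |det3 (fun k => Xb (s k)) (fun k => Yb (s k)) (fun k => Zb (s k)) - n * q1|)
    (hq : 12 * p * π.υ * π.W ^ 2 ≤ π.q) : ∃ τ : Types π T, τ.K = 4 * p := by
  have q0 := π.hq0
  refine ⟨{
    xh := fun s => π.q * Xb s / q1, Yb := Yb, Zb := Zb, K := 4 * p
    K2 := by linarith
    hx := ?_
    hy := hY
    hz := hZ
    hμ := hμ
    hN := ?_ }, rfl⟩
  · intro s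
    have := hX s
    refine ⟨Int.ediv_nonneg (mul_nonneg q0.le this.1) hq1.le, ?_⟩
    exact Int.ediv_lt_of_lt_mul hq1 (mul_lt_mul_of_pos_left this.2 q0)
  · intro s hs v hv n
    have h1 := hN s hs n
    set y : V := fun k => Yb (s k) with hy
    set z : V := fun k => Zb (s k) with hz
    set d : V := fun k => q1 * v k - π.q * Xb (s k) % q1 with hd
    have e : q1 * (dot (cross ((fun k => π.q * Xb (s k) / q1) + v) y) z - n * π.q)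
        = π.q * (det3 (fun k => Xb (s k)) y z - n * q1) + det3 d y z := by
      have r : ∀ k, q1 * (π.q * Xb (s k) / q1) = π.q * Xb (s k) - π.q * Xb (s k) % q1 := by
        intro k; rw [Int.emod_def]; ring
      simp only [det3, dot, cross_0, cross_1, cross_2, Pi.add_apply, hd]
      linear_combination (y 1 * z 2 - y 2 * z 1) * r 0 + (y 2 * z 0 - y 0 * z 2) * r 1
        + (y 0 * z 1 - y 1 * z 0) * r 2
    have bd : ∀ k, |d k| ≤ q1 * π.υ := by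
      intro k
      have a1 := mem_Box.mp hv k
      have a2 := Int.emod_nonneg (π.q * Xb (s k)) hq1.ne'
      have a3 := Int.emod_lt_of_pos (π.q * Xb (s k)) hq1
      have a4 := π.υ1
      simp only [hd]
      rw [abs_le]
      constructor <;> nlinarith
    have bc : ∀ i j, |y i * z j - y j * z i| ≤ π.W ^ 2 := by
      have b : ∀ i j, 0 ≤ y i * z j ∧ y i * z j ≤ π.W ^ 2 := by
        intro i j
        have h1 := hY (s i)
        have h2 := hZ (s j)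
        exact ⟨mul_nonneg (by linarith) h2.1, by
          rw [sq]; exact mul_le_mul h1.2 h2.2 h2.1 (by linarith)⟩
      intro i j
      have := b i j
      have := b j i
      rw [abs_le]; constructor <;> linarith
    have b3 : |det3 d y z| ≤ 3 * (q1 * π.υ * π.W ^ 2) := by
      have e3 : det3 d y z = d 0 * (y 1 * z 2 - y 2 * z 1) + d 1 * (y 2 * z 0 - y 0 * z 2)
          + d 2 * (y 0 * z 1 - y 1 * z 0) := by
        simp only [det3, dot, cross_0, cross_1, cross_2]; ring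
      have t : ∀ k i j, |d k * (y i * z j - y j * z i)| ≤ q1 * π.υ * π.W ^ 2 := by
        intro k i j
        rw [abs_mul]
        exact mul_le_mul (bd k) (bc i j) (abs_nonneg _) ((abs_nonneg _).trans (bd k))
      rw [e3]
      refine (abs_add_three _ _ _).trans ?_
      linarith [t 0 1 2, t 1 2 0, t 2 0 1]
    set A := dot (cross ((fun k => π.q * Xb (s k) / q1) + v) y) z - n * π.q with hA
    set Bd := det3 (fun k => Xb (s k)) y z - n * q1 with hBd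
    have h2 : π.q * |Bd| ≤ q1 * |A| + |det3 d y z| := by
      have := abs_sub (q1 * A) (det3 d y z)
      rw [show q1 * A - det3 d y z = π.q * Bd by linear_combination e, abs_mul, abs_mul,
        abs_of_pos q0, abs_of_pos hq1] at this
      exact this
    apply le_of_mul_le_mul_left _ hq1
    have h3 := mul_le_mul_of_nonneg_left h1 q0.le
    have h4 := mul_le_mul_of_nonneg_left (h2.trans (add_le_add le_rfl b3))
      (by linarith : 0 ≤ 4 * p)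
    have h5 := mul_le_mul_of_nonneg_left hq hq1.le
    nlinarith

lemma num2 (p κ u q J : ℝ) (hp : 240 ≤ p) (hκ : 1 ≤ κ) (pu : 2 * p ≤ u) (κu : 2 * κ ≤ u)
    (q0 : 0 < q) (s2 : q ≤ u ^ 2) (J0 : 0 ≤ J) (J1 : J ≤ 116 * κ * p) :
    24 * (2 * p * u ^ 49) * (J + 4 * q ^ 2) ≤ u ^ 2 * u ^ 34 * u ^ 19 := by
  have u0 : 0 < u := by linarith
  have a1 : J ≤ u ^ 4 := by
    have h1 : κ * p ≤ u * u := by gcongr <;> linarith
    have h2 : 116 ≤ u * u := by nlinarith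
    calc J ≤ 116 * (κ * p) := by linarith
      _ ≤ (u * u) * (u * u) := by gcongr
      _ = _ := by ring
  have a2 : q ^ 2 ≤ u ^ 4 := by
    rw [show u ^ 4 = (u ^ 2) ^ 2 by ring]; gcongr
  calc 24 * (2 * p * u ^ 49) * (J + 4 * q ^ 2)
      ≤ 24 * (u * u ^ 49) * (u ^ 4 + 4 * u ^ 4) := by gcongr
    _ = 120 * u ^ 54 := by ring
    _ ≤ u * u ^ 54 := by gcongr; linarith
    _ = _ := by ring

lemma num3 (p κ u q P J : ℝ) (hp : 240 ≤ p) (u0 : 0 < u) (s1 : u ^ 2 ≤ 2 * q) (s3 : u ^ 4 ≤ P)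
    (J0 : 0 ≤ J) (J1 : J ≤ 116 * κ * p) (a1 : 16 * 132000000 * 116 ^ 2 * κ ^ 2 ≤ p) :
    132000000 * (2 * p * u ^ 49) ^ 2 * J ^ 2 ≤ p ^ 5 * q ^ 2 * P * u ^ 34 * u ^ 19 * u ^ 37 := by
  have a2 : u ^ 2 / 2 ≤ q := by linarith
  have p0 : 0 < p := by linarith
  calc 132000000 * (2 * p * u ^ 49) ^ 2 * J ^ 2
      ≤ 132000000 * (2 * p * u ^ 49) ^ 2 * (116 * κ * p) ^ 2 := by gcongr
    _ = (16 * 132000000 * 116 ^ 2 * κ ^ 2) * (p ^ 4 * u ^ 98 / 4) := by ring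
    _ ≤ p * (p ^ 4 * u ^ 98 / 4) := by gcongr
    _ = p ^ 5 * (u ^ 2 / 2) ^ 2 * u ^ 4 * u ^ 34 * u ^ 19 * u ^ 37 := by ring
    _ ≤ _ := by gcongr

lemma par_case {π : Par} (p κ w : ℕ) (τ : Types π (Fin (p ^ 5))) (hK : τ.K = 4 * p)
    (hp5 : 240 ≤ p) (hκ1 : 1 ≤ κ) (hp0 : 16 * 132000000 * 116 ^ 2 * κ ^ 2 ≤ p) (pw : p ≤ w)
    (κw : κ ≤ w) (e1 : π.υ = 2 * w) (e3 : π.J = 58 * (1 + κ * p)) (e4 : π.Lx = (2 * w) ^ 34)
    (e5 : π.Ly = (2 * w) ^ 19) (e6 : π.Lz = (2 * w) ^ 37) (b1 : (2 * w : ℤ) ^ 2 ≤ 2 * π.q)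
    (b2 : π.q ≤ (2 * w) ^ 2) (b3 : (2 * w : ℤ) ^ 4 ≤ π.P) (b4 : π.P ≤ 2 * (2 * w) ^ 4) :
    ∃ S : Finset (ℝ × ℝ), p * w ^ 49 ≤ S.card ∧
      (∀ a ∈ S, 0 ≤ a.1 ∧ a.1 ≤ 1 ∧ 0 ≤ a.2 ∧ a.2 ≤ 1) ∧
      ∀ a ∈ S, ∀ b ∈ S, ∀ c ∈ S, a ≠ b → a ≠ c → b ≠ c →
        1 / (2 ^ 106 * (p * w ^ 98 : ℝ))
          ≤ 1 / 2 * |(b.1 - a.1) * (c.2 - a.2) - (b.2 - a.2) * (c.1 - a.1)| := by
  have : Nonempty (Fin (p ^ 5)) := ⟨⟨0, pow_pos (by omega) _⟩⟩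
  obtain ⟨u, hu⟩ : ∃ u : ℝ, u = 2 * w := ⟨_, rfl⟩
  have hpR : (240 : ℝ) ≤ p := by exact_mod_cast hp5
  have pu : 2 * (p : ℝ) ≤ u := by
    have : (p : ℝ) ≤ w := by exact_mod_cast pw
    linarith
  have κu : 2 * (κ : ℝ) ≤ u := by
    have : (κ : ℝ) ≤ w := by exact_mod_cast κw
    linarith
  have hκR : (1 : ℝ) ≤ κ := by exact_mod_cast hκ1
  have u0 : 0 < u := by linarith
  have r1 : (π.υ : ℝ) = u := by rw [e1, hu]; push_cast; ring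
  have r3 : (π.J : ℝ) = 58 * (1 + κ * p) := by rw [e3]; push_cast; ring
  have r4 : (π.Lx : ℝ) = u ^ 34 := by rw [e4, hu]; push_cast; ring
  have r5 : (π.Ly : ℝ) = u ^ 19 := by rw [e5, hu]; push_cast; ring
  have r6 : (π.Lz : ℝ) = u ^ 37 := by rw [e6, hu]; push_cast; ring
  have s1 : u ^ 2 ≤ 2 * π.q := by rw [hu]; exact_mod_cast b1
  have s2 : π.q ≤ u ^ 2 := by rw [hu]; exact_mod_cast b2
  have s3 : u ^ 4 ≤ π.P := by rw [hu]; exact_mod_cast b3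
  have s4 : π.P ≤ 2 * u ^ 4 := by rw [hu]; exact_mod_cast b4
  have q0 : (0 : ℝ) < π.q := by exact_mod_cast π.hq0
  have P0 : (0 : ℝ) < π.P := by exact_mod_cast π.hP0
  have rn : ((2 * p * (2 * w) ^ 49 : ℕ) : ℝ) = 2 * p * u ^ 49 := by rw [hu]; push_cast; ring
  have J1 : (π.J : ℝ) ≤ 116 * κ * p := by
    have : (1 : ℝ) ≤ κ * p := one_le_mul_of_one_le_of_one_le hκR (by linarith)
    rw [r3]; linarith
  obtain ⟨S, hS1, hS2, hS3⟩ := τ.geom (2 * p * (2 * w) ^ 49) (by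
      have : 1 ≤ (2 * w) ^ 49 := Nat.one_le_pow _ _ (by omega)
      exact le_trans (by omega) (Nat.mul_le_mul_left (2 * p) this)) (by
      rw [rn, r1, r4, r5]
      exact num2 p κ u _ _ hpR hκR pu κu q0 s2 (Nat.cast_nonneg _) J1) (by
      rw [rn, r4, r5, r6, Fintype.card_fin, Nat.cast_pow]
      exact num3 p κ u _ _ _ hpR u0 s1 s3 (Nat.cast_nonneg _) J1 (by exact_mod_cast hp0))
  refine ⟨S, ?_, hS2, ?_⟩
  · have a2 : w ^ 49 ≤ (2 * w) ^ 49 := Nat.pow_le_pow_left (by omega) _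
    have a3 := Nat.mul_le_mul_left p a2
    rw [mul_assoc] at hS1
    omega
  · intro a ha b hb c hc n1 n2 n3
    refine le_trans ?_ (hS3 a ha b hb c hc n1 n2 n3)
    apply one_div_le_one_div_of_le
    · rw [hK, r4, r5, r6]; push_cast; positivity
    · rw [hK, r4, r5, r6]
      push_cast
      calc 32 * (4 * (p : ℝ)) * π.q ^ 2 * π.P * u ^ 34 * u ^ 19 * u ^ 37
          ≤ 32 * (4 * (p : ℝ)) * (u ^ 2) ^ 2 * (2 * u ^ 4) * u ^ 34 * u ^ 19 * u ^ 37 := by gcongr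
        _ = _ := by rw [hu]; ring

theorem prime_case : ∃ κ p0 : ℕ, 1 ≤ p0 ∧ ∀ p : ℕ, p.Prime → p0 ≤ p →
    ∃ S : Finset (ℝ × ℝ), p ^ (49 * κ + 1) ≤ S.card ∧
      (∀ a ∈ S, 0 ≤ a.1 ∧ a.1 ≤ 1 ∧ 0 ≤ a.2 ∧ a.2 ≤ 1) ∧
      ∀ a ∈ S, ∀ b ∈ S, ∀ c ∈ S, a ≠ b → a ≠ c → b ≠ c →
        1 / (2 ^ 106 * (p : ℝ) ^ (98 * κ + 1))
          ≤ 1 / 2 * |(b.1 - a.1) * (c.2 - a.2) - (b.2 - a.2) * (c.1 - a.1)| := by
  obtain ⟨κ0, hκ0, hcore⟩ := core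
  obtain ⟨κ, hκ⟩ : ∃ κ, κ = 2 * κ0 + 3 := ⟨_, rfl⟩
  have hκ1 : 1 ≤ κ := by omega
  have hκ2 : 1 ≤ κ ^ 2 := one_le_pow₀ hκ1
  refine ⟨κ, 16 * 132000000 * 116 ^ 2 * κ ^ 2, by omega, ?_⟩
  intro p hp hp0
  have hp5 : 240 ≤ p := by omega
  obtain ⟨w, hw⟩ : ∃ w, w = p ^ κ := ⟨_, rfl⟩
  have pw : p ≤ w := hw ▸ Nat.le_self_pow (by omega) _
  have κw : κ ≤ w := hw ▸ (Nat.lt_pow_self hp.one_lt).le
  have hpZ : (240 : ℤ) ≤ p := by exact_mod_cast hp5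
  have hwZ : (240 : ℤ) ≤ w := by exact_mod_cast hp5.trans pw
  have eW : (w : ℤ) = p ^ 3 * ((p : ℤ) ^ κ0) ^ 2 := by rw [hw, hκ]; push_cast; ring
  have W1 : 1 ≤ (p : ℤ) ^ κ0 := one_le_pow₀ (by linarith)
  have p3 : 12 * (p : ℤ) ≤ p ^ 3 := by
    have : 12 ≤ (p : ℤ) ^ 2 := by nlinarith
    calc 12 * (p : ℤ) ≤ p ^ 2 * p := by gcongr
      _ = _ := by ring
  have Ww : 12 * p * ((p : ℤ) ^ κ0) ^ 2 ≤ w := by rw [eW]; gcongr
  obtain ⟨π, e1, e2, e3, e4, e5, e6, b1, b2, b3, b4⟩ := exists_par (2 * w) (p ^ κ0)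
    (58 * (1 + κ * p)) (by linarith) (2 * w ^ 2) (by push_cast; ring) W1 (by
      have : 1 * ((p : ℤ) ^ κ0) ^ 2 ≤ 12 * p * ((p : ℤ) ^ κ0) ^ 2 := by gcongr; linarith
      linarith) (by
      have a1 : w < 2 ^ (κ * p) := by
        rw [hw, mul_comm, pow_mul]
        exact Nat.pow_lt_pow_left Nat.lt_two_pow_self (by omega)
      have a2 : (2 * w : ℤ) < 2 ^ (1 + κ * p) := by
        rw [pow_add, pow_one]
        have : (w : ℤ) < 2 ^ (κ * p) := by exact_mod_cast a1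
        linarith
      rw [mul_comm 58, pow_mul]
      exact pow_lt_pow_left₀ a2 (by positivity) (by norm_num))
  obtain ⟨Xb, Yb, Zb, q1, h1, h2, h3, h4, h5, h6⟩ := hcore p hp (by omega)
  obtain ⟨τ, hK⟩ := exists_types π p (by linarith) Xb Yb Zb q1 h1 h2 (e2 ▸ h3) (e2 ▸ h4) h5 h6 (by
    rw [e1, e2]
    have := mul_le_mul_of_nonneg_left Ww (by linarith : (0 : ℤ) ≤ 2 * w)
    linarith)
  obtain ⟨S, h1, h2, h3⟩ := par_case p κ w τ hK hp5 hκ1 hp0 pw κw e1 e3 e4 e5 e6 b1 b2 b3 b4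
  refine ⟨S, ?_, h2, ?_⟩
  · rwa [show p ^ (49 * κ + 1) = p * w ^ 49 by rw [hw]; ring]
  · rwa [show (p : ℝ) ^ (98 * κ + 1) = p * w ^ 98 by rw [hw]; push_cast; ring]

theorem all_n : ∃ η : ℝ, 0 < η ∧ ∃ c : ℝ, 0 < c ∧ ∀ n : ℕ, 1 ≤ n →
    ∃ S : Finset (ℝ × ℝ), S.card = n ∧
      (∀ a ∈ S, 0 ≤ a.1 ∧ a.1 ≤ 1 ∧ 0 ≤ a.2 ∧ a.2 ≤ 1) ∧
      ∀ a ∈ S, ∀ b ∈ S, ∀ d ∈ S, a ≠ b → a ≠ d → b ≠ d →
        c * (n : ℝ) ^ (-2 + η)
          ≤ 1 / 2 * |(b.1 - a.1) * (d.2 - a.2) - (b.2 - a.2) * (d.1 - a.1)| := by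
  obtain ⟨κ, p0, hp0, h⟩ := prime_case
  have hp0' : (1 : ℝ) ≤ p0 := by exact_mod_cast hp0
  refine ⟨((49 * κ + 1 : ℕ) : ℝ)⁻¹, by positivity, 1 / (2 ^ 106 * (4 * p0) ^ (98 * κ + 1)),
    by positivity, ?_⟩
  intro n hn
  have hn' : (1 : ℝ) ≤ n := by exact_mod_cast hn
  set x : ℝ := (n : ℝ) ^ ((49 * κ + 1 : ℕ) : ℝ)⁻¹ with hx
  have x1 : 1 ≤ x := Real.one_le_rpow hn' (by positivity)
  have xn : x ^ (49 * κ + 1) = n := Real.rpow_inv_natCast_pow (by linarith) (by omega)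
  have m1 : 1 ≤ ⌈x⌉₊ := Nat.one_le_ceil_iff.mpr (by linarith)
  obtain ⟨p, hp, hp1, hp2⟩ := Nat.exists_prime_lt_and_le_two_mul (p0 * ⌈x⌉₊) (by positivity)
  obtain ⟨S, h1, h2, h3⟩ := h p hp (by nlinarith)
  have xp : x ≤ p := by
    have a1 : ⌈x⌉₊ ≤ p := by nlinarith
    exact (Nat.le_ceil x).trans (by exact_mod_cast a1)
  have px : (p : ℝ) ≤ 4 * p0 * x := by
    have a1 : (p : ℝ) ≤ 2 * (p0 * ⌈x⌉₊) := by exact_mod_cast hp2
    have a2 : (⌈x⌉₊ : ℝ) < x + 1 := Nat.ceil_lt_add_one (by linarith)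
    nlinarith
  have hnS : n ≤ S.card := by
    refine le_trans ?_ h1
    have : (n : ℝ) ≤ (p : ℝ) ^ (49 * κ + 1) := by rw [← xn]; gcongr
    exact_mod_cast this
  obtain ⟨S', hS', hc⟩ := exists_subset_card_eq hnS
  refine ⟨S', hc, fun a ha => h2 a (hS' ha), ?_⟩
  intro a ha b hb d hd n1 n2 n3
  refine le_trans ?_ (h3 a (hS' ha) b (hS' hb) d (hS' hd) n1 n2 n3)
  have e : (n : ℝ) ^ (-2 + ((49 * κ + 1 : ℕ) : ℝ)⁻¹) = 1 / x ^ (98 * κ + 1) := by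
    rw [hx, ← Real.rpow_natCast, ← Real.rpow_mul (by linarith), one_div,
      ← Real.rpow_neg (by linarith)]
    congr 1
    push_cast
    field_simp
    ring
  rw [e, div_mul_div_comm, one_mul, mul_assoc, ← mul_pow]
  have p0' : (0 : ℝ) < p := by linarith
  gcongr

end Vale.Agent.P036
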