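import Vale.Agent.P036.Conf

open Finset

namespace Vale.Agent.P036

lemma fin3_cases : ∀ k i : Fin 3, i = k ∨ i = k + 1 ∨ i = k + 2 := by decide

lemma inj2 {α : Type} {a b : α} (h : a ≠ b) : Function.Injective ![a, b] := by
  intro i j hij
  fin_cases i <;> fin_cases j <;> simp_all

lemma inj3 {α : Type} {a b c : α} (h : a ≠ b) (h2 : a ≠ c) (h3 : b ≠ c) :
    Function.Injective ![a, b, c] := by
  intro i j hij
  fin_cases i <;> fin_cases j <;> simp_all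

lemma area_lb (xa xb xc ya yb yc za zb zc q P K Lx Ly Lz : ℝ) (hq : 0 < q) (hP : 0 < P)
    (hK : 0 < K) (hLx : 0 < Lx) (hLy : 0 < Ly) (hLz : 0 < Lz) (a0 : 0 < ya) (b0 : 0 < yb)
    (c0 : 0 < yc) (a1 : ya ≤ 2 * q * Ly) (b1 : yb ≤ 2 * q * Ly) (c1 : yc ≤ 2 * q * Ly)
    (h : q ≤ K * |(xb * yc - xc * yb) * za + (xc * ya - xa * yc) * zb + (xa * yb - xb * ya) * zc|) :
    1 / (32 * K * q ^ 2 * P * Lx * Ly * Lz) ≤ 1 / 2 *
      |(xb / yb * (Ly / (2 * Lx)) - xa / ya * (Ly / (2 * Lx)))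
        * (zc / yc * (Ly / (P * Lz)) - za / ya * (Ly / (P * Lz)))
      - (zb / yb * (Ly / (P * Lz)) - za / ya * (Ly / (P * Lz)))
        * (xc / yc * (Ly / (2 * Lx)) - xa / ya * (Ly / (2 * Lx)))| := by
  set D := (xb * yc - xc * yb) * za + (xc * ya - xa * yc) * zb + (xa * yb - xb * ya) * zc with hD
  have e1 : (xb / yb * (Ly / (2 * Lx)) - xa / ya * (Ly / (2 * Lx)))
        * (zc / yc * (Ly / (P * Lz)) - za / ya * (Ly / (P * Lz)))
      - (zb / yb * (Ly / (P * Lz)) - za / ya * (Ly / (P * Lz)))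
        * (xc / yc * (Ly / (2 * Lx)) - xa / ya * (Ly / (2 * Lx)))
      = -D * (Ly ^ 2 / (2 * Lx * P * Lz * (ya * yb * yc))) := by
    rw [hD]
    field_simp
    ring
  rw [e1, abs_mul, abs_neg, abs_of_pos (a := _ / _) (by positivity)]
  have h8 : q / K ≤ |D| := by rw [div_le_iff₀ hK]; linarith
  calc 1 / (32 * K * q ^ 2 * P * Lx * Ly * Lz)
      = 1 / 2 * (q / K * (Ly ^ 2 / (2 * Lx * P * Lz *
        ((2 * q * Ly) * (2 * q * Ly) * (2 * q * Ly))))) := by field_simp; ring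
    _ ≤ _ := by gcongr

open Classical in
lemma card_noninj (T : Type) [Fintype T] :
    (((univ : Finset (Fin 3 → T)).filter (fun s => ∃ k, s (k + 1) = s (k + 2))).card : ℝ)
      ≤ 3 * Fintype.card T ^ 2 := by
  have key : ∀ k : Fin 3, ((univ : Finset (Fin 3 → T)).filter (fun s => s (k + 1) = s (k + 2))).card
      ≤ Fintype.card T ^ 2 := by
    intro k
    rw [sq, ← Fintype.card_prod, ← card_univ]
    apply card_le_card_of_injOn (fun s => (s k, s (k + 1))) (fun _ _ => by simp)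
    intro a ha b hb h
    simp only [coe_filter, mem_univ, true_and, Set.mem_ofPred_eq, Prod.mk.injEq] at ha hb h
    have h3 : a (k + 2) = b (k + 2) := by rw [← ha, ← hb, h.2]
    funext i
    have : i = k ∨ i = k + 1 ∨ i = k + 2 := fin3_cases k i
    rcases this with rfl | rfl | rfl
    exacts [h.1, h.2, h3]
  have hsub : (univ : Finset (Fin 3 → T)).filter (fun s => ∃ k, s (k + 1) = s (k + 2)) ⊆
      univ.biUnion (fun k : Fin 3 => univ.filter (fun s => s (k + 1) = s (k + 2))) := by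
    intro s hs
    obtain ⟨k, hk⟩ := (mem_filter.mp hs).2
    exact mem_biUnion.mpr ⟨k, mem_univ _, mem_filter.mpr ⟨mem_univ _, hk⟩⟩
  have h5 := (card_le_card hsub).trans card_biUnion_le
  rw [Fin.sum_univ_three] at h5
  have : ((univ : Finset (Fin 3 → T)).filter (fun s => ∃ k, s (k + 1) = s (k + 2))).card
    ≤ 3 * Fintype.card T ^ 2 := by linarith [key 0, key 1, key 2]
  exact_mod_cast this

lemma inj_of_not {T : Type} {s : Fin 3 → T} (h : ¬ ∃ k, s (k + 1) = s (k + 2)) :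
    Function.Injective s := by
  push Not at h
  have h0 : s 1 ≠ s 2 := h 0
  have h1 : s 2 ≠ s 0 := h 1
  have h2 : s 0 ≠ s 1 := h 2
  intro i j hij
  fin_cases i <;> fin_cases j <;> simp_all

namespace Types

variable {π : Par} {T : Type} [Fintype T] (τ : Types π T)

def B3 (e : ℤ) (ω : Fin 3 → Pt T) : Prop :=
  (∀ k, cross (fun k => τ.px (ω k)) (fun k => τ.py (ω k)) k ≠ 0) ∧
    τ.K * |dot (cross (fun k => τ.px (ω k)) (fun k => τ.py (ω k))) (fun k => τ.pz e (ω k))| < π.q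

noncomputable def ζ (s : Fin 3 → T) (e : ℤ) (x y : V) : V :=
  fun k => π.zeta (τ.Zb (s k)) (x k ^ 2 - π.ε * y k ^ 2 + e)

omit [Fintype T] in
lemma ζ_spec (s : Fin 3 → T) : π.Spec (fun k => τ.Zb (s k)) (τ.ζ s) :=
  fun _ _ _ _ => (π.zeta_spec _ _).2

def key3 (a : ℤ × (Fin 3 → Pt T)) : (Fin 3 → T) × V × V × V × ℤ × V :=
  (fun k => (a.2 k).1, fun k => (a.2 k).2.1, fun k => (a.2 k).2.2.2.1, fun k => (a.2 k).2.2.1,
    a.1, fun k => (a.2 k).2.2.2.2)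

def Bad (s : Fin 3 → T) (u : V × V × V × ℤ × V) : Prop :=
  (∀ k, cross (π.X (fun k => τ.xh (s k)) u) (π.Y (fun k => τ.Yb (s k)) u) k ≠ 0) ∧
      2 * |dot (cross (π.X (fun k => τ.xh (s k)) u) (π.Y (fun k => τ.Yb (s k)) u))
        (π.Z (fun k => τ.xh (s k)) (fun k => τ.Yb (s k)) (τ.ζ s) u)| < π.q

lemma B3_coll {e : ℤ} {ω : Fin 3 → Pt T} (hω : ∀ k, ω k ∈ Om π T) (h : τ.B3 e ω) :
    ∃ k, (ω (k + 1)).1 = (ω (k + 2)).1 := by
  by_contra hn
  have hinj := inj_of_not (s := fun k => (ω k).1) hn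
  choose t ht using fun k => (π.zeta_spec (τ.Zb (ω k).1)
    (τ.px (ω k) ^ 2 - π.ε * τ.py (ω k) ^ 2 + e)).2.1
  set xb : V := (fun k => τ.xh (ω k).1) + fun k => (ω k).2.1 with hxb
  set yb : V := fun k => τ.Yb (ω k).1 with hyb
  set zb : V := fun k => τ.Zb (ω k).1 with hzb
  have ex : ∀ k, τ.px (ω k) = xb k + π.q * (ω k).2.2.1 := fun k => rfl
  have ey : ∀ k, τ.py (ω k) = yb k + π.q * (π.Ly + (ω k).2.2.2.1) := fun k => rfl
  have ez : ∀ k, τ.pz e (ω k) = zb k + π.q * (t k + π.P * (ω k).2.2.2.2) := by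
    intro k
    have := ht k
    simp only [pz, hzb]; linear_combination this
  have hd : π.q ∣ dot (cross xb yb) zb -
      dot (cross (fun k => τ.px (ω k)) (fun k => τ.py (ω k))) (fun k => τ.pz e (ω k)) := by
    apply Int.ModEq.dvd
    have mx : ∀ k, τ.px (ω k) ≡ xb k [ZMOD π.q] := fun k => by rw [ex]; simp
    have my : ∀ k, τ.py (ω k) ≡ yb k [ZMOD π.q] := fun k => by rw [ey]; simp
    have mz : ∀ k, τ.pz e (ω k) ≡ zb k [ZMOD π.q] := fun k => by rw [ez]; simp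
    simp only [dot, cross_0, cross_1, cross_2]
    exact ((((mx 1).mul (my 2)).sub ((mx 2).mul (my 1))).mul (mz 0)).add
      ((((mx 2).mul (my 0)).sub ((mx 0).mul (my 2))).mul (mz 1)) |>.add
      ((((mx 0).mul (my 1)).sub ((mx 1).mul (my 0))).mul (mz 2))
  obtain ⟨n, hn⟩ := hd
  have := τ.hN _ hinj (fun k => (ω k).2.1)
    (mem_Box.mpr (fun k => mem_Ico.mp (mem_Om.mp (hω k)).1)) n
  have h2 := h.2
  have e2 : dot (cross (fun k => τ.px (ω k)) (fun k => τ.py (ω k))) (fun k => τ.pz e (ω k))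
    = dot (cross xb yb) zb - n * π.q := by linear_combination -hn
  rw [e2] at h2
  exact absurd this (not_le.mpr h2)

open Classical in
lemma triple_total : ∑ e ∈ Ico 0 π.P,
    (((Fintype.piFinset (fun _ : Fin 3 => Om π T)).filter (τ.B3 e)).card : ℝ)
    ≤ 3 * Fintype.card T ^ 2 *
      (11000000 * π.J ^ 2 * π.υ ^ 3 * π.Lx ^ 2 * π.Ly ^ 2 * π.Lz ^ 2 / π.q ^ 2) := by
  rw [← card_filter_prod (Ico 0 π.P) (Fintype.piFinset (fun _ : Fin 3 => Om π T))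
    (fun a => τ.B3 a.1 a.2)]
  set S := (univ : Finset (Fin 3 → T)).filter (fun s => ∃ k, s (k + 1) = s (k + 2)) with hS
  have h1 : ((Ico 0 π.P ×ˢ Fintype.piFinset (fun _ : Fin 3 => Om π T)).filter
      (fun a => τ.B3 a.1 a.2)).card ≤ ((S ×ˢ π.U).filter (fun b => τ.Bad b.1 b.2)).card := by
    apply card_le_card_of_injOn key3
    · intro a ha
      simp only [coe_filter, mem_product, Fintype.mem_piFinset, Set.mem_ofPred_eq] at ha
      obtain ⟨⟨he, hω⟩, hB⟩ := ha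
      refine mem_coe.mpr (mem_filter.mpr ⟨mem_product.mpr ⟨?_, ?_⟩, hB.1, ?_⟩)
      · exact mem_filter.mpr ⟨mem_univ _, τ.B3_coll hω hB⟩
      · simp only [Par.U, Par.EL, mem_product, key3, mem_Box]
        exact ⟨fun k => mem_Ico.mp (mem_Om.mp (hω k)).1,
          fun k => mem_Ico.mp (mem_Om.mp (hω k)).2.2.1,
          fun k => mem_Ico.mp (mem_Om.mp (hω k)).2.1, he,
          fun k => mem_Ico.mp (mem_Om.mp (hω k)).2.2.2⟩
      · refine lt_of_le_of_lt ?_ hB.2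
        exact mul_le_mul_of_nonneg_right τ.K2 (abs_nonneg _)
    · intro a _ b _ h
      simp only [key3, Prod.mk.injEq] at h
      obtain ⟨a1, a2, a3, a4, a5, a6⟩ := h
      refine Prod.ext a5 (funext fun k => ?_)
      exact Prod.ext (congrFun a1 k) (Prod.ext (congrFun a2 k) (Prod.ext (congrFun a4 k)
        (Prod.ext (congrFun a3 k) (congrFun a6 k))))
  refine ((Nat.cast_le (α := ℝ)).mpr h1).trans ?_
  rw [card_filter_prod]
  have hυ : (0 : ℝ) < π.υ := by exact_mod_cast π.υ1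
  calc _ ≤ ∑ _s ∈ S,
        (11000000 * π.J ^ 2 * π.υ ^ 3 * π.Lx ^ 2 * π.Ly ^ 2 * π.Lz ^ 2 / π.q ^ 2 : ℝ) := by
        apply sum_le_sum
        intro s hs
        obtain ⟨k, hk⟩ := (mem_filter.mp hs).2
        have := π.triple_bound (xh := fun k => τ.xh (s k)) (fun k => τ.hx _) (fun k => τ.hy _)
          (τ.ζ_spec s) (τ.hcoll s k hk)
        refine le_trans (le_of_eq ?_) this
        congr 1
        apply congrArg
        apply filter_congr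
        intro u _
        rfl
    _ ≤ _ := by
        rw [sum_const, nsmul_eq_mul]
        exact mul_le_mul_of_nonneg_right (card_noninj T) (by positivity)

lemma exists_set [Nonempty T] (n : ℕ) (hn : 3 ≤ n)
    (h2 : 24 * (n : ℝ) * (π.J + 4 * π.q ^ 2) ≤ π.υ ^ 2 * π.Lx * π.Ly)
    (h3 : 132000000 * (n : ℝ) ^ 2 * π.J ^ 2
      ≤ Fintype.card T * π.q ^ 2 * π.P * π.Lx * π.Ly * π.Lz) :
    ∃ e, ∃ S ⊆ Om π T, n ≤ 2 * S.card ∧
      (∀ ω : Fin 2 → Pt T, Function.Injective ω → (∀ k, ω k ∈ S) → ¬ τ.B2 ω) ∧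
      (∀ ω : Fin 3 → Pt T, Function.Injective ω → (∀ k, ω k ∈ S) → ¬ τ.B3 e ω) := by
  classical
  have hq0 : (0 : ℝ) < π.q := by exact_mod_cast π.hq0
  have hP0 : (0 : ℝ) < π.P := by exact_mod_cast π.hP0
  have hυ : (0 : ℝ) < π.υ := by exact_mod_cast π.υ1
  have hLx : (0 : ℝ) < π.Lx := by exact_mod_cast π.Lx1
  have hLy : (0 : ℝ) < π.Ly := by exact_mod_cast π.Ly1
  have hLz : (0 : ℝ) < π.Lz := by exact_mod_cast π.Lz1
  have hT : (0 : ℝ) < Fintype.card T := by exact_mod_cast Fintype.card_pos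
  obtain ⟨e, _, he⟩ := exists_le_of_sum_le (s := Ico 0 π.P) ⟨0, mem_Ico.mpr ⟨le_rfl, π.hP0⟩⟩
    (f := fun e => (((Fintype.piFinset (fun _ : Fin 3 => Om π T)).filter (τ.B3 e)).card : ℝ))
    (g := fun _ => 3 * Fintype.card T ^ 2 *
      (11000000 * π.J ^ 2 * π.υ ^ 3 * π.Lx ^ 2 * π.Ly ^ 2 * π.Lz ^ 2 / π.q ^ 2) / π.P) (by
      rw [sum_const, nsmul_eq_mul, card_Ico0 π.hP0.le, mul_div_cancel₀ _ hP0.ne']
      exact τ.triple_total)
  refine ⟨e, alteration (Om π T) ?_ n hn τ.B2 (τ.B3 e) ?_ ?_ ?_⟩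
  · rw [← card_pos, ← Nat.cast_pos (α := ℝ), card_Om]; positivity
  · intro ω h; unfold B2; rw [h]
  · rw [card_Om]
    calc _ ≤ 4 * (n : ℝ) *
        (6 * Fintype.card T ^ 2 * π.Lz ^ 2 * π.Lx * π.Ly * (π.J + 4 * π.q ^ 2)) :=
          mul_le_mul_of_nonneg_left τ.pair_bound (by positivity)
      _ = (Fintype.card T ^ 2 * π.Lz ^ 2 * π.Lx * π.Ly) * (24 * (n : ℝ) * (π.J + 4 * π.q ^ 2)) := by
          ring
      _ ≤ (Fintype.card T ^ 2 * π.Lz ^ 2 * π.Lx * π.Ly) * (π.υ ^ 2 * π.Lx * π.Ly) := by gcongr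
      _ = _ := by ring
  · rw [card_Om]
    calc _ ≤ 4 * (n : ℝ) ^ 2 * (3 * Fintype.card T ^ 2 *
      (11000000 * π.J ^ 2 * π.υ ^ 3 * π.Lx ^ 2 * π.Ly ^ 2 * π.Lz ^ 2 / π.q ^ 2) / π.P) :=
          mul_le_mul_of_nonneg_left he (by positivity)
      _ = (Fintype.card T ^ 2 * π.υ ^ 3 * π.Lx ^ 2 * π.Ly ^ 2 * π.Lz ^ 2 / (π.q ^ 2 * π.P)) *
          (132000000 * (n : ℝ) ^ 2 * π.J ^ 2) := by field_simp; ring
      _ ≤ (Fintype.card T ^ 2 * π.υ ^ 3 * π.Lx ^ 2 * π.Ly ^ 2 * π.Lz ^ 2 / (π.q ^ 2 * π.P)) *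
          (Fintype.card T * π.q ^ 2 * π.P * π.Lx * π.Ly * π.Lz) := by gcongr
      _ = _ := by field_simp

/-- the planar point -/
noncomputable def pt (e : ℤ) (ω : Pt T) : ℝ × ℝ :=
  (τ.px ω / τ.py ω * (π.Ly / (2 * π.Lx)), τ.pz e ω / τ.py ω * (π.Ly / (π.P * π.Lz)))

lemma geom [Nonempty T] (n : ℕ) (hn : 3 ≤ n)
    (h2 : 24 * (n : ℝ) * (π.J + 4 * π.q ^ 2) ≤ π.υ ^ 2 * π.Lx * π.Ly)
    (h3 : 132000000 * (n : ℝ) ^ 2 * π.J ^ 2
      ≤ Fintype.card T * π.q ^ 2 * π.P * π.Lx * π.Ly * π.Lz) :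
    ∃ S : Finset (ℝ × ℝ), n ≤ 2 * S.card ∧
      (∀ p ∈ S, 0 ≤ p.1 ∧ p.1 ≤ 1 ∧ 0 ≤ p.2 ∧ p.2 ≤ 1) ∧
      ∀ a ∈ S, ∀ b ∈ S, ∀ c ∈ S, a ≠ b → a ≠ c → b ≠ c →
        1 / (32 * τ.K * π.q ^ 2 * π.P * π.Lx * π.Ly * π.Lz : ℝ)
          ≤ 1 / 2 * |(b.1 - a.1) * (c.2 - a.2) - (b.2 - a.2) * (c.1 - a.1)| := by
  classical
  obtain ⟨e, S, hS, hn, hp, ht⟩ := τ.exists_set n hn h2 h3
  have hq0 : (0 : ℝ) < π.q := by exact_mod_cast π.hq0
  have hP0 : (0 : ℝ) < π.P := by exact_mod_cast π.hP0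
  have hLx : (0 : ℝ) < π.Lx := by exact_mod_cast π.Lx1
  have hLy : (0 : ℝ) < π.Ly := by exact_mod_cast π.Ly1
  have hLz : (0 : ℝ) < π.Lz := by exact_mod_cast π.Lz1
  have hK : (0 : ℝ) < τ.K := by have := τ.K2; exact_mod_cast (by omega : 0 < τ.K)
  have by1 : ∀ a ∈ S, (π.q : ℝ) * π.Ly ≤ τ.py a := fun a ha => by
    exact_mod_cast (τ.py_bd (hS ha)).1
  have by2 : ∀ a ∈ S, (τ.py a : ℝ) ≤ 2 * π.q * π.Ly := fun a ha => by
    exact_mod_cast (τ.py_bd (hS ha)).2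
  have by0 : ∀ a ∈ S, (0 : ℝ) < τ.py a := fun a ha => lt_of_lt_of_le (by positivity) (by1 a ha)
  have hpair : ∀ a ∈ S, ∀ b ∈ S, a ≠ b → τ.px a * τ.py b ≠ τ.px b * τ.py a := by
    intro a ha b hb hab
    exact hp ![a, b] (inj2 hab) (Fin.forall_fin_two.mpr ⟨ha, hb⟩)
  have hinj : Set.InjOn (τ.pt e) S := by
    intro a ha b hb hab
    by_contra hne
    apply hpair a ha b hb hne
    have h1 := congrArg Prod.fst hab
    simp only [pt] at h1
    have h4 := mul_right_cancel₀ (by positivity) h1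
    rw [div_eq_div_iff (by0 a ha).ne' (by0 b hb).ne'] at h4
    exact_mod_cast h4
  refine ⟨S.image (τ.pt e), by rwa [card_image_of_injOn hinj], ?_, ?_⟩
  · intro p hp
    obtain ⟨a, ha, rfl⟩ := mem_image.mp hp
    have x0 : (0 : ℝ) ≤ τ.px a := by exact_mod_cast (τ.px_bd (hS ha)).1
    have x1 : (τ.px a : ℝ) ≤ 2 * π.q * π.Lx := by exact_mod_cast (τ.px_bd (hS ha)).2
    have z0 : (0 : ℝ) ≤ τ.pz e a := by exact_mod_cast (τ.pz_bd e (hS ha)).1
    have z1 : (τ.pz e a : ℝ) ≤ π.q * π.P * π.Lz := by exact_mod_cast (τ.pz_bd e (hS ha)).2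
    have y0 := by0 a ha
    have y1 := by1 a ha
    simp only [pt]
    refine ⟨by positivity, ?_, by positivity, ?_⟩
    · calc (τ.px a : ℝ) / τ.py a * (π.Ly / (2 * π.Lx))
          ≤ (2 * π.q * π.Lx) / (π.q * π.Ly) * (π.Ly / (2 * π.Lx)) := by gcongr
        _ = 1 := by field_simp
    · calc (τ.pz e a : ℝ) / τ.py a * (π.Ly / (π.P * π.Lz))
          ≤ (π.q * π.P * π.Lz) / (π.q * π.Ly) * (π.Ly / (π.P * π.Lz)) := by gcongr
        _ = 1 := by field_simp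
  · intro a' ha' b' hb' c' hc' hab hac hbc
    obtain ⟨a, ha, rfl⟩ := mem_image.mp ha'
    obtain ⟨b, hb, rfl⟩ := mem_image.mp hb'
    obtain ⟨c, hc, rfl⟩ := mem_image.mp hc'
    have nab : a ≠ b := fun h => hab (by rw [h])
    have nac : a ≠ c := fun h => hac (by rw [h])
    have nbc : b ≠ c := fun h => hbc (by rw [h])
    have h4 := ht ![a, b, c] (inj3 nab nac nbc) (forall3 ha hb hc)
    unfold B3 at h4
    rw [not_and, not_lt] at h4
    have h5 := h4 (forall3 (sub_ne_zero.mpr (hpair b hb c hc nbc))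
      (sub_ne_zero.mpr (hpair c hc a ha nac.symm)) (sub_ne_zero.mpr (hpair a ha b hb nab)))
    have h6 : π.q ≤ τ.K * |(τ.px b * τ.py c - τ.px c * τ.py b) * τ.pz e a
      + (τ.px c * τ.py a - τ.px a * τ.py c) * τ.pz e b
      + (τ.px a * τ.py b - τ.px b * τ.py a) * τ.pz e c| := h5
    exact area_lb _ _ _ _ _ _ _ _ _ _ _ _ _ _ _ hq0 hP0 hK hLx hLy hLz (by0 a ha) (by0 b hb)
      (by0 c hc) (by2 a ha) (by2 b hb) (by2 c hc) (by exact_mod_cast h6)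

end Types

end Vale.Agent.P036
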