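import Vale.Agent.P036.SBound

open Finset

namespace Vale.Agent.P036

/-- numerical parameters of the construction -/
structure Par where
  q : ℤ
  P : ℤ
  υ : ℤ
  Lx : ℤ
  Ly : ℤ
  Lz : ℤ
  R1 : ℤ
  W : ℤ
  ε : ℤ
  J : ℕ
  hq : Prime q
  hq0 : 0 < q
  hP : Prime P
  hP0 : 0 < P
  hqP : IsCoprime P q
  hε : ∀ a b : ℤ, P ∣ a ^ 2 - ε * b ^ 2 → P ∣ a ∧ P ∣ b
  υ1 : 1 ≤ υ
  υq : υ ≤ q
  qυ : q ≤ υ ^ 2
  W1 : 1 ≤ W
  Wq : W ^ 2 < q
  qP : q ^ 2 ≤ P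
  cLx : 32 * q ^ 3 * P ^ 2 * Ly ≤ Lx
  cR1 : 2 * q ^ 2 * P * Ly ≤ R1 ^ 2
  R1y : R1 * P ≤ Ly
  R11 : 1 ≤ R1
  cLy : 4 * P * q ^ 2 ≤ Ly
  cLz : 2 * q * Lx ≤ Lz
  cJ : 8 * q ^ 2 * Lx * Ly < 2 ^ J

noncomputable def Box (L : ℤ) : Finset V := Fintype.piFinset (fun _ : Fin 3 => Ico (0 : ℤ) L)

lemma mem_Box {L : ℤ} {a : V} : a ∈ Box L ↔ ∀ k, 0 ≤ a k ∧ a k < L := by
  simp [Box]

lemma card_Box {L : ℤ} (hL : 0 ≤ L) : ((Box L).card : ℝ) = (L : ℝ) ^ 3 := by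
  simp only [Box, Fintype.card_piFinset, Int.card_Ico, prod_const, card_univ, Fintype.card_fin,
    sub_zero]
  have : ((L.toNat : ℤ) : ℝ) = L := by rw [Int.toNat_of_nonneg hL]
  push_cast
  rw [← this]; norm_cast

lemma Box_diam {L : ℤ} {a b : V} (ha : a ∈ Box L) (hb : b ∈ Box L) : (nrm (a - b) : ℝ) ≤ L := by
  have : nrm (a - b) ≤ L := by
    apply nrm_le
    intro k
    have h1 := mem_Box.mp ha k
    have h2 := mem_Box.mp hb k
    simp only [Pi.sub_apply]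
    rw [abs_le]; constructor <;> omega
  exact_mod_cast this

lemma Box_diam' {L : ℤ} {a b : V} (ha : a ∈ Box L) (hb : b ∈ Box L) (k : Fin 3) :
    ((a k - b k : ℤ) : ℝ) ≤ L := by
  have h1 := mem_Box.mp ha k
  have h2 := mem_Box.mp hb k
  have : a k - b k ≤ L := by omega
  exact_mod_cast this

lemma card_filter_prod {α β : Type*} (s : Finset α) (t : Finset β) (p : α × β → Prop)
    [DecidablePred p] :
    (((s ×ˢ t).filter p).card : ℝ) = ∑ a ∈ s, ((t.filter (fun b => p (a, b))).card : ℝ) := by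
  simp only [card_filter, sum_product]
  push_cast; rfl

lemma harm_le (J : ℕ) : ∑ G ∈ Ico (1 : ℤ) (2 ^ J), 1 / (G : ℝ) ≤ J := by
  induction J with
  | zero => simp
  | succ J ih =>
    have h1 : (1 : ℤ) ≤ 2 ^ J := one_le_pow₀ one_le_two
    have h2 : (2 : ℤ) ^ J ≤ 2 ^ (J + 1) := by rw [pow_succ]; linarith
    rw [← Ico_union_Ico_eq_Ico h1 h2, sum_union (Ico_disjoint_Ico_consecutive _ _ _)]
    have h3 : ∑ G ∈ Ico ((2 : ℤ) ^ J) (2 ^ (J + 1)), 1 / (G : ℝ) ≤ 1 := by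
      calc ∑ G ∈ Ico ((2 : ℤ) ^ J) (2 ^ (J + 1)), 1 / (G : ℝ)
          ≤ ∑ _G ∈ Ico ((2 : ℤ) ^ J) (2 ^ (J + 1)), 1 / ((2 : ℝ) ^ J) := by
            apply sum_le_sum
            intro G hG
            have : ((2 : ℤ) ^ J : ℤ) ≤ G := (mem_Ico.mp hG).1
            have h4 : ((2 : ℝ) ^ J) ≤ G := by exact_mod_cast this
            exact one_div_le_one_div_of_le (by positivity) h4
        _ = 1 := by
            rw [sum_const, Int.card_Ico, nsmul_eq_mul]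
            have : (2 : ℤ) ^ (J + 1) - 2 ^ J = ((2 ^ J : ℕ) : ℤ) := by push_cast; ring
            rw [this, Int.toNat_natCast]
            push_cast; field_simp
    push_cast; linarith

lemma harm_le' (J : ℕ) (n : ℤ) (hn : n ≤ 2 ^ J) : ∑ G ∈ Ico (1 : ℤ) n, 1 / (G : ℝ) ≤ J := by
  refine le_trans ?_ (harm_le J)
  apply sum_le_sum_of_subset_of_nonneg (Ico_subset_Ico_right hn)
  intro G hG _
  have : (0 : ℝ) < G := by exact_mod_cast (mem_Ico.mp hG).1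
  positivity

namespace Par

variable (π : Par)

lemma q2 : 2 ≤ π.q := by
  have := π.hq.ne_one
  have := π.hq0
  omega

lemma P1 : 1 ≤ π.P := π.hP0

lemma Ly1 : 1 ≤ π.Ly := by
  have := π.R1y
  nlinarith [π.R11, π.P1]

lemma Wq' : π.W < π.q := by nlinarith [π.W1, π.Wq]

lemma NLx : 2 * π.q * π.Ly ≤ π.Lx := by
  have h1 := π.cLx
  have h2 := π.q2
  have h3 := π.P1
  have h4 := π.Ly1
  have : 2 * π.q * π.Ly * 1 ≤ 2 * π.q * π.Ly * (16 * π.q ^ 2 * π.P ^ 2) := by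
    apply mul_le_mul_of_nonneg_left _ (by positivity)
    have : 1 ≤ π.q ^ 2 * π.P ^ 2 := by
      apply one_le_mul_of_one_le_of_one_le <;> apply one_le_pow₀ <;> omega
    linarith
  linarith

lemma LyLx : π.Ly ≤ π.Lx := by nlinarith [π.NLx, π.q2, π.Ly1]

lemma Lx1 : 1 ≤ π.Lx := π.Ly1.trans π.LyLx

lemma LxLz : π.Lx ≤ π.Lz := by nlinarith [π.cLz, π.q2, π.Lx1]

lemma Lz1 : 1 ≤ π.Lz := π.Lx1.trans π.LxLz

lemma J1 : 1 ≤ π.J := by
  by_contra h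
  have h0 : π.J = 0 := by omega
  have := π.cJ
  rw [h0] at this
  have h2 := π.q2
  have h3 := π.Lx1
  have h4 := π.Ly1
  have : 0 < 8 * π.q ^ 2 * π.Lx * π.Ly := by positivity
  omega

lemma NJ : 2 * π.q * π.Ly < 2 ^ π.J := by
  refine lt_of_le_of_lt ?_ π.cJ
  have h2 := π.q2
  have h3 := π.Lx1
  have h4 := π.Ly1
  have : 2 * π.q * π.Ly * 1 ≤ 2 * π.q * π.Ly * (4 * π.q * π.Lx) := by
    apply mul_le_mul_of_nonneg_left _ (by positivity)
    nlinarith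
  linarith

lemma qJ : π.q ≤ 2 ^ π.J := by
  have := π.NJ
  nlinarith [π.q2, π.Ly1]

lemma R1J : π.R1 < 2 ^ π.J := by
  have := π.NJ
  have := π.R1y
  nlinarith [π.q2, π.Ly1, π.P1, π.R11]

def xrow (xh v i : V) : V := fun k => xh k + v k + π.q * i k

def yrow (yb j : V) : V := fun k => yb k + π.q * (π.Ly + j k)

def zrow (z0 l : V) : V := fun k => z0 k + π.q * π.P * l k

lemma xrow_bd {xh v i : V} (hx : ∀ k, 0 ≤ xh k ∧ xh k < π.q) (hv : v ∈ Box π.υ)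
    (hi : i ∈ Box π.Lx) (k : Fin 3) : 0 ≤ π.xrow xh v i k ∧ π.xrow xh v i k ≤ 2 * π.q * π.Lx := by
  have h1 := hx k
  have h2 := mem_Box.mp hv k
  have h3 := mem_Box.mp hi k
  have h4 := π.υq
  have h5 := π.q2
  have h6 := π.Lx1
  unfold xrow
  constructor
  · have : 0 ≤ π.q * i k := mul_nonneg (by omega) h3.1
    linarith
  · have : π.q * i k ≤ π.q * (π.Lx - 1) := mul_le_mul_of_nonneg_left (by omega) (by omega)
    nlinarith

lemma yrow_bd {yb j : V} (hy : ∀ k, 1 ≤ yb k ∧ yb k ≤ π.W) (hj : j ∈ Box π.Ly) (k : Fin 3) :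
    π.q * π.Ly ≤ π.yrow yb j k ∧ π.yrow yb j k ≤ 2 * π.q * π.Ly := by
  have h1 := hy k
  have h3 := mem_Box.mp hj k
  have h4 := π.Wq'
  have h5 := π.q2
  unfold yrow
  constructor
  · have : 0 ≤ π.q * j k := mul_nonneg (by omega) h3.1
    linarith
  · have : π.q * j k ≤ π.q * (π.Ly - 1) := mul_le_mul_of_nonneg_left (by omega) (by omega)
    nlinarith

lemma yrow_ndvd {yb : V} (hy : ∀ k, 1 ≤ yb k ∧ yb k ≤ π.W) (j : V) (k : Fin 3) :
    ¬ π.q ∣ π.yrow yb j k := by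
  intro h
  unfold yrow at h
  have h2 : π.q ∣ yb k := (dvd_add_left (dvd_mul_right _ _)).mp h
  have := Int.le_of_dvd (by linarith [hy k]) h2
  have := π.Wq'
  linarith [hy k]

end Par

end Vale.Agent.P036
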