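import Vale.Agent.P036.Count

open Finset

namespace Vale.Agent.P036

def one3 : V := fun _ => 1

lemma cross_sm_dvd {m κ : ℤ} {a b y0 : V} (ha : m ∣ sm a) (hb : m ∣ sm b)
    (h : cross a b = κ • y0) : ∀ k, m ∣ κ * cross y0 one3 k := by
  have h0 : a 1 * b 2 - a 2 * b 1 = κ * y0 0 := congrFun h 0
  have h1 : a 2 * b 0 - a 0 * b 2 = κ * y0 1 := congrFun h 1
  have h2 : a 0 * b 1 - a 1 * b 0 = κ * y0 2 := congrFun h 2
  have key : ∀ k, κ * cross y0 one3 k = b k * sm a - a k * sm b := by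
    apply forall3 <;> simp only [cross_0, cross_1, cross_2, one3, sm]
    · linear_combination h2 - h1
    · linear_combination h0 - h2
    · linear_combination h1 - h0
  intro k
  rw [key]
  exact dvd_sub (ha.mul_left _) (hb.mul_left _)

lemma nrm_neg (a : V) : nrm (-a) = nrm a := by simp [nrm]

lemma prim_parallel {c w : V} (hc : Prim c) (hw : Prim w) (h : cross c w = 0) :
    c = w ∨ c = -w := by
  obtain ⟨κ, hκ⟩ := hw.eq_smul_of_cross h
  obtain ⟨t, ht⟩ := hc
  rw [hκ, dot_smul] at ht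
  rcases Int.eq_one_or_neg_one_of_mul_eq_one ht with h1 | h1
  · left; rw [hκ, h1, one_smul]
  · right; rw [hκ, h1, neg_one_smul]

/-- count of primitive vectors whose cross products are multiples of `n` -/
lemma card_prim_le (F : Finset V) (n : V) (hn : n ≠ 0) (R : ℝ) (hP : ∀ a ∈ F, Prim a)
    (hR : ∀ a ∈ F, (nrm a : ℝ) ≤ R) (hc : ∀ a ∈ F, ∀ b ∈ F, ∃ κ : ℤ, cross a b = κ • n) :
    (F.card : ℝ) ≤ 2 + 32 / nrm n * R ^ 2 := by
  have hn0 : (0 : ℝ) < nrm n := by exact_mod_cast nrm_pos hn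
  rcases F.eq_empty_or_nonempty with rfl | ⟨w, hw⟩
  · simp; positivity
  by_cases h : ∀ c ∈ F, cross c w = 0
  · have : F ⊆ {w, -w} := by
      intro c hc'
      rcases prim_parallel (hP c hc') (hP w hw) (h c hc') with h1 | h1 <;> simp [h1]
    have h2 : F.card ≤ 2 := (card_le_card this).trans card_le_two
    have h3 : (F.card : ℝ) ≤ 2 := by exact_mod_cast h2
    have : 0 ≤ 32 / (nrm n : ℝ) * R ^ 2 := by positivity
    linarith
  · push Not at h
    obtain ⟨c, hc1, hc2⟩ := h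
    obtain ⟨κ, hκ⟩ := hc c hc1 w hw
    have hκ0 : κ ≠ 0 := by rintro rfl; simp [hκ] at hc2
    have h1 := nrm_cross_le c w
    rw [hκ, nrm_smul] at h1
    have h2 : 1 ≤ |κ| := Int.one_le_abs hκ0
    have h3 : nrm n ≤ 2 * nrm c * nrm w := by nlinarith [nrm_pos hn]
    have h4 : (nrm n : ℝ) ≤ 2 * nrm c * nrm w := by exact_mod_cast h3
    have hw0 : (0 : ℝ) < nrm w := by exact_mod_cast (hP w hw).nrm_pos
    have hwR := hR w hw
    have hcR := hR c hc1
    have := card_lat F w n (hP w hw) hn (2 * R)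
      (fun a ha b hb => by
        have : (nrm (a - b) : ℝ) ≤ nrm a + nrm b := by exact_mod_cast nrm_sub_le a b
        linarith [hR a ha, hR b hb])
      (fun a ha b hb => by
        obtain ⟨κ1, e1⟩ := hc a ha w hw
        obtain ⟨κ2, e2⟩ := hc b hb w hw
        exact ⟨κ1 - κ2, by rw [cross_sub, e1, e2, sub_smul]⟩)
      (by linarith) (by nlinarith)
    have e : 8 * (2 * R) ^ 2 / (nrm n : ℝ) = 32 / nrm n * R ^ 2 := by ring
    linarith

section SB

variable {y0 Cb : V} {q m : ℤ}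

lemma S_part2 (hy : Prim y0) (hq : Prime q) (hq0 : 0 < q) (hm : 0 < m) (hqm : IsCoprime m q)
    (Hm : ∀ κ, (∀ k, m ∣ κ * cross y0 one3 k) → m ∣ κ) (Δ : ℤ)
    (hΔ : Δ = 1 ∨ (Δ = q ∧ ¬ ∀ k, q ∣ Cb k)) (𝒞 : Finset V) (Y R1 : ℝ) (J : ℕ) (hR1 : 1 ≤ R1)
    (hJ : Y < 2 ^ J)
    (hC : ∀ C ∈ 𝒞, C ≠ 0 ∧ dot y0 C = 0 ∧ (∀ k, q ∣ C k - Cb k) ∧ (nrm C : ℝ) ≤ Y ∧
      m ∣ sm (pp C) ∧ q ≤ cont C ∧ R1 ≤ nrm (pp C)) (hY : 0 ≤ Y) :
    ∑ C ∈ 𝒞, 1 / (nrm (pp C) : ℝ) ≤ Y / q * (J * (2 / R1 ^ 2 + 128 / (Δ * m * nrm y0))) := by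
  have hq' : (0 : ℝ) < q := by exact_mod_cast hq0
  have hΔ0 : 0 < Δ := by rcases hΔ with h | h; omega; omega
  have h1 := sum_le_fiber 𝒞 pp (fun c => 1 / (nrm c : ℝ)) (fun c => Y / q * (1 / nrm c))
    (fun c _ => by have := nrm_nonneg c; positivity) (by
      intro c hc
      obtain ⟨C0, hC0, rfl⟩ := mem_image.mp hc
      have hp := prim_pp (hC C0 hC0).1
      have hp0 : (0 : ℝ) < nrm (pp C0) := by exact_mod_cast hp.nrm_pos
      have hG : ∀ C ∈ 𝒞, pp C = pp C0 → (cont C : ℝ) ≤ Y / nrm (pp C0) := by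
        intro C hC' e
        rw [le_div_iff₀ hp0, ← e]
        have := (hC C hC').2.2.2.1
        rw [nrm_eq_cont_mul] at this
        exact_mod_cast this
      have hG0 : (q : ℝ) ≤ cont C0 := by exact_mod_cast (hC C0 hC0).2.2.2.2.2.1
      have := card_le_ap (𝒞.filter (fun C => pp C = pp C0)) cont (by
          intro a ha b hb hab
          simp only [coe_filter, Set.mem_ofPred_eq] at ha hb
          rw [← cont_smul_pp a, ← cont_smul_pp b, hab, ha.2, hb.2]) q hq0
        (Y / nrm (pp C0) - q) (by linarith [hG C0 hC0 rfl]) (by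
          intro a ha b hb
          simp only [mem_filter] at ha hb
          apply hp.dvd_of_dvd_smul
          intro k
          have e1 := cont_mul_pp a k
          have e2 := cont_mul_pp b k
          rw [ha.2] at e1; rw [hb.2] at e2
          have : (cont a - cont b) * pp C0 k = (a k - Cb k) - (b k - Cb k) := by
            linear_combination e1 - e2
          rw [this]
          exact dvd_sub ((hC a ha.1).2.2.1 k) ((hC b hb.1).2.2.1 k)) (by
          intro a ha b hb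
          simp only [mem_filter] at ha hb
          have h2 := hG a ha.1 ha.2
          have h3 : (q : ℝ) ≤ cont b := by exact_mod_cast (hC b hb.1).2.2.2.2.2.1
          push_cast; linarith)
      refine this.trans (le_of_eq ?_)
      field_simp; ring)
  refine h1.trans ?_
  have e : ∑ c ∈ 𝒞.image pp, Y / q * (1 / (nrm c : ℝ)) * (1 / nrm c)
      = Y / q * ∑ c ∈ 𝒞.image pp, 1 / (nrm c : ℝ) ^ 2 := by
    rw [mul_sum]; apply sum_congr rfl; intro c _; ring
  rw [e]
  apply mul_le_mul_of_nonneg_left _ (by positivity)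
  have hn : (Δ * m) • y0 ≠ 0 := smul_ne_zero (mul_pos hΔ0 hm).ne' hy.ne_zero
  have hnn : (nrm ((Δ * m) • y0) : ℝ) = Δ * m * nrm y0 := by
    rw [nrm_smul, abs_of_pos (mul_pos hΔ0 hm)]; push_cast; ring
  have := dyadic_sum (𝒞.image pp) (fun c => (nrm c : ℝ)) R1 (by linarith) J 2 2
    (32 / (Δ * m * nrm y0)) (by norm_num) (by
      intro c hc
      obtain ⟨C, hC', rfl⟩ := mem_image.mp hc
      exact (hC C hC').2.2.2.2.2.2) (by
      intro c hc
      obtain ⟨C, hC', rfl⟩ := mem_image.mp hc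
      have h2 : (nrm (pp C) : ℝ) ≤ nrm C := by exact_mod_cast nrm_pp_le (hC C hC').1
      have h3 := (hC C hC').2.2.2.1
      have : (0 : ℝ) < 2 ^ J := by positivity
      nlinarith) (by
      intro R _
      rw [← hnn]
      apply card_prim_le _ _ hn
      · intro c hc
        obtain ⟨C, hC', rfl⟩ := mem_image.mp (mem_filter.mp hc).1
        exact prim_pp (hC C hC').1
      · intro c hc
        exact (mem_filter.mp hc).2
      · intro a ha b hb
        obtain ⟨A, hA, rfl⟩ := mem_image.mp (mem_filter.mp ha).1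
        obtain ⟨B, hB, rfl⟩ := mem_image.mp (mem_filter.mp hb).1
        obtain ⟨κ, hκ⟩ := hy.cross_eq_smul (dot_pp_eq_zero (hC A hA).1 (hC A hA).2.1)
          (dot_pp_eq_zero (hC B hB).1 (hC B hB).2.1)
        have hmκ : m ∣ κ := Hm κ (cross_sm_dvd (hC A hA).2.2.2.2.1 (hC B hB).2.2.2.2.1 hκ)
        have hΔκ : Δ * m ∣ κ := by
          rcases hΔ with h | ⟨h, hnd⟩
          · rw [h, one_mul]; exact hmκ
          · rw [h]
            apply IsCoprime.mul_dvd hqm.symm _ hmκ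
            have nd : ∀ C ∈ 𝒞, ¬ q ∣ cont C := by
              intro C hC' hd
              apply hnd
              intro k
              have h3 : q ∣ C k := hd.trans (cont_dvd C k)
              have := dvd_sub h3 ((hC C hC').2.2.1 k)
              simpa using this
            have h4 : q ∣ cont A * cont B * κ := by
              apply hy.dvd_of_dvd_smul
              obtain ⟨a0, ha0⟩ := (hC A hA).2.2.1 0
              obtain ⟨a1, ha1⟩ := (hC A hA).2.2.1 1
              obtain ⟨a2, ha2⟩ := (hC A hA).2.2.1 2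
              obtain ⟨b0, hb0⟩ := (hC B hB).2.2.1 0
              obtain ⟨b1, hb1⟩ := (hC B hB).2.2.1 1
              obtain ⟨b2, hb2⟩ := (hC B hB).2.2.1 2
              have hcr : ∀ k, cont A * cont B * κ * y0 k = cross A B k := by
                have g0 : pp A 1 * pp B 2 - pp A 2 * pp B 1 = κ * y0 0 := congrFun hκ 0
                have g1 : pp A 2 * pp B 0 - pp A 0 * pp B 2 = κ * y0 1 := congrFun hκ 1
                have g2 : pp A 0 * pp B 1 - pp A 1 * pp B 0 = κ * y0 2 := congrFun hκ 2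
                have A0 := cont_mul_pp A 0
                have A1 := cont_mul_pp A 1
                have A2 := cont_mul_pp A 2
                have B0 := cont_mul_pp B 0
                have B1 := cont_mul_pp B 1
                have B2 := cont_mul_pp B 2
                apply forall3 <;> simp only [cross_0, cross_1, cross_2]
                · rw [← A1, ← A2, ← B1, ← B2]; linear_combination (-(cont A * cont B)) * g0
                · rw [← A0, ← A2, ← B0, ← B2]; linear_combination (-(cont A * cont B)) * g1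
                · rw [← A0, ← A1, ← B0, ← B1]; linear_combination (-(cont A * cont B)) * g2
              apply forall3 <;> rw [hcr] <;> simp only [cross_0, cross_1, cross_2]
              · exact ⟨a1 * Cb 2 + b2 * A 1 - a2 * Cb 1 - b1 * A 2, by
                  linear_combination A 1 * hb2 + Cb 2 * ha1 - A 2 * hb1 - Cb 1 * ha2⟩
              · exact ⟨a2 * Cb 0 + b0 * A 2 - a0 * Cb 2 - b2 * A 0, by
                  linear_combination A 2 * hb0 + Cb 0 * ha2 - A 0 * hb2 - Cb 2 * ha0⟩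
              · exact ⟨a0 * Cb 1 + b1 * A 0 - a1 * Cb 0 - b0 * A 1, by
                  linear_combination A 0 * hb1 + Cb 1 * ha0 - A 1 * hb0 - Cb 0 * ha1⟩
            rcases hq.dvd_or_dvd h4 with h5 | h5
            · rcases hq.dvd_or_dvd h5 with h6 | h6
              · exact absurd h6 (nd A hA)
              · exact absurd h6 (nd B hB)
            · exact h5
        obtain ⟨κ', rfl⟩ := hΔκ
        exact ⟨κ', by rw [hκ, smul_smul, mul_comm]⟩)
  refine this.trans (le_of_eq ?_)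
  ring

lemma S_part1_G (hy : Prim y0) (hq : Prime q) (hq0 : 0 < q) (hm : 0 < m) (hqm : IsCoprime m q)
    (Hm : ∀ κ, (∀ k, m ∣ κ * cross y0 one3 k) → m ∣ κ) (G : ℤ) (hG0 : 0 < G) (hGq : G < q)
    (F : Finset V) (Y : ℝ) (J : ℕ) (hJ : Y < 2 ^ J) (hY : 0 ≤ Y)
    (hF : ∀ c ∈ F, c ≠ 0 ∧ dot y0 c = 0 ∧ (∀ k, q ∣ G * c k - Cb k) ∧ (G * nrm c : ℝ) ≤ Y ∧
      m ∣ sm c) :
    ∑ c ∈ F, 1 / (nrm c : ℝ) ≤ 32 * m * nrm y0 + Y / G * (J * (128 / (q ^ 2 * m * nrm y0))) := by
  have hq' : (1 : ℝ) ≤ q := by exact_mod_cast hq0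
  have hm' : (1 : ℝ) ≤ m := by exact_mod_cast hm
  have hG' : (1 : ℝ) ≤ G := by exact_mod_cast hG0
  have hy' : (1 : ℝ) ≤ nrm y0 := by exact_mod_cast hy.nrm_pos
  obtain ⟨w, hw, hyw, hsw, hnw⟩ := exists_prim_perp_sm hy.ne_zero
  have hnw' : (nrm w : ℝ) ≤ 2 * nrm y0 := by exact_mod_cast hnw
  have hw' : (1 : ℝ) ≤ nrm w := by exact_mod_cast hw.nrm_pos
  have hn : m • y0 ≠ 0 := smul_ne_zero hm.ne' hy.ne_zero
  have hnn : (nrm (m • y0) : ℝ) = m * nrm y0 := by
    rw [nrm_smul, abs_of_pos hm]; push_cast; ring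
  set R2 : ℝ := q * m * nrm y0 with hR2
  have hR20 : 1 ≤ R2 := by
    have : (1 : ℝ) ≤ q * m := by nlinarith
    rw [hR2]; nlinarith
  have hcount : ∀ F' ⊆ F, ∀ R, R2 ≤ R → ((F'.filter (fun a => (nrm a : ℝ) ≤ R)).card : ℝ)
      ≤ 0 + 32 / (q ^ 2 * m * nrm y0) * R ^ 2 := by
    intro F' hF' R hR
    have hL : m * nrm y0 ≤ R / q := by rw [le_div_iff₀ (by linarith)]; linarith
    have hL0 : (nrm y0 : ℝ) ≤ R / q := by nlinarith
    have := card_lat_scaled (F'.filter (fun a => (nrm a : ℝ) ≤ R)) q hq0 w (m • y0) hw hn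
      (2 * (R / q)) (by
        intro a ha b hb
        have : (nrm (a - b) : ℝ) ≤ nrm a + nrm b := by exact_mod_cast nrm_sub_le a b
        have e : q * (2 * (R / q)) = 2 * R := by field_simp
        linarith [(mem_filter.mp ha).2, (mem_filter.mp hb).2]) (by
        intro a ha b hb
        have ha' := hF a (hF' (mem_filter.mp ha).1)
        have hb' := hF b (hF' (mem_filter.mp hb).1)
        have hdv : ∀ k, q ∣ a k - b k := by
          intro k
          have h1 : q ∣ G * (a k - b k) := by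
            have := dvd_sub (ha'.2.2.1 k) (hb'.2.2.1 k)
            have e : G * (a k - b k) = G * a k - Cb k - (G * b k - Cb k) := by ring
            rw [e]; exact this
          rcases hq.dvd_or_dvd h1 with h2 | h2
          · exact absurd (Int.le_of_dvd hG0 h2) (by omega)
          · exact h2
        choose d hd using hdv
        have e : a - b = q • d := by ext k; simpa using hd k
        have hdd : dot y0 d = 0 := by
          have : q * dot y0 d = 0 := by rw [← dot_smul, ← e, dot_sub, ha'.2.1, hb'.2.1, sub_self]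
          exact (mul_eq_zero.mp this).resolve_left hq0.ne'
        have hsd : m ∣ sm d := by
          apply hqm.dvd_of_dvd_mul_left
          have := dvd_sub ha'.2.2.2.2 hb'.2.2.2.2
          convert this using 1
          simp only [sm]; linear_combination -(hd 0) - hd 1 - hd 2
        obtain ⟨κ, hκ⟩ := hy.cross_eq_smul hdd hyw
        obtain ⟨κ', rfl⟩ := Hm κ (cross_sm_dvd hsd (by rw [hsw]; exact dvd_zero _) hκ)
        exact ⟨d, e, κ', by rw [hκ, smul_smul, mul_comm]⟩) (by linarith) (by rw [hnn]; nlinarith)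
    rw [hnn] at this
    refine this.trans (le_of_eq ?_)
    field_simp; ring
  rw [← sum_filter_add_sum_filter_not F (fun a => (nrm a : ℝ) ≤ R2)]
  apply add_le_add
  · calc ∑ c ∈ F.filter (fun a => (nrm a : ℝ) ≤ R2), 1 / (nrm c : ℝ)
        ≤ ∑ _c ∈ F.filter (fun a => (nrm a : ℝ) ≤ R2), (1 : ℝ) := by
          apply sum_le_sum
          intro c hc
          have : (1 : ℝ) ≤ nrm c := by exact_mod_cast nrm_pos (hF c (mem_filter.mp hc).1).1
          rw [div_le_one (by linarith)]; exact this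
      _ = ((F.filter (fun a => (nrm a : ℝ) ≤ R2)).card : ℝ) := by simp
      _ ≤ 0 + 32 / (q ^ 2 * m * nrm y0) * R2 ^ 2 := hcount F (Subset.refl _) R2 le_rfl
      _ = 32 * m * nrm y0 := by rw [hR2]; field_simp; ring
  · have := dyadic_sum (F.filter (fun a => ¬ (nrm a : ℝ) ≤ R2)) (fun c => (nrm c : ℝ)) R2
      (by linarith) J 2 0 (32 / (q ^ 2 * m * nrm y0)) le_rfl
      (fun c hc => (not_le.mp (mem_filter.mp hc).2).le) (by
        intro c hc
        have h1 := (hF c (mem_filter.mp hc).1).2.2.2.1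
        have h2 : (0 : ℝ) ≤ nrm c := by exact_mod_cast nrm_nonneg c
        have : (0 : ℝ) < 2 ^ J := by positivity
        nlinarith) (hcount _ (filter_subset _ _))
    calc ∑ c ∈ F.filter (fun a => ¬ (nrm a : ℝ) ≤ R2), 1 / (nrm c : ℝ)
        ≤ ∑ c ∈ F.filter (fun a => ¬ (nrm a : ℝ) ≤ R2), Y / G * (1 / (nrm c : ℝ) ^ 2) := by
          apply sum_le_sum
          intro c hc
          have h1 := (hF c (mem_filter.mp hc).1).2.2.2.1
          have h2 : (0 : ℝ) < nrm c := by exact_mod_cast nrm_pos (hF c (mem_filter.mp hc).1).1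
          rw [div_mul_div_comm, div_le_div_iff₀ h2 (by positivity)]
          nlinarith
      _ = Y / G * ∑ c ∈ F.filter (fun a => ¬ (nrm a : ℝ) ≤ R2), (1 / (nrm c : ℝ) ^ 2) := by
          rw [mul_sum]
      _ ≤ Y / G * (J * (0 / R2 ^ 2 + 32 / (q ^ 2 * m * nrm y0) * 2 ^ 2)) := by gcongr
      _ = _ := by ring

lemma S_bound (hy : Prim y0) (hq : Prime q) (hq0 : 0 < q) (hm : 0 < m) (hqm : IsCoprime m q)
    (Hm : ∀ κ, (∀ k, m ∣ κ * cross y0 one3 k) → m ∣ κ) (Δ : ℤ)
    (hΔ : Δ = 1 ∨ (Δ = q ∧ ¬ ∀ k, q ∣ Cb k)) (𝒞 : Finset V) (Nx R1 : ℝ) (J : ℕ) (hR1 : 1 ≤ R1)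
    (hJ : 2 * Nx * nrm y0 < 2 ^ J) (hH : ∑ G ∈ Ico 1 q, 1 / (G : ℝ) ≤ J) (hJ1 : 1 ≤ J)
    (hN : 32 * q ^ 3 * m ^ 2 * nrm y0 ≤ Nx) (hR : q * m * nrm y0 ≤ R1 ^ 2)
    (hC : ∀ C ∈ 𝒞, C ≠ 0 ∧ dot y0 C = 0 ∧ (∀ k, q ∣ C k - Cb k) ∧
      (nrm C : ℝ) ≤ 2 * Nx * nrm y0 ∧ m ∣ sm (pp C) ∧ (cont C < q ∨ R1 ≤ nrm (pp C))) :
    ∑ C ∈ 𝒞, 1 / (nrm (pp C) : ℝ) ≤ 517 * J ^ 2 * Nx / (q * Δ * m) := by
  have hq' : (1 : ℝ) ≤ q := by exact_mod_cast hq0
  have hm' : (1 : ℝ) ≤ m := by exact_mod_cast hm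
  have hy' : (1 : ℝ) ≤ nrm y0 := by exact_mod_cast hy.nrm_pos
  have hJ' : (1 : ℝ) ≤ J := by exact_mod_cast hJ1
  have hΔ1 : (1 : ℝ) ≤ Δ := by
    rcases hΔ with h | h
    · rw [h]; simp
    · rw [h.1]; exact hq'
  have hΔq : (Δ : ℝ) ≤ q := by
    rcases hΔ with h | h
    · rw [h]; simpa using hq'
    · rw [h.1]
  have hNx : 0 < Nx := lt_of_lt_of_le (by positivity) hN
  set Y := 2 * Nx * nrm y0 with hY
  have hY0 : 0 ≤ Y := by positivity
  rw [← sum_filter_add_sum_filter_not 𝒞 (fun C => cont C < q)]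
  have h2 := S_part2 hy hq hq0 hm hqm Hm Δ hΔ (𝒞.filter (fun C => ¬ cont C < q)) Y R1 J hR1 hJ
    (by
      intro C hC'
      obtain ⟨h1, h2⟩ := mem_filter.mp hC'
      obtain ⟨a, b, c, d, e, f⟩ := hC C h1
      exact ⟨a, b, c, d, e, not_lt.mp h2, f.resolve_left h2⟩) hY0
  have h1 : ∑ C ∈ 𝒞.filter (fun C => cont C < q), 1 / (nrm (pp C) : ℝ)
      ≤ ∑ G ∈ Ico 1 q, (32 * m * nrm y0 + Y / G * (J * (128 / (q ^ 2 * m * nrm y0)))) := by
    rw [← sum_fiberwise_of_maps_to (t := Ico 1 q) (g := cont) (by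
      intro C hC'
      obtain ⟨h1, h2⟩ := mem_filter.mp hC'
      exact mem_Ico.mpr ⟨cont_pos (hC C h1).1, h2⟩)]
    apply sum_le_sum
    intro G hG
    obtain ⟨hG1, hG2⟩ := mem_Ico.mp hG
    rw [← sum_image (g := pp) (f := fun c => 1 / (nrm c : ℝ)) (by
      intro a ha b hb hab
      simp only [coe_filter, mem_filter, Set.mem_ofPred_eq] at ha hb
      rw [← cont_smul_pp a, ← cont_smul_pp b, hab, ha.2, hb.2])]
    apply S_part1_G (Cb := Cb) hy hq hq0 hm hqm Hm G hG1 hG2 _ Y J hJ hY0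
    intro c hc
    obtain ⟨C, hC', rfl⟩ := mem_image.mp hc
    simp only [mem_filter] at hC'
    obtain ⟨a, b, c, d, e, f⟩ := hC C hC'.1.1
    refine ⟨(prim_pp a).ne_zero, dot_pp_eq_zero a b, ?_, ?_, e⟩
    · intro k; rw [← hC'.2, cont_mul_pp]; exact c k
    · rw [nrm_eq_cont_mul, hC'.2] at d; exact_mod_cast d
  have e1 : ∑ G ∈ Ico 1 q, (32 * m * nrm y0 + Y / G * (J * (128 / (q ^ 2 * m * nrm y0))) : ℝ)
      = (Ico 1 q).card * (32 * m * nrm y0)
        + (∑ G ∈ Ico 1 q, 1 / (G : ℝ)) * (Y * (J * (128 / (q ^ 2 * m * nrm y0)))) := by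
    rw [sum_add_distrib, sum_const, nsmul_eq_mul, sum_mul]
    congr 1
    apply sum_congr rfl; intro G _; ring
  have e2 : ((Ico 1 q).card : ℝ) ≤ q := by
    rw [Int.card_Ico]
    have : (((q - 1).toNat : ℤ) : ℝ) ≤ q := by
      rw [Int.toNat_of_nonneg (by omega)]; push_cast; linarith
    exact_mod_cast this
  have t1 : (Ico 1 q).card * (32 * m * nrm y0 : ℝ) ≤ Nx / (q * Δ * m) := by
    rw [le_div_iff₀ (by positivity)]
    calc ((Ico 1 q).card * (32 * m * nrm y0) * (q * Δ * m) : ℝ)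
        ≤ q * (32 * m * nrm y0) * (q * q * m) := by gcongr
      _ = 32 * q ^ 3 * m ^ 2 * nrm y0 := by ring
      _ ≤ Nx := hN
  have t2 : (∑ G ∈ Ico 1 q, 1 / (G : ℝ)) * (Y * (J * (128 / (q ^ 2 * m * nrm y0))))
      ≤ 256 * J ^ 2 * (Nx / (q * Δ * m)) := by
    calc (∑ G ∈ Ico 1 q, 1 / (G : ℝ)) * (Y * (J * (128 / (q ^ 2 * m * nrm y0))))
        ≤ J * (Y * (J * (128 / (q ^ 2 * m * nrm y0)))) := by gcongr
      _ = 256 * J ^ 2 * (Nx / (q * q * m)) := by rw [hY]; field_simp; ring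
      _ ≤ 256 * J ^ 2 * (Nx / (q * Δ * m)) := by gcongr
  have t3 : Y / q * (J * (2 / R1 ^ 2 + 128 / (Δ * m * nrm y0)))
      ≤ 260 * J * (Nx / (q * Δ * m)) := by
    calc Y / q * (J * (2 / R1 ^ 2 + 128 / (Δ * m * nrm y0)))
        ≤ Y / q * (J * (2 / (Δ * m * nrm y0) + 128 / (Δ * m * nrm y0))) := by
          gcongr
          refine le_trans ?_ hR
          gcongr
      _ = 260 * J * (Nx / (q * Δ * m)) := by rw [hY]; field_simp; ring
  have hZ : 0 ≤ Nx / (q * Δ * m) := by positivity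
  have e3 : 517 * J ^ 2 * Nx / (q * Δ * m) = 517 * J ^ 2 * (Nx / (q * Δ * m)) := by ring
  rw [e3]
  have t4 : (J : ℝ) ≤ J ^ 2 := by nlinarith
  have t5 : (1 : ℝ) ≤ J ^ 2 := by nlinarith
  nlinarith [mul_le_mul_of_nonneg_right t4 hZ, mul_le_mul_of_nonneg_right t5 hZ]

end SB

end Vale.Agent.P036
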