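import Vale.Agent.P036.B12

open Finset

namespace Vale.Agent.P036

lemma sum_inv_sq_le (H N : ℤ) (hH : 1 ≤ H) :
    ∑ d ∈ Ioc H N, 1 / (d : ℝ) ^ 2 ≤ 1 / (H : ℝ) := by
  have hH' : (0 : ℝ) < H := by exact_mod_cast hH
  by_cases h : N < H
  · rw [Ioc_eq_empty (by omega)]; simp; positivity
  push Not at h
  have key : ∀ n : ℕ, ∑ d ∈ Ioc H (H + n), 1 / (d : ℝ) ^ 2 ≤ 1 / (H : ℝ) - 1 / ((H : ℝ) + n) := by
    intro n
    induction n with
    | zero => simp
    | succ n ih =>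
      have e : Ioc H (H + ((n + 1 : ℕ) : ℤ)) = insert (H + n + 1) (Ioc H (H + n)) := by
        ext d; simp only [mem_Ioc, mem_insert]; push_cast; omega
      rw [e, sum_insert (by simp)]
      have h1 : (0 : ℝ) < H + n := by positivity
      have : 1 / ((H + n + 1 : ℤ) : ℝ) ^ 2 ≤ 1 / ((H : ℝ) + n) - 1 / ((H : ℝ) + ((n + 1 : ℕ) : ℝ)) := by
        push_cast
        rw [div_sub_div _ _ h1.ne' (by positivity), div_le_div_iff₀ (by positivity) (by positivity)]
        nlinarith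
      linarith
  obtain ⟨n, rfl⟩ : ∃ n : ℕ, N = H + n := ⟨(N - H).toNat, by omega⟩
  have := key n
  have h2 : 0 ≤ 1 / ((H : ℝ) + n) := by positivity
  linarith

namespace Par

variable (π : Par)

lemma Dl_pos (xb y0 : V) : 0 < π.Dl xb y0 := by
  unfold Dl; split_ifs
  · exact one_pos
  · exact π.hq0

lemma v_sum (xh y0 : V) (hy : ¬ π.q ∣ y0 0) :
    ∑ v ∈ Box π.υ, 1 / (π.Dl (xh + v) y0 : ℝ) ≤ 9 * π.υ ^ 3 / π.q := by
  classical
  have hq0 : (0 : ℝ) < π.q := by exact_mod_cast π.hq0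
  have hυ : (1 : ℝ) ≤ π.υ := by exact_mod_cast π.υ1
  have hυq : (π.υ : ℝ) ≤ π.q := by exact_mod_cast π.υq
  have hqυ : (π.q : ℝ) ≤ π.υ ^ 2 := by exact_mod_cast π.qυ
  set F := (Box π.υ).filter (fun v => ∀ k, π.q ∣ cross (xh + v) y0 k) with hF
  have h1 : (F.card : ℝ) ≤ (π.υ / (1 : ℤ) + 1) * (π.υ / π.q + 1) * (π.υ / π.q + 1) := by
    apply card_le_tower F 0 1 2 (fun a b => V.ext3) 1 π.q π.q one_pos π.hq0 π.hq0 _ (by linarith)
    · intro a ha b hb k
      exact Box_diam' (mem_filter.mp ha).1 (mem_filter.mp hb).1 k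
    · intro a _ b _; exact one_dvd _
    · intro a ha b hb h0
      have d := dvd_sub ((mem_filter.mp hb).2 2) ((mem_filter.mp ha).2 2)
      have e : cross (xh + b) y0 2 - cross (xh + a) y0 2 = (a 1 - b 1) * y0 0 := by
        simp only [cross_2, Pi.add_apply, h0]; ring
      rw [e] at d
      exact (π.hq.dvd_or_dvd d).resolve_right hy
    · intro a ha b hb h0 _
      have d := dvd_sub ((mem_filter.mp ha).2 1) ((mem_filter.mp hb).2 1)
      have e : cross (xh + a) y0 1 - cross (xh + b) y0 1 = (a 2 - b 2) * y0 0 := by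
        simp only [cross_1, Pi.add_apply, h0]; ring
      rw [e] at d
      exact (π.hq.dvd_or_dvd d).resolve_right hy
  have h2 : (F.card : ℝ) ≤ 8 * π.υ ^ 3 / π.q := by
    refine h1.trans ?_
    have h3 : (π.υ : ℝ) / π.q ≤ 1 := (div_le_one hq0).mpr hυq
    have h4 : (0 : ℝ) ≤ π.υ / π.q := by positivity
    calc ((π.υ : ℝ) / (1 : ℤ) + 1) * (π.υ / π.q + 1) * (π.υ / π.q + 1)
        ≤ (2 * π.υ) * 2 * 2 := by
          push_cast
          gcongr <;> linarith
      _ ≤ 8 * π.υ ^ 3 / π.q := by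
          rw [le_div_iff₀ hq0]; nlinarith
  calc ∑ v ∈ Box π.υ, 1 / (π.Dl (xh + v) y0 : ℝ)
      ≤ ∑ v ∈ Box π.υ, (1 / (π.q : ℝ) + if (∀ k, π.q ∣ cross (xh + v) y0 k) then 1 else 0) := by
        apply sum_le_sum
        intro v _
        have : 0 < 1 / (π.q : ℝ) := by positivity
        unfold Dl; split_ifs <;> simp
        exact π.hq0.le
    _ = π.υ ^ 3 / π.q + F.card := by
        rw [sum_add_distrib, sum_const, nsmul_eq_mul, card_Box (by linarith [π.υ1]), hF, card_filter]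
        push_cast; ring
    _ ≤ π.υ ^ 3 / π.q + 8 * π.υ ^ 3 / π.q := by linarith
    _ = _ := by ring

lemma cop_of_dvd {d a : ℤ} (h : d ∣ a) (ha : ¬ π.q ∣ a) : IsCoprime d π.q :=
  ((π.hq.irreducible.coprime_iff_not_dvd).mpr (fun h2 => ha (h2.trans h))).symm

lemma yrow_ne {yb : V} (hy : ∀ k, 1 ≤ yb k ∧ yb k ≤ π.W) (j : V) : π.yrow yb j ≠ 0 := by
  intro h
  apply π.yrow_ndvd hy j 0
  rw [h]; simp

lemma yrow_nrm {yb j : V} (hy : ∀ k, 1 ≤ yb k ∧ yb k ≤ π.W) (hj : j ∈ Box π.Ly) :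
    π.q * π.Ly ≤ nrm (π.yrow yb j) ∧ nrm (π.yrow yb j) ≤ 2 * π.q * π.Ly := by
  have h0 : 0 < π.q * π.Ly := mul_pos π.hq0 π.Ly1
  constructor
  · exact (π.yrow_bd hy hj 0).1.trans ((le_abs_self _).trans (abs_le_nrm _ 0))
  · apply nrm_le
    intro k
    have := π.yrow_bd hy hj k
    rw [abs_of_nonneg (by linarith)]; exact this.2

lemma cont_tail {yb : V} (hy : ∀ k, 1 ≤ yb k ∧ yb k ≤ π.W) (H : ℤ) (hH : 1 ≤ H) :
    ∑ j ∈ (Box π.Ly).filter (fun j => H < cont (π.yrow yb j)), (cont (π.yrow yb j) : ℝ)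
      ≤ 4 * π.Ly ^ 3 / H + 4 * (2 * π.q * π.Ly) ^ 2 := by
  set F := (Box π.Ly).filter (fun j => H < cont (π.yrow yb j)) with hF
  set f : V → ℤ := fun j => cont (π.yrow yb j) with hf
  have hLy : (1 : ℝ) ≤ π.Ly := by exact_mod_cast π.Ly1
  have hq0 : (0 : ℝ) < π.q := by exact_mod_cast π.hq0
  have hH' : (0 : ℝ) < H := by exact_mod_cast hH
  have hsub : F.image f ⊆ Ioc H (2 * π.q * π.Ly) := by
    intro d hd
    obtain ⟨j, hj, rfl⟩ := mem_image.mp hd
    obtain ⟨h1, h2⟩ := mem_filter.mp hj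
    refine mem_Ioc.mpr ⟨h2, ?_⟩
    have h3 := π.yrow_bd hy h1 0
    have h0 : 0 < π.q * π.Ly := mul_pos π.hq0 π.Ly1
    exact (Int.le_of_dvd (by linarith) (cont_dvd _ 0)).trans h3.2
  have h1 := sum_le_fiber F f (fun d => (d : ℝ)) (fun d => (π.Ly / d + 1) ^ 3)
    (fun d hd => by
      have := (mem_Ioc.mp (hsub hd)).1
      have : (0 : ℤ) ≤ d := by omega
      exact_mod_cast this) (by
      intro d hd
      have hd0 : 0 < d := by have := (mem_Ioc.mp (hsub hd)).1; omega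
      have key : ∀ a ∈ F.filter (fun a => f a = d), ∀ b ∈ F.filter (fun a => f a = d), ∀ k,
          d ∣ a k - b k := by
        intro a ha b hb k
        have e1 := (mem_filter.mp ha).2
        have e2 := (mem_filter.mp hb).2
        have d1 : d ∣ π.yrow yb a k := e1 ▸ cont_dvd _ k
        have d2 : d ∣ π.yrow yb b k := e2 ▸ cont_dvd _ k
        have d3 := dvd_sub d1 d2
        have e : π.yrow yb a k - π.yrow yb b k = π.q * (a k - b k) := by simp only [yrow]; ring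
        rw [e] at d3
        exact (π.cop_of_dvd d1 (π.yrow_ndvd hy a k)).dvd_of_dvd_mul_left d3
      have := card_le_tower (F.filter (fun a => f a = d)) 0 1 2 (fun a b => V.ext3) d d d hd0 hd0
        hd0 π.Ly (by linarith)
        (fun a ha b hb k => Box_diam' (mem_filter.mp (mem_filter.mp ha).1).1
          (mem_filter.mp (mem_filter.mp hb).1).1 k)
        (fun a ha b hb => key a ha b hb 0) (fun a ha b hb _ => key a ha b hb 1)
        (fun a ha b hb _ _ => key a ha b hb 2)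
      refine this.trans (le_of_eq ?_)
      ring)
  refine h1.trans ?_
  set N := 2 * π.q * π.Ly with hN
  have hN0 : 0 < N := by have := π.hq0; have := π.Ly1; positivity
  calc ∑ d ∈ F.image f, ((π.Ly : ℝ) / d + 1) ^ 3 * d
      ≤ ∑ d ∈ Ioc H N, ((π.Ly : ℝ) / d + 1) ^ 3 * d := by
        apply sum_le_sum_of_subset_of_nonneg hsub
        intro d hd _
        have : (0 : ℝ) < d := by have := (mem_Ioc.mp hd).1; exact_mod_cast (by omega : (0 : ℤ) < d)
        positivity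
    _ ≤ ∑ d ∈ Ioc H N, (4 * (π.Ly : ℝ) ^ 3 * (1 / (d : ℝ) ^ 2) + 4 * N) := by
        apply sum_le_sum
        intro d hd
        have hd0 : (0 : ℝ) < d := by
          have := (mem_Ioc.mp hd).1; exact_mod_cast (by omega : (0 : ℤ) < d)
        have hdN : (d : ℝ) ≤ N := by exact_mod_cast (mem_Ioc.mp hd).2
        have hu : 0 ≤ (π.Ly : ℝ) / d := by positivity
        have h5 : ((π.Ly : ℝ) / d + 1) ^ 3 ≤ 4 * ((π.Ly / d) ^ 3 + 1) := by
          nlinarith [mul_nonneg (add_nonneg hu zero_le_one) (sq_nonneg ((π.Ly : ℝ) / d - 1))]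
        calc ((π.Ly : ℝ) / d + 1) ^ 3 * d ≤ 4 * ((π.Ly / d) ^ 3 + 1) * d := by gcongr
          _ = 4 * (π.Ly : ℝ) ^ 3 * (1 / (d : ℝ) ^ 2) + 4 * d := by field_simp
          _ ≤ _ := by linarith
    _ = 4 * (π.Ly : ℝ) ^ 3 * ∑ d ∈ Ioc H N, (1 / (d : ℝ) ^ 2) + (Ioc H N).card * (4 * N) := by
        rw [sum_add_distrib, ← mul_sum, sum_const, nsmul_eq_mul]
    _ ≤ 4 * (π.Ly : ℝ) ^ 3 * (1 / H) + N * (4 * N) := by
        have h6 := sum_inv_sq_le H N hH
        have h7 : ((Ioc H N).card : ℝ) ≤ N := by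
          rw [Int.card_Ioc]
          have : (((N - H).toNat : ℕ) : ℤ) ≤ N := by omega
          exact_mod_cast this
        have : (0 : ℝ) < N := by exact_mod_cast hN0
        gcongr
    _ = _ := by rw [hN]; push_cast; ring

lemma cont_sum {yb : V} (hy : ∀ k, 1 ≤ yb k ∧ yb k ≤ π.W) (H : ℤ) (hH : 1 ≤ H) (A : Finset V)
    (hA : A ⊆ Box π.Ly) :
    ∑ j ∈ A, (cont (π.yrow yb j) : ℝ)
      ≤ H * A.card + (4 * π.Ly ^ 3 / H + 4 * (2 * π.q * π.Ly) ^ 2) := by
  rw [← sum_filter_add_sum_filter_not A (fun j => H < cont (π.yrow yb j)), add_comm]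
  apply add_le_add
  · calc ∑ j ∈ A.filter (fun j => ¬ H < cont (π.yrow yb j)), (cont (π.yrow yb j) : ℝ)
        ≤ ∑ j ∈ A.filter (fun j => ¬ H < cont (π.yrow yb j)), (H : ℝ) := by
          apply sum_le_sum
          intro j hj
          exact_mod_cast not_lt.mp (mem_filter.mp hj).2
      _ ≤ ∑ j ∈ A, (H : ℝ) := by
          apply sum_le_sum_of_subset_of_nonneg (filter_subset _ _)
          intro _ _ _
          exact_mod_cast (by omega : (0 : ℤ) ≤ H)
      _ = _ := by rw [sum_const, nsmul_eq_mul, mul_comm]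
  · refine le_trans ?_ (π.cont_tail hy H hH)
    apply sum_le_sum_of_subset_of_nonneg (filter_subset_filter _ hA)
    intro j _ _
    exact_mod_cast cont_nonneg _

lemma j_sum {yb : V} (hy : ∀ k, 1 ≤ yb k ∧ yb k ≤ π.W) :
    ∑ j ∈ Box π.Ly, (cont (π.yrow yb j) : ℝ) * π.gam (pp (π.yrow yb j)) ≤ 50 * π.Ly ^ 3 := by
  classical
  have hLy : (1 : ℝ) ≤ π.Ly := by exact_mod_cast π.Ly1
  have hq0 : (1 : ℝ) ≤ π.q := by exact_mod_cast π.hq0
  have hP : (1 : ℝ) ≤ π.P := by exact_mod_cast π.P1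
  have hc : 4 * (π.P : ℝ) * π.q ^ 2 ≤ π.Ly := by exact_mod_cast π.cLy
  have hPL : (π.P : ℝ) ≤ π.Ly := by
    have : (1 : ℝ) ≤ π.q ^ 2 := one_le_pow₀ hq0
    nlinarith
  set A := (Box π.Ly).filter (fun j => ∀ k, π.P ∣ cross (pp (π.yrow yb j)) one3 k) with hA
  have h1 : (A.card : ℝ) ≤ (π.Ly / (1 : ℤ) + 1) * (π.Ly / π.P + 1) * (π.Ly / π.P + 1) := by
    have key : ∀ a ∈ A, ∀ k, π.P ∣ cross (π.yrow yb a) one3 k := by
      intro a ha k
      have d := ((mem_filter.mp ha).2 k).mul_left (cont (π.yrow yb a))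
      have e : ∀ k, cont (π.yrow yb a) * cross (pp (π.yrow yb a)) one3 k
          = cross (π.yrow yb a) one3 k := by
        have h0 := cont_mul_pp (π.yrow yb a) 0
        have h1 := cont_mul_pp (π.yrow yb a) 1
        have h2 := cont_mul_pp (π.yrow yb a) 2
        apply forall3 <;> simp only [cross_0, cross_1, cross_2, one3]
        · linear_combination h1 - h2
        · linear_combination h2 - h0
        · linear_combination h0 - h1
      rwa [e] at d
    apply card_le_tower A 0 1 2 (fun a b => V.ext3) 1 π.P π.P one_pos π.hP0 π.hP0 _ (by linarith)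
    · intro a ha b hb k
      exact Box_diam' (mem_filter.mp ha).1 (mem_filter.mp hb).1 k
    · intro a _ b _; exact one_dvd _
    · intro a ha b hb h0
      have d := dvd_sub (key b hb 2) (key a ha 2)
      have e : cross (π.yrow yb b) one3 2 - cross (π.yrow yb a) one3 2 = π.q * (a 1 - b 1) := by
        simp only [cross_2, yrow, one3, h0]; ring
      rw [e] at d
      exact π.hqP.dvd_of_dvd_mul_left d
    · intro a ha b hb h0 _
      have d := dvd_sub (key a ha 1) (key b hb 1)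
      have e : cross (π.yrow yb a) one3 1 - cross (π.yrow yb b) one3 1 = π.q * (a 2 - b 2) := by
        simp only [cross_1, yrow, one3, h0]; ring
      rw [e] at d
      exact π.hqP.dvd_of_dvd_mul_left d
  have h2 : (π.P : ℝ) ^ 2 * A.card ≤ 8 * π.Ly ^ 3 := by
    have h3 : (1 : ℝ) ≤ π.Ly / π.P := (one_le_div (by linarith)).mpr hPL
    calc (π.P : ℝ) ^ 2 * A.card
        ≤ π.P ^ 2 * ((2 * π.Ly) * (2 * (π.Ly / π.P)) * (2 * (π.Ly / π.P))) := by
          apply mul_le_mul_of_nonneg_left (h1.trans _) (by positivity)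
          push_cast
          gcongr <;> linarith
      _ = _ := by field_simp; ring
  have h3 := π.cont_sum hy 1 le_rfl _ (Subset.refl _)
  have h4 := π.cont_sum hy π.P π.P1 A (filter_subset _ _)
  rw [card_Box (by linarith [π.Ly1])] at h3
  have h5 : 4 * (π.P : ℝ) * (2 * π.q * π.Ly) ^ 2 ≤ 4 * π.Ly ^ 3 := by
    have := mul_le_mul_of_nonneg_right hc (by positivity : (0 : ℝ) ≤ 4 * π.Ly ^ 2)
    linarith
  have h6 : 4 * (2 * (π.q : ℝ) * π.Ly) ^ 2 ≤ 4 * π.P * (2 * π.q * π.Ly) ^ 2 := by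
    have : 0 ≤ (2 * (π.q : ℝ) * π.Ly) ^ 2 := by positivity
    nlinarith
  calc ∑ j ∈ Box π.Ly, (cont (π.yrow yb j) : ℝ) * π.gam (pp (π.yrow yb j))
      ≤ ∑ j ∈ Box π.Ly, (2 * (cont (π.yrow yb j) : ℝ) + 2 * π.P *
          if (∀ k, π.P ∣ cross (pp (π.yrow yb j)) one3 k) then (cont (π.yrow yb j) : ℝ) else 0) := by
        apply sum_le_sum
        intro j _
        have : (0 : ℝ) ≤ cont (π.yrow yb j) := by exact_mod_cast cont_nonneg _
        unfold gam; split_ifs <;> linarith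
    _ = 2 * ∑ j ∈ Box π.Ly, (cont (π.yrow yb j) : ℝ)
          + 2 * π.P * ∑ j ∈ A, (cont (π.yrow yb j) : ℝ) := by
        rw [sum_add_distrib, ← mul_sum, ← mul_sum, hA, sum_filter]
    _ ≤ 2 * (9 * π.Ly ^ 3) + 2 * π.P * (π.P * A.card
          + (4 * π.Ly ^ 3 / π.P + 4 * (2 * π.q * π.Ly) ^ 2)) := by
        push_cast at h3
        gcongr
        linarith
    _ = 18 * π.Ly ^ 3 + 2 * (π.P ^ 2 * A.card) + 8 * π.Ly ^ 3
          + 2 * (4 * π.P * (2 * π.q * π.Ly) ^ 2) := by field_simp; ring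
    _ ≤ _ := by linarith

def C12 (x y : V) : Prop := cross x (pp y) ≠ 0 ∧
  (cont (cross x (pp y)) < π.q ∨ π.R1 ≤ nrm (pp (cross x (pp y))))

lemma xrow_nrm {xh v i : V} (hx : ∀ k, 0 ≤ xh k ∧ xh k < π.q) (hv : v ∈ Box π.υ)
    (hi : i ∈ Box π.Lx) : nrm (π.xrow xh v i) ≤ 2 * π.q * π.Lx := by
  apply nrm_le
  intro k
  have := π.xrow_bd hx hv hi k
  rw [abs_of_nonneg this.1]; exact this.2

open Classical in
lemma B12_vj {xh yb zb : V} {ζ : ℤ → V → V → V} (hx : ∀ k, 0 ≤ xh k ∧ xh k < π.q)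
    (hy : ∀ k, 1 ≤ yb k ∧ yb k ≤ π.W) (hζ : π.Spec zb ζ) {v j : V} (hv : v ∈ Box π.υ)
    (hj : j ∈ Box π.Ly) :
    (((Box π.Lx ×ˢ π.EL).filter (fun u => π.C12 (π.xrow xh v u.1) (π.yrow yb j) ∧
      2 * |dot (cross (π.xrow xh v u.1) (π.yrow yb j))
        (π.zrow (ζ u.2.1 (π.xrow xh v u.1) (π.yrow yb j)) u.2.2)| < π.q)).card : ℝ)
      ≤ (32 * 517 * π.J ^ 2 * π.Lz ^ 2 * π.Lx ^ 2 / (π.q * π.Ly)) *
        ((cont (π.yrow yb j) * π.gam (pp (π.yrow yb j))) *
          (1 / π.Dl (xh + v) (pp (π.yrow yb j)))) := by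
  set y := π.yrow yb j with hyd
  have hy0 : y ≠ 0 := π.yrow_ne hy j
  obtain ⟨hy1, hy2⟩ := π.yrow_nrm hy hj
  rw [← hyd] at hy1 hy2
  set I := (Box π.Lx).filter (fun i => π.C12 (π.xrow xh v i) y) with hI
  have hq0 : (0 : ℝ) < π.q := by exact_mod_cast π.hq0
  have hLy : (0 : ℝ) < π.Ly := by exact_mod_cast π.Ly1
  have hLx : (0 : ℝ) < π.Lx := by exact_mod_cast π.Lx1
  have hD : (0 : ℝ) < π.Dl (xh + v) (pp y) := by exact_mod_cast π.Dl_pos _ _
  have hP : (0 : ℝ) < π.P := by exact_mod_cast π.hP0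
  have hg : 0 ≤ π.gam (pp y) := by unfold gam; split_ifs <;> positivity
  rw [card_filter_prod]
  calc _ ≤ ∑ i ∈ Box π.Lx, if π.C12 (π.xrow xh v i) y then 8 * (π.Lz : ℝ) ^ 2 *
          (π.om (pp (cross (π.xrow xh v i) (pp y))) / nrm (pp (cross (π.xrow xh v i) (pp y))))
          else 0 := by
        apply sum_le_sum
        intro i hi
        split_ifs with h
        · have := π.z_count hζ (π.xrow xh v i) y hy0 h.1 ((π.xrow_nrm hx hv hi).trans π.cLz)
            (hy2.trans (π.NLx.trans π.LxLz))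
          refine le_trans ?_ (this.trans (le_of_eq (by ring)))
          simp only [h, true_and, le_refl]
        · simp [h]
    _ = 8 * (π.Lz : ℝ) ^ 2 * ∑ i ∈ I,
          (π.om (pp (cross (π.xrow xh v i) (pp y))) / nrm (pp (cross (π.xrow xh v i) (pp y)))) := by
        rw [← sum_filter, mul_sum]
    _ ≤ 8 * (π.Lz : ℝ) ^ 2 * (2 * π.Lx / nrm (pp y) *
        (π.gam (pp y) * (517 * π.J ^ 2 * (2 * π.q * π.Lx) / (π.q * π.Dl (xh + v) (pp y))))) := by
        apply mul_le_mul_of_nonneg_left _ (by positivity)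
        exact π.x_sum hx hv hy0 hy2 I (filter_subset _ _) (fun i hi => (mem_filter.mp hi).2)
    _ ≤ 8 * (π.Lz : ℝ) ^ 2 * (2 * π.Lx * (cont y / (π.q * π.Ly)) *
        (π.gam (pp y) * (517 * π.J ^ 2 * (2 * π.q * π.Lx) / (π.q * π.Dl (xh + v) (pp y))))) := by
        have h1 : (0 : ℝ) < nrm (pp y) := by exact_mod_cast (prim_pp hy0).nrm_pos
        have h2 : 1 / (nrm (pp y) : ℝ) ≤ cont y / (π.q * π.Ly) := by
          rw [div_le_div_iff₀ h1 (by positivity), one_mul]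
          rw [nrm_eq_cont_mul] at hy1
          exact_mod_cast hy1
        rw [div_eq_mul_one_div (2 * (π.Lx : ℝ))]
        gcongr
    _ = _ := by field_simp; ring

noncomputable def U : Finset (V × V × V × ℤ × V) := Box π.υ ×ˢ Box π.Ly ×ˢ Box π.Lx ×ˢ π.EL

def X (xh : V) (u : V × V × V × ℤ × V) : V := π.xrow xh u.1 u.2.2.1

def Y (yb : V) (u : V × V × V × ℤ × V) : V := π.yrow yb u.2.1

def Z (xh yb : V) (ζ : ℤ → V → V → V) (u : V × V × V × ℤ × V) : V :=
  π.zrow (ζ u.2.2.2.1 (π.X xh u) (π.Y yb u)) u.2.2.2.2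

open Classical in
lemma B12_bound {xh yb zb : V} {ζ : ℤ → V → V → V} (hx : ∀ k, 0 ≤ xh k ∧ xh k < π.q)
    (hy : ∀ k, 1 ≤ yb k ∧ yb k ≤ π.W) (hζ : π.Spec zb ζ) :
    ((π.U.filter (fun u => π.C12 (π.X xh u) (π.Y yb u) ∧
      2 * |dot (cross (π.X xh u) (π.Y yb u)) (π.Z xh yb ζ u)| < π.q)).card : ℝ)
      ≤ 7444800 * π.J ^ 2 * π.υ ^ 3 * π.Lx ^ 2 * π.Ly ^ 2 * π.Lz ^ 2 / π.q ^ 2 := by
  have hq0 : (0 : ℝ) < π.q := by exact_mod_cast π.hq0
  have hLy : (0 : ℝ) < π.Ly := by exact_mod_cast π.Ly1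
  have hυ : (0 : ℝ) < π.υ := by exact_mod_cast π.υ1
  have hP : (0 : ℝ) < π.P := by exact_mod_cast π.hP0
  set K : ℝ := 32 * 517 * π.J ^ 2 * π.Lz ^ 2 * π.Lx ^ 2 / (π.q * π.Ly) with hK
  have hK0 : 0 ≤ K := by positivity
  unfold U
  rw [card_filter_prod]
  calc _ ≤ ∑ v ∈ Box π.υ, ∑ j ∈ Box π.Ly, K * ((cont (π.yrow yb j) * π.gam (pp (π.yrow yb j))) *
          (1 / π.Dl (xh + v) (pp (π.yrow yb j)))) := by
        apply sum_le_sum
        intro v hv
        rw [card_filter_prod]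
        apply sum_le_sum
        intro j hj
        exact π.B12_vj hx hy hζ hv hj
    _ = K * ∑ j ∈ Box π.Ly, (cont (π.yrow yb j) * π.gam (pp (π.yrow yb j))) *
          ∑ v ∈ Box π.υ, (1 / (π.Dl (xh + v) (pp (π.yrow yb j)) : ℝ)) := by
        rw [sum_comm, mul_sum]
        apply sum_congr rfl
        intro j _
        rw [mul_sum, mul_sum]
    _ ≤ K * ∑ j ∈ Box π.Ly, (cont (π.yrow yb j) * π.gam (pp (π.yrow yb j))) *
          (9 * π.υ ^ 3 / π.q) := by
        apply mul_le_mul_of_nonneg_left _ hK0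
        apply sum_le_sum
        intro j _
        have h1 : (0 : ℝ) ≤ cont (π.yrow yb j) := by exact_mod_cast cont_nonneg _
        have hg : 0 ≤ π.gam (pp (π.yrow yb j)) := by unfold gam; split_ifs <;> positivity
        apply mul_le_mul_of_nonneg_left _ (by positivity)
        apply π.v_sum
        intro h
        apply π.yrow_ndvd hy j 0
        rw [← cont_mul_pp (π.yrow yb j) 0]
        exact h.mul_left _
    _ ≤ K * (50 * π.Ly ^ 3 * (9 * π.υ ^ 3 / π.q)) := by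
        rw [← sum_mul]
        have := π.j_sum hy
        gcongr
    _ = _ := by rw [hK]; field_simp; ring

end Par

end Vale.Agent.P036
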