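import Vale.Agent.P036.B3

open Finset

namespace Vale.Agent.P036

lemma tower_nrm (F : Finset V) (R : ℝ) (hR0 : 0 ≤ R) (hR : ∀ a ∈ F, (nrm a : ℝ) ≤ R) (k : Fin 3)
    (m0 m1 m2 : ℤ) (h0 : 0 < m0) (h1 : 0 < m1) (h2 : 0 < m2)
    (d0 : ∀ a ∈ F, ∀ b ∈ F, m0 ∣ a k - b k)
    (d1 : ∀ a ∈ F, ∀ b ∈ F, a k = b k → m1 ∣ a (k + 1) - b (k + 1))
    (d2 : ∀ a ∈ F, ∀ b ∈ F, a k = b k → a (k + 1) = b (k + 1) → m2 ∣ a (k + 2) - b (k + 2)) :
    (F.card : ℝ) ≤ (2 * R / m0 + 1) * (2 * R / m1 + 1) * (2 * R / m2 + 1) :=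
  card_le_tower F k (k + 1) (k + 2) (ext_perm k) m0 m1 m2 h0 h1 h2 _ (by linarith)
    (fun a ha b hb k => diam_of_nrm (hR a ha) (hR b hb) k) d0 d1 d2

namespace Par

variable (π : Par)

open Classical in
noncomputable def Cs : Finset V :=
  (Fintype.piFinset (fun _ : Fin 3 => Ioo (-π.R1) π.R1)).filter (fun c => Prim c ∧ ∀ k, c k ≠ 0)

lemma mem_Cs {c : V} : c ∈ π.Cs ↔ nrm c < π.R1 ∧ Prim c ∧ ∀ k, c k ≠ 0 := by
  simp only [Cs, mem_filter, Fintype.mem_piFinset, mem_Ioo]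
  constructor
  · rintro ⟨h, h2⟩
    refine ⟨?_, h2⟩
    obtain ⟨k, hk⟩ := exists_nrm_eq c
    rw [hk, abs_lt]; exact h k
  · rintro ⟨h, h2⟩
    exact ⟨fun k => abs_lt.mp ((abs_le_nrm c k).trans_lt h), h2⟩

lemma count_A (xb yb : V) (hy : ¬ π.q ∣ yb 2) (F : Finset V) (R : ℝ)
    (hR : π.q / 3 ≤ R) (hR1 : 1 ≤ R)
    (hF : ∀ c ∈ F, (nrm c : ℝ) ≤ R ∧ π.q ∣ dot c xb ∧ π.q ∣ dot c yb) :
    (F.card : ℝ) ≤ 75 / (π.q * π.Dl xb yb) * R ^ 3 := by
  have hq0 : (0 : ℝ) < π.q := by exact_mod_cast π.hq0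
  have h1 : 2 * R / π.q + 1 ≤ 5 * R / π.q := by
    rw [div_add_one hq0.ne', div_le_div_iff_of_pos_right hq0]; linarith
  have h2 : 2 * R / (1 : ℤ) + 1 ≤ 3 * R := by push_cast; linarith
  have h3 : 0 ≤ 2 * R / π.q + 1 := by positivity
  have h4 : 0 ≤ 2 * R / (1 : ℤ) + 1 := by positivity
  unfold Dl
  split_ifs with h
  · have := tower_nrm F R (by linarith) (fun a ha => (hF a ha).1) 0 1 1 π.q one_pos one_pos π.hq0
      (fun _ _ _ _ => one_dvd _) (fun _ _ _ _ _ => one_dvd _) (by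
        intro a ha b hb e0 e1
        have d := dvd_sub (hF a ha).2.2 (hF b hb).2.2
        have e1' : a 1 = b 1 := e1
        have d2 : π.q ∣ (a 2 - b 2) * yb 2 := by
          apply dvd_of_eq d; simp only [dot, e0, e1']; ring
        exact (π.hq.dvd_or_dvd d2).resolve_right hy)
    refine this.trans ?_
    calc _ ≤ (3 * R) * (3 * R) * (5 * R / π.q) := by gcongr
      _ = 45 / π.q * R ^ 3 := by ring
      _ ≤ _ := by push_cast; rw [mul_one]; gcongr; norm_num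
  · push Not at h
    obtain ⟨k, hk⟩ := h
    rw [cross_perm] at hk
    have := tower_nrm F R (by linarith) (fun a ha => (hF a ha).1) k 1 π.q π.q one_pos π.hq0 π.hq0
      (fun _ _ _ _ => one_dvd _) (by
        intro a ha b hb e0
        have d1 := dvd_sub (hF a ha).2.1 (hF b hb).2.1
        have d2 := dvd_sub (hF a ha).2.2 (hF b hb).2.2
        rw [dot_perm k, dot_perm k b] at d1 d2
        have d3 : π.q ∣ (a (k + 1) - b (k + 1))
            * (xb (k + 1) * yb (k + 2) - xb (k + 2) * yb (k + 1)) := by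
          apply dvd_of_eq (dvd_sub (d1.mul_left (yb (k + 2))) (d2.mul_left (xb (k + 2))))
          rw [e0]; ring
        exact (π.hq.dvd_or_dvd d3).resolve_right hk) (by
        intro a ha b hb e0 _
        have d1 := dvd_sub (hF a ha).2.1 (hF b hb).2.1
        have d2 := dvd_sub (hF a ha).2.2 (hF b hb).2.2
        rw [dot_perm k, dot_perm k b] at d1 d2
        have d3 : π.q ∣ (a (k + 2) - b (k + 2))
            * (xb (k + 1) * yb (k + 2) - xb (k + 2) * yb (k + 1)) := by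
          apply dvd_of_eq (dvd_sub (d2.mul_left (xb (k + 1))) (d1.mul_left (yb (k + 1))))
          rw [e0]; ring
        exact (π.hq.dvd_or_dvd d3).resolve_right hk)
    refine this.trans ?_
    calc _ ≤ (3 * R) * (5 * R / π.q) * (5 * R / π.q) := by gcongr
      _ = _ := by field_simp; ring

lemma count_C (F : Finset V) (R : ℝ) (hR : π.P ≤ R)
    (hF : ∀ c ∈ F, (nrm c : ℝ) ≤ R ∧ π.P ∣ sm c ∧ ∃ k, π.P ∣ c k) :
    (F.card : ℝ) ≤ 81 / π.P ^ 2 * R ^ 3 := by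
  classical
  have hP : (1 : ℝ) ≤ π.P := by exact_mod_cast π.P1
  have h1 : 2 * R / π.P + 1 ≤ 3 * R / π.P := by
    rw [div_add_one (by linarith), div_le_div_iff_of_pos_right (by linarith)]; linarith
  have h2 : 2 * R / (1 : ℤ) + 1 ≤ 3 * R := by push_cast; linarith
  have hR0 : 0 ≤ R := by linarith
  have h3 : 0 ≤ 2 * R / π.P + 1 := by positivity
  have h4 : 0 ≤ 2 * R / (1 : ℤ) + 1 := by positivity
  have key : ∀ k : Fin 3, ((F.filter (fun c => π.P ∣ c k)).card : ℝ) ≤ 27 / π.P ^ 2 * R ^ 3 := by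
    intro k
    have := tower_nrm (F.filter (fun c => π.P ∣ c k)) R hR0
      (fun a ha => (hF a (mem_filter.mp ha).1).1) k π.P 1 π.P π.hP0 one_pos π.hP0
      (fun a ha b hb => dvd_sub (mem_filter.mp ha).2 (mem_filter.mp hb).2)
      (fun _ _ _ _ _ => one_dvd _) (by
        intro a ha b hb e0 e1
        apply dvd_of_eq (dvd_sub (hF a (mem_filter.mp ha).1).2.1 (hF b (mem_filter.mp hb).1).2.1)
        rw [sm_perm k, sm_perm k b, e0, e1]; ring)
    refine this.trans ?_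
    calc _ ≤ (3 * R / π.P) * (3 * R) * (3 * R / π.P) := by gcongr
      _ = _ := by field_simp; ring
  have hsub : F ⊆ univ.biUnion (fun k : Fin 3 => F.filter (fun c => π.P ∣ c k)) := by
    intro c hc
    obtain ⟨k, hk⟩ := (hF c hc).2.2
    exact mem_biUnion.mpr ⟨k, mem_univ _, mem_filter.mpr ⟨hc, hk⟩⟩
  have h5 : (F.card : ℝ) ≤ ∑ k : Fin 3, ((F.filter (fun c => π.P ∣ c k)).card : ℝ) := by
    exact_mod_cast (card_le_card hsub).trans card_biUnion_le
  rw [Fin.sum_univ_three] at h5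
  have e : 81 / (π.P : ℝ) ^ 2 * R ^ 3 = 3 * (27 / π.P ^ 2 * R ^ 3) := by ring
  linarith [key 0, key 1, key 2]

lemma count_B (F : Finset V) (R : ℝ) (hR : 1 ≤ R) (hF : ∀ c ∈ F, (nrm c : ℝ) ≤ R) :
    (F.card : ℝ) ≤ 27 * R ^ 3 := by
  have h2 : 2 * R / (1 : ℤ) + 1 ≤ 3 * R := by push_cast; linarith
  have h4 : 0 ≤ 2 * R / (1 : ℤ) + 1 := by positivity
  have := tower_nrm F R (by linarith) hF 0 1 1 1 one_pos one_pos one_pos
      (fun _ _ _ _ => one_dvd _) (fun _ _ _ _ _ => one_dvd _) (fun _ _ _ _ _ _ => one_dvd _)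
  refine this.trans ?_
  calc _ ≤ (3 * R) * (3 * R) * (3 * R) := by gcongr
    _ = _ := by ring

/-- the collision hypothesis -/
def Hcoll (yb zb : V) : Prop :=
  ∀ c, Prim c → (∀ k, c k ≠ 0) → π.q ∣ dot c yb → π.q ∣ dot c zb → ¬ π.P ∣ sm c → π.q ≤ 3 * nrm c

lemma yb_ndvd {yb : V} (hy : ∀ k, 1 ≤ yb k ∧ yb k ≤ π.W) (k : Fin 3) : ¬ π.q ∣ yb k := by
  intro h
  have := Int.le_of_dvd (by linarith [hy k]) h
  have := π.Wq'
  linarith [hy k]

lemma wt_sum (xb : V) {yb zb : V} (hy : ∀ k, 1 ≤ yb k ∧ yb k ≤ π.W) (hH : π.Hcoll yb zb) :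
    ∑ c ∈ π.Cs, π.wt xb yb zb c * (1 / (nrm c : ℝ) ^ 3)
      ≤ (π.J : ℝ) * (600 / π.q * (1 / π.Dl xb yb) + 864 / π.q ^ 2) := by
  classical
  have hq2 : (2 : ℝ) ≤ π.q := by exact_mod_cast π.q2
  have hP : (1 : ℝ) ≤ π.P := by exact_mod_cast π.P1
  have hqP : (π.q : ℝ) ^ 2 ≤ π.P := by exact_mod_cast π.qP
  have hD : (0 : ℝ) < π.Dl xb yb := by exact_mod_cast π.Dl_pos _ _
  have hJ : ∀ c ∈ π.Cs, 4 * (nrm c : ℝ) < 2 ^ π.J := by
    intro c hc
    have h1 := (π.mem_Cs.mp hc).1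
    have h2 := π.NJ
    have h3 := π.R1Ly
    have : 4 * nrm c < 2 ^ π.J := by nlinarith [π.q2, π.Ly1]
    exact_mod_cast this
  have hn : ∀ c ∈ π.Cs, (1 : ℝ) ≤ nrm c := by
    intro c hc
    exact_mod_cast (π.mem_Cs.mp hc).2.1.nrm_pos
  have h2J : (0 : ℝ) < 2 ^ π.J := by positivity
  set FA := π.Cs.filter (fun c => ¬ π.P ∣ sm c ∧ π.q ∣ dot c xb ∧ π.q ∣ dot c yb ∧ π.q ∣ dot c zb)
  set FC := π.Cs.filter (fun c => π.P ∣ sm c ∧ ∃ k, π.P ∣ c k)
  have hA := dyadic_sum FA (fun c => (nrm c : ℝ)) (max (π.q / 3) 1) (by positivity) π.J 3 0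
    (75 / (π.q * π.Dl xb yb)) le_rfl (by
      intro c hc
      obtain ⟨h1, h2⟩ := mem_filter.mp hc
      have h3 := π.mem_Cs.mp h1
      have h4 := hH c h3.2.1 h3.2.2 h2.2.2.1 h2.2.2.2 h2.1
      have h5 : (π.q : ℝ) ≤ 3 * nrm c := by exact_mod_cast h4
      exact max_le (by linarith) (hn c h1)) (by
      intro c hc
      have := hJ c (mem_filter.mp hc).1
      have h1 := hn c (mem_filter.mp hc).1
      have h2 : 1 * (2 : ℝ) ^ π.J ≤ max (π.q / 3 : ℝ) 1 * 2 ^ π.J := by gcongr; exact le_max_right _ _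
      linarith) (by
      intro R hR
      rw [zero_add]
      apply π.count_A xb yb (π.yb_ndvd hy 2) _ R ((le_max_left _ _).trans hR)
        ((le_max_right _ _).trans hR)
      intro c hc
      obtain ⟨h1, h2⟩ := mem_filter.mp hc
      have h3 := (mem_filter.mp h1).2
      exact ⟨h2, h3.2.1, h3.2.2.1⟩)
  have hB := dyadic_sum π.Cs (fun c => (nrm c : ℝ)) 1 one_pos π.J 3 0 27 le_rfl hn (by
      intro c hc
      have := hJ c hc
      have h1 := hn c hc
      linarith) (by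
      intro R hR
      rw [zero_add]
      exact count_B _ R hR (fun c hc => (mem_filter.mp hc).2))
  have hC := dyadic_sum FC (fun c => (nrm c : ℝ)) π.P (by positivity) π.J 3 0
    (81 / π.P ^ 2) le_rfl (by
      intro c hc
      obtain ⟨h1, h2, k, hk⟩ := mem_filter.mp hc
      have h3 := (π.mem_Cs.mp h1).2.2 k
      have h4 := Int.le_of_dvd (abs_pos.mpr h3) ((dvd_abs _ _).mpr hk)
      exact_mod_cast h4.trans (abs_le_nrm c k)) (by
      intro c hc
      have := hJ c (mem_filter.mp hc).1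
      have h1 := hn c (mem_filter.mp hc).1
      have h2 : 1 * (2 : ℝ) ^ π.J ≤ π.P * 2 ^ π.J := by gcongr
      linarith) (by
      intro R hR
      rw [zero_add]
      apply π.count_C _ R hR
      intro c hc
      obtain ⟨h1, h2⟩ := mem_filter.mp hc
      exact ⟨h2, (mem_filter.mp h1).2⟩)
  calc ∑ c ∈ π.Cs, π.wt xb yb zb c * (1 / (nrm c : ℝ) ^ 3)
      ≤ ∑ c ∈ π.Cs, ((if ¬ π.P ∣ sm c ∧ π.q ∣ dot c xb ∧ π.q ∣ dot c yb ∧ π.q ∣ dot c zb
          then 1 / (nrm c : ℝ) ^ 3 else 0) + 1 / (π.P : ℝ) * (1 / (nrm c : ℝ) ^ 3)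
          + (π.P : ℝ) * if π.P ∣ sm c ∧ ∃ k, π.P ∣ c k then 1 / (nrm c : ℝ) ^ 3 else 0) := by
        apply sum_le_sum
        intro c hc
        have h1 := hn c hc
        have h2 : 0 ≤ 1 / (nrm c : ℝ) ^ 3 := by positivity
        have h3 : 0 ≤ 1 / (π.P : ℝ) * (1 / (nrm c : ℝ) ^ 3) := by positivity
        unfold wt
        by_cases hs : π.P ∣ sm c
        · by_cases hk : ∀ k, ¬ π.P ∣ c k
          · have hk' : ¬ ∃ k, π.P ∣ c k := not_exists.mpr hk
            simp only [hs, hk', if_pos hk, if_true, not_true, false_and, if_false, and_false]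
            linarith
          · have hk' : ∃ k, π.P ∣ c k := by push Not at hk; exact hk
            simp only [hs, hk', if_neg hk, if_true, not_true, false_and, if_false, and_true]
            linarith
        · simp only [hs, if_false, not_false_iff, true_and, false_and]
          split_ifs <;> linarith
    _ = ∑ c ∈ FA, 1 / (nrm c : ℝ) ^ 3 + 1 / (π.P : ℝ) * ∑ c ∈ π.Cs, 1 / (nrm c : ℝ) ^ 3
          + (π.P : ℝ) * ∑ c ∈ FC, 1 / (nrm c : ℝ) ^ 3 := by
        rw [sum_add_distrib, sum_add_distrib, ← mul_sum, ← mul_sum, ← sum_filter, ← sum_filter]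
    _ ≤ π.J * (0 / max (π.q / 3 : ℝ) 1 ^ 3 + 75 / (π.q * π.Dl xb yb) * 2 ^ 3)
          + 1 / π.P * (π.J * (0 / 1 ^ 3 + 27 * 2 ^ 3))
          + π.P * (π.J * (0 / π.P ^ 3 + 81 / π.P ^ 2 * 2 ^ 3)) := by gcongr
    _ = (π.J : ℝ) * (600 / π.q * (1 / π.Dl xb yb) + 864 / π.P) := by field_simp; ring
    _ ≤ _ := by gcongr

open Classical in
lemma B3_bound {xh yb zb : V} {ζ : ℤ → V → V → V}
    (hy : ∀ k, 1 ≤ yb k ∧ yb k ≤ π.W) (hζ : π.Spec zb ζ) (hH : π.Hcoll yb zb) :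
    ((π.U.filter (fun u => ∃ c ∈ π.Cs, π.Van xh yb ζ c u.1 u.2)).card : ℝ)
      ≤ 3207168 * π.J * π.υ ^ 3 * π.Lx ^ 2 * π.Ly ^ 2 * π.Lz ^ 2 / π.q ^ 2 := by
  have hq0 : (0 : ℝ) < π.q := by exact_mod_cast π.hq0
  set K : ℝ := 512 * π.Lx ^ 2 * π.Ly ^ 2 * π.Lz ^ 2 with hK
  have hK0 : 0 ≤ K := by positivity
  unfold U
  rw [card_filter_prod]
  calc _ ≤ ∑ v ∈ Box π.υ, K * (π.J * (600 / π.q * (1 / π.Dl (xh + v) yb) + 864 / π.q ^ 2)) := by
        apply sum_le_sum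
        intro v _
        have hsub : (π.U'.filter (fun w => ∃ c ∈ π.Cs, π.Van xh yb ζ c v w))
            ⊆ π.Cs.biUnion (fun c => π.U'.filter (π.Van xh yb ζ c v)) := by
          intro w hw
          obtain ⟨h1, c, hc, h2⟩ := mem_filter.mp hw
          exact mem_biUnion.mpr ⟨c, hc, mem_filter.mpr ⟨h1, h2⟩⟩
        have h5 : ((π.U'.filter (fun w => ∃ c ∈ π.Cs, π.Van xh yb ζ c v w)).card : ℝ)
            ≤ ∑ c ∈ π.Cs, ((π.U'.filter (π.Van xh yb ζ c v)).card : ℝ) := by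
          exact_mod_cast (card_le_card hsub).trans card_biUnion_le
        refine h5.trans ?_
        refine le_trans ?_ (mul_le_mul_of_nonneg_left (π.wt_sum (xh + v) hy hH) hK0)
        rw [mul_sum]
        apply sum_le_sum
        intro c hc
        exact π.van_wt hζ c v (π.mem_Cs.mp hc).2.1 (π.mem_Cs.mp hc).1.le
    _ = K * (π.J * (600 / π.q * (∑ v ∈ Box π.υ, 1 / (π.Dl (xh + v) yb : ℝ))
          + π.υ ^ 3 * (864 / π.q ^ 2))) := by
        rw [← mul_sum, ← mul_sum, sum_add_distrib, ← mul_sum, sum_const, nsmul_eq_mul,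
          card_Box (by linarith [π.υ1])]
    _ ≤ K * (π.J * (600 / π.q * (9 * π.υ ^ 3 / π.q) + π.υ ^ 3 * (864 / π.q ^ 2))) := by
        have := π.v_sum xh yb (π.yb_ndvd hy 0)
        gcongr
    _ = _ := by rw [hK]; field_simp; ring

open Classical in
/-- the count of small determinants for a colliding triple of types -/
lemma triple_bound {xh yb zb : V} {ζ : ℤ → V → V → V} (hx : ∀ k, 0 ≤ xh k ∧ xh k < π.q)
    (hy : ∀ k, 1 ≤ yb k ∧ yb k ≤ π.W) (hζ : π.Spec zb ζ) (hH : π.Hcoll yb zb) :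
    ((π.U.filter (fun u => (∀ k, cross (π.X xh u) (π.Y yb u) k ≠ 0) ∧
      2 * |dot (cross (π.X xh u) (π.Y yb u)) (π.Z xh yb ζ u)| < π.q)).card : ℝ)
      ≤ 11000000 * π.J ^ 2 * π.υ ^ 3 * π.Lx ^ 2 * π.Ly ^ 2 * π.Lz ^ 2 / π.q ^ 2 := by
  have h1 := π.B12_bound hx hy hζ
  have h2 := π.B3_bound (xh := xh) hy hζ hH
  have hsub : π.U.filter (fun u => (∀ k, cross (π.X xh u) (π.Y yb u) k ≠ 0) ∧
      2 * |dot (cross (π.X xh u) (π.Y yb u)) (π.Z xh yb ζ u)| < π.q) ⊆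
      π.U.filter (fun u => π.C12 (π.X xh u) (π.Y yb u) ∧
      2 * |dot (cross (π.X xh u) (π.Y yb u)) (π.Z xh yb ζ u)| < π.q) ∪
      π.U.filter (fun u => ∃ c ∈ π.Cs, π.Van xh yb ζ c u.1 u.2) := by
    intro u hu
    obtain ⟨hu, h3, h4⟩ := mem_filter.mp hu
    rw [mem_union, mem_filter, mem_filter]
    set x := π.X xh u with hxd
    set y := π.Y yb u with hyd
    have hy0 : y ≠ 0 := π.yrow_ne hy _
    have hcr : cross x y = (cont y * cont (cross x (pp y))) • pp (cross x (pp y)) := by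
      conv_lhs => rw [← cont_smul_pp y, cross_smul_right, ← cont_smul_pp (cross x (pp y))]
      rw [smul_smul]
    have hC : cross x (pp y) ≠ 0 := by
      intro h
      apply h3 0
      rw [hcr, h]; simp [cont]
    by_cases h5 : π.C12 x y
    · exact Or.inl ⟨hu, h5, h4⟩
    right
    refine ⟨hu, pp (cross x (pp y)), ?_⟩
    have h6 : π.q ≤ cont (cross x (pp y)) ∧ nrm (pp (cross x (pp y))) < π.R1 := by
      unfold C12 at h5
      push Not at h5
      exact h5 hC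
    refine ⟨π.mem_Cs.mpr ⟨h6.2, prim_pp hC, ?_⟩, ?_, ?_, ?_⟩
    · intro k hk
      apply h3 k
      rw [hcr, Pi.smul_apply, hk]; simp
    · rw [dot_comm]; exact dot_pp_eq_zero hC (dot_cross_left _ _)
    · rw [dot_comm]
      apply dot_pp_eq_zero hC
      show dot y (cross x (pp y)) = 0
      conv_lhs => rw [← cont_smul_pp y, dot_smul_left]
      rw [cont_smul_pp, dot_cross_right, mul_zero]
    · show dot (pp (cross x (pp y))) (π.Z xh yb ζ u) = 0
      rw [hcr, dot_smul_left, abs_mul] at h4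
      have h7 := cont_pos hy0
      have h8 : π.q ≤ cont y * cont (cross x (pp y)) := by nlinarith [π.hq0]
      rw [abs_of_pos (by linarith [π.hq0])] at h4
      by_contra h9
      have := abs_pos.mpr h9
      nlinarith [π.hq0]
  have h3 := (Nat.cast_le (α := ℝ)).mpr ((card_le_card hsub).trans (card_union_le _ _))
  rw [Nat.cast_add] at h3
  have hJ : (1 : ℝ) ≤ π.J := by exact_mod_cast π.J1
  have hq0 : (0 : ℝ) < π.q := by exact_mod_cast π.hq0
  have hυ : (0 : ℝ) < π.υ := by exact_mod_cast π.υ1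
  refine h3.trans ((add_le_add h1 h2).trans ?_)
  rw [← add_div]
  apply div_le_div_of_nonneg_right _ (by positivity)
  have : 0 ≤ (π.υ : ℝ) ^ 3 * π.Lx ^ 2 * π.Ly ^ 2 * π.Lz ^ 2 := by positivity
  have h4 : 7444800 * (π.J : ℝ) ^ 2 + 3207168 * π.J ≤ 11000000 * π.J ^ 2 := by nlinarith
  nlinarith [mul_le_mul_of_nonneg_right h4 this]

end Par

end Vale.Agent.P036
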