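import Mathlib

namespace Vale.Agent.P036

/-- integer vectors -/
abbrev V := Fin 3 → ℤ

def dot (a b : V) : ℤ := a 0 * b 0 + a 1 * b 1 + a 2 * b 2

def cross (a b : V) : V := ![a 1 * b 2 - a 2 * b 1, a 2 * b 0 - a 0 * b 2, a 0 * b 1 - a 1 * b 0]

def nrm (a : V) : ℤ := max |a 0| (max |a 1| |a 2|)

def sm (a : V) : ℤ := a 0 + a 1 + a 2

def Prim (a : V) : Prop := ∃ t : V, dot t a = 1

def cont (a : V) : ℤ := Int.gcd (a 0) (Int.gcd (a 1) (a 2))

def pp (a : V) : V := fun k => a k / cont a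

@[simp] lemma cross_0 (a b : V) : cross a b 0 = a 1 * b 2 - a 2 * b 1 := rfl
@[simp] lemma cross_1 (a b : V) : cross a b 1 = a 2 * b 0 - a 0 * b 2 := rfl
@[simp] lemma cross_2 (a b : V) : cross a b 2 = a 0 * b 1 - a 1 * b 0 := rfl

lemma V.ext3 {a b : V} (h0 : a 0 = b 0) (h1 : a 1 = b 1) (h2 : a 2 = b 2) : a = b := by
  ext k; fin_cases k <;> assumption

lemma forall3 {p : Fin 3 → Prop} (h0 : p 0) (h1 : p 1) (h2 : p 2) : ∀ k, p k := by
  intro k; fin_cases k <;> assumption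

lemma abs_le_nrm (a : V) (k : Fin 3) : |a k| ≤ nrm a := by
  revert k
  apply forall3 <;> simp [nrm]

lemma nrm_le {a : V} {L : ℤ} (h : ∀ k, |a k| ≤ L) : nrm a ≤ L :=
  max_le (h 0) (max_le (h 1) (h 2))

lemma exists_nrm_eq (a : V) : ∃ k, nrm a = |a k| := by
  unfold nrm
  rcases max_choice |a 0| (max |a 1| |a 2|) with h | h
  · exact ⟨0, h⟩
  · rcases max_choice |a 1| |a 2| with h' | h'
    · exact ⟨1, h.trans h'⟩
    · exact ⟨2, h.trans h'⟩

lemma nrm_nonneg (a : V) : 0 ≤ nrm a := (abs_nonneg _).trans (abs_le_nrm a 0)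

lemma nrm_pos {a : V} (h : a ≠ 0) : 0 < nrm a := by
  by_contra h1
  push Not at h1
  apply h
  ext k
  have := abs_le_nrm a k
  simpa using abs_nonpos_iff.mp (this.trans h1)

lemma nrm_smul (κ : ℤ) (a : V) : nrm (κ • a) = |κ| * nrm a := by
  simp only [nrm, Pi.smul_apply, smul_eq_mul, abs_mul]
  rw [mul_max_of_nonneg _ _ (abs_nonneg κ), mul_max_of_nonneg _ _ (abs_nonneg κ)]

lemma nrm_cross_le (a b : V) : nrm (cross a b) ≤ 2 * nrm a * nrm b := by
  have key : ∀ i j : Fin 3, |a i * b j - a j * b i| ≤ 2 * nrm a * nrm b := by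
    intro i j
    have h1 : |a i * b j| ≤ nrm a * nrm b := by
      rw [abs_mul]; exact mul_le_mul (abs_le_nrm a i) (abs_le_nrm b j) (abs_nonneg _) (nrm_nonneg _)
    have h2 : |a j * b i| ≤ nrm a * nrm b := by
      rw [abs_mul]; exact mul_le_mul (abs_le_nrm a j) (abs_le_nrm b i) (abs_nonneg _) (nrm_nonneg _)
    have := abs_sub (a i * b j) (a j * b i)
    linarith
  apply nrm_le
  apply forall3
  · exact key 1 2
  · exact key 2 0
  · exact key 0 1

lemma nrm_sub_le (a b : V) : nrm (a - b) ≤ nrm a + nrm b := by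
  apply nrm_le
  intro k
  have := abs_sub (a k) (b k)
  have := abs_le_nrm a k
  have := abs_le_nrm b k
  simp only [Pi.sub_apply]; linarith

lemma Prim.ne_zero {a : V} (h : Prim a) : a ≠ 0 := by
  rintro rfl
  obtain ⟨t, ht⟩ := h
  simp [dot] at ht

lemma Prim.nrm_pos {a : V} (h : Prim a) : 0 < nrm a := Vale.Agent.P036.nrm_pos h.ne_zero

lemma Prim.eq_smul_of_cross {c u : V} (hc : Prim c) (h : cross u c = 0) : ∃ κ : ℤ, u = κ • c := by
  obtain ⟨t, ht⟩ := hc
  have h0 : u 1 * c 2 - u 2 * c 1 = 0 := congrFun h 0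
  have h1 : u 2 * c 0 - u 0 * c 2 = 0 := congrFun h 1
  have h2 : u 0 * c 1 - u 1 * c 0 = 0 := congrFun h 2
  unfold dot at ht
  refine ⟨dot t u, V.ext3 ?_ ?_ ?_⟩ <;> simp only [Pi.smul_apply, smul_eq_mul, dot]
  · linear_combination (-u 0) * ht + t 1 * h2 - t 2 * h1
  · linear_combination (-u 1) * ht + t 2 * h0 - t 0 * h2
  · linear_combination (-u 2) * ht + t 0 * h1 - t 1 * h0

lemma Prim.cross_eq_smul {c a b : V} (hc : Prim c) (ha : dot c a = 0) (hb : dot c b = 0) :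
    ∃ κ : ℤ, cross a b = κ • c := by
  apply hc.eq_smul_of_cross
  unfold dot at ha hb
  refine V.ext3 ?_ ?_ ?_ <;> simp only [cross_0, cross_1, cross_2, Pi.zero_apply]
  · linear_combination b 0 * ha - a 0 * hb
  · linear_combination b 1 * ha - a 1 * hb
  · linear_combination b 2 * ha - a 2 * hb

lemma Prim.dvd_of_dvd_smul {c : V} (hc : Prim c) {m κ : ℤ} (h : ∀ k, m ∣ κ * c k) : m ∣ κ := by
  obtain ⟨t, ht⟩ := hc
  have : κ = t 0 * (κ * c 0) + t 1 * (κ * c 1) + t 2 * (κ * c 2) := by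
    unfold dot at ht; linear_combination (-κ) * ht
  rw [this]
  exact dvd_add (dvd_add ((h 0).mul_left _) ((h 1).mul_left _)) ((h 2).mul_left _)

lemma cont_dvd (a : V) (k : Fin 3) : cont a ∣ a k := by
  revert k
  apply forall3
  · exact Int.gcd_dvd_left _ _
  · exact (Int.gcd_dvd_right _ _).trans (Int.gcd_dvd_left _ _)
  · exact (Int.gcd_dvd_right _ _).trans (Int.gcd_dvd_right _ _)

lemma cont_nonneg (a : V) : 0 ≤ cont a := Int.natCast_nonneg _

lemma cont_pos {a : V} (h : a ≠ 0) : 0 < cont a := by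
  rcases (cont_nonneg a).lt_or_eq with h1 | h1
  · exact h1
  · exfalso
    apply h
    ext k
    have := cont_dvd a k
    rw [← h1] at this
    simpa using this

lemma cont_smul_pp (a : V) : cont a • pp a = a := by
  ext k
  simp only [Pi.smul_apply, smul_eq_mul, pp]
  exact Int.mul_ediv_cancel' (cont_dvd a k)

lemma cont_mul_pp (a : V) (k : Fin 3) : cont a * pp a k = a k :=
  congrFun (cont_smul_pp a) k

lemma prim_pp {a : V} (h : a ≠ 0) : Prim (pp a) := by
  have hc := cont_pos h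
  have e1 := Int.gcd_eq_gcd_ab (a 0) (Int.gcd (a 1) (a 2))
  have e2 := Int.gcd_eq_gcd_ab (a 1) (a 2)
  set u := Int.gcdA (a 0) (Int.gcd (a 1) (a 2))
  set v := Int.gcdB (a 0) (Int.gcd (a 1) (a 2))
  set u' := Int.gcdA (a 1) (a 2)
  set v' := Int.gcdB (a 1) (a 2)
  refine ⟨![u, v * u', v * v'], ?_⟩
  have h0 := cont_mul_pp a 0
  have h1 := cont_mul_pp a 1
  have h2 := cont_mul_pp a 2
  have e3 : cont a = a 0 * u + (a 1 * u' + a 2 * v') * v := by
    rw [← e2]; exact e1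
  have : cont a * dot ![u, v * u', v * v'] (pp a) = cont a * 1 := by
    simp only [dot, Matrix.cons_val_zero, Matrix.cons_val_one, Matrix.cons_val]
    linear_combination u * h0 + v * u' * h1 + v * v' * h2 - e3
  exact mul_left_cancel₀ hc.ne' this

lemma nrm_eq_cont_mul (a : V) : nrm a = cont a * nrm (pp a) := by
  conv_lhs => rw [← cont_smul_pp a]
  rw [nrm_smul, abs_of_nonneg (cont_nonneg a)]

lemma nrm_pp_le {a : V} (h : a ≠ 0) : nrm (pp a) ≤ nrm a := by
  rw [nrm_eq_cont_mul a]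
  have := cont_pos h
  have := nrm_nonneg (pp a)
  nlinarith

lemma dot_pp_eq_zero {c a : V} (h : a ≠ 0) (hd : dot c a = 0) : dot c (pp a) = 0 := by
  have hc := cont_pos h
  have : cont a * dot c (pp a) = 0 := by
    rw [← hd]
    have h0 := cont_mul_pp a 0
    have h1 := cont_mul_pp a 1
    have h2 := cont_mul_pp a 2
    unfold dot
    linear_combination c 0 * h0 + c 1 * h1 + c 2 * h2
  exact (mul_eq_zero.mp this).resolve_left hc.ne'

lemma dot_comm (a b : V) : dot a b = dot b a := by unfold dot; ring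

lemma exists_prim_perp {c : V} (hc : c ≠ 0) : ∃ w, Prim w ∧ dot c w = 0 ∧ nrm w ≤ nrm c := by
  by_cases h : (![c 1, -c 0, 0] : V) = 0
  · have h0 : c 0 = 0 := by simpa using congrFun h 1
    refine ⟨![1, 0, 0], ⟨![1, 0, 0], by simp [dot]⟩, by simp [dot, h0], ?_⟩
    have := nrm_pos hc
    have e : nrm ![1, 0, 0] = 1 := by simp [nrm]
    omega
  · refine ⟨pp ![c 1, -c 0, 0], prim_pp h, dot_pp_eq_zero h (by simp [dot]; ring), ?_⟩
    refine (nrm_pp_le h).trans (nrm_le ?_)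
    apply forall3
    · simpa using abs_le_nrm c 1
    · simpa using abs_le_nrm c 0
    · simpa using nrm_nonneg c

lemma exists_prim_perp_sm {y : V} (hy : y ≠ 0) :
    ∃ w, Prim w ∧ dot y w = 0 ∧ sm w = 0 ∧ nrm w ≤ 2 * nrm y := by
  by_cases h : cross y (fun _ => 1) = 0
  · have h2 : y 0 * 1 - y 1 * 1 = 0 := congrFun h 2
    refine ⟨![1, -1, 0], ⟨![1, 0, 0], by simp [dot]⟩, by simp [dot]; linarith, by simp [sm], ?_⟩
    have := nrm_pos hy
    have e : nrm ![1, -1, 0] = 1 := by simp [nrm]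
    omega
  · refine ⟨pp (cross y (fun _ => 1)), prim_pp h, dot_pp_eq_zero h (by simp [dot]; ring), ?_, ?_⟩
    · have := dot_pp_eq_zero (c := fun _ => 1) h (by simp [dot])
      simpa [dot, sm] using this
    · refine (nrm_pp_le h).trans ((nrm_cross_le _ _).trans ?_)
      have e : nrm (fun _ => 1) = 1 := by simp [nrm]
      rw [e]; simp

end Vale.Agent.P036
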